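import Vale.Agent.P151.Cluster

/-! Balls of a graph given by neighbour lists, and lower bounds certified by finite edge sets. -/

namespace Vale.Agent.P151

variable {V : Type*} [DecidableEq V]

/-- Symmetric neighbour lists of size at most `Δ`. -/
structure Nb (nb : V → Finset V) (Δ : ℕ) : Prop where
  symm : ∀ a b, b ∈ nb a → a ∈ nb b
  card : ∀ a, (nb a).card ≤ Δ

/-- The edges of the graph. -/
def IsE (nb : V → Finset V) (e : Sym2 V) : Prop := ∃ a b, b ∈ nb a ∧ e = s(a, b)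

/-- The `n`-neighbourhood of a finite set. -/
def nbh (nb : V → Finset V) : ℕ → Finset V → Finset V
  | 0, S => S
  | n + 1, S => nbh nb n S ∪ (nbh nb n S).biUnion nb

/-- The ball of radius `n`. -/
def ball (nb : V → Finset V) (n : ℕ) (u : V) : Finset V := nbh nb n {u}

/-- The edges with both ends in `S`. -/
def inE (nb : V → Finset V) (S : Finset V) : Finset (Sym2 V) :=
  S.biUnion fun a => ((nb a).filter (fun b => b ∈ S)).image (fun b => s(a, b))

/-- The weights with the ball of radius `r` about `u` opened. -/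
noncomputable def opn (nb : V → Finset V) (w : Sym2 V → ℝ) (r : ℕ) (u : V) : Sym2 V → ℝ :=
  rev w (inE nb (ball nb r u)) (inE nb (ball nb r u))

/-- Indicator that `a` is joined to `T`. -/
noncomputable def hit (a : V) (T : Set V) (ω : Finset (Sym2 V)) : ℝ := ind (a ∈ Cl ω T)

/-- A lower bound certified by a finite set of allowed edges. -/
def Lb (w : Sym2 V → ℝ) (ok : Sym2 V → Prop) (f : Finset (Sym2 V) → ℝ) (c : ℝ) : Prop :=
  ∃ F : Finset (Sym2 V), (∀ e ∈ F, ok e) ∧ c ≤ Ex w F f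

variable {nb : V → Finset V} {Δ m n r : ℕ} {S S' : Finset V} {a b u v : V} {T T' : Set V}
  {w w' : Sym2 V → ℝ} {ok ok' : Sym2 V → Prop} {f f' : Finset (Sym2 V) → ℝ} {c c' : ℝ}
  {ω : Finset (Sym2 V)}

omit [DecidableEq V] in
theorem isE_mk (h : Nb nb Δ) : IsE nb s(a, b) ↔ b ∈ nb a := by
  refine ⟨fun ⟨x, y, hxy, he⟩ => ?_, fun h => ⟨a, b, h, rfl⟩⟩
  rcases Sym2.eq_iff.1 he with ⟨rfl, rfl⟩ | ⟨rfl, rfl⟩
  · exact hxy
  · exact h.symm _ _ hxy

theorem mem_nbh_succ : v ∈ nbh nb (n + 1) S ↔ v ∈ nbh nb n S ∨ ∃ a ∈ nbh nb n S, v ∈ nb a := by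
  simp [nbh]

theorem nbh_mono (h : S ⊆ S') : nbh nb n S ⊆ nbh nb n S' := by
  induction n with
  | zero => exact h
  | succ n ih =>
    intro v hv
    rcases mem_nbh_succ.1 hv with h1 | ⟨a, ha, h1⟩
    · exact mem_nbh_succ.2 (Or.inl (ih h1))
    · exact mem_nbh_succ.2 (Or.inr ⟨a, ih ha, h1⟩)

theorem nbh_le (h : m ≤ n) : nbh nb m S ⊆ nbh nb n S := by
  induction h with
  | refl => exact subset_rfl
  | step _ ih => exact fun v hv => mem_nbh_succ.2 (Or.inl (ih hv))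

theorem nbh_add : nbh nb (m + n) S = nbh nb n (nbh nb m S) := by
  induction n with
  | zero => rfl
  | succ n ih => rw [← add_assoc, nbh, ih, nbh]

theorem mem_nbh : v ∈ nbh nb n S ↔ ∃ u ∈ S, v ∈ ball nb n u := by
  constructor
  · intro h
    induction n generalizing v with
    | zero => exact ⟨v, h, Finset.mem_singleton_self _⟩
    | succ n ih =>
      rcases mem_nbh_succ.1 h with h1 | ⟨a, ha, h1⟩
      · obtain ⟨u, hu, h2⟩ := ih h1
        exact ⟨u, hu, mem_nbh_succ.2 (Or.inl h2)⟩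
      · obtain ⟨u, hu, h2⟩ := ih ha
        exact ⟨u, hu, mem_nbh_succ.2 (Or.inr ⟨a, h2, h1⟩)⟩
  · rintro ⟨u, hu, h⟩
    exact nbh_mono (Finset.singleton_subset_iff.2 hu) h

theorem mem_ball_zero : v ∈ ball nb 0 u ↔ v = u := Finset.mem_singleton

theorem mem_ball_succ : v ∈ ball nb (n + 1) u ↔ v ∈ ball nb n u ∨ ∃ a ∈ ball nb n u, v ∈ nb a :=
  mem_nbh_succ

theorem ball_le (h : m ≤ n) : ball nb m u ⊆ ball nb n u := nbh_le h

theorem mem_ball_self : u ∈ ball nb n u := ball_le (Nat.zero_le n) (mem_ball_zero.2 rfl)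

theorem mem_ball_add : v ∈ ball nb (m + n) u ↔ ∃ a ∈ ball nb m u, v ∈ ball nb n a := by
  rw [ball, nbh_add, mem_nbh]; rfl

theorem ball_trans (ha : a ∈ ball nb m u) (hv : v ∈ ball nb n a) : v ∈ ball nb (m + n) u :=
  mem_ball_add.2 ⟨a, ha, hv⟩

theorem mem_ball_one (h : b ∈ nb a) : b ∈ ball nb 1 a :=
  mem_ball_succ.2 (Or.inr ⟨a, mem_ball_self, h⟩)

theorem ball_step (ha : a ∈ ball nb n u) (h : b ∈ nb a) : b ∈ ball nb (n + 1) u :=
  mem_ball_succ.2 (Or.inr ⟨a, ha, h⟩)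

theorem ball_symm (h : Nb nb Δ) (hv : v ∈ ball nb n u) : u ∈ ball nb n v := by
  induction n generalizing v with
  | zero => exact mem_ball_zero.2 (mem_ball_zero.1 hv).symm
  | succ n ih =>
    rcases mem_ball_succ.1 hv with h1 | ⟨a, ha, h1⟩
    · exact ball_le (Nat.le_succ n) (ih h1)
    · rw [add_comm]
      exact ball_trans (mem_ball_one (h.symm _ _ h1)) (ih ha)

theorem card_nbh (h : Nb nb Δ) : (nbh nb n S).card ≤ S.card * (Δ + 1) ^ n := by
  induction n with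
  | zero => simp [nbh]
  | succ n ih =>
    have h1 : ((nbh nb n S).biUnion nb).card ≤ (nbh nb n S).card * Δ :=
      Finset.card_biUnion_le_card_mul _ _ _ fun a _ => h.card a
    calc (nbh nb (n + 1) S).card ≤ (nbh nb n S).card + (nbh nb n S).card * Δ :=
          (Finset.card_union_le _ _).trans (Nat.add_le_add_left h1 _)
      _ = (nbh nb n S).card * (Δ + 1) := by ring
      _ ≤ S.card * (Δ + 1) ^ n * (Δ + 1) := Nat.mul_le_mul_right _ ih
      _ = _ := by ring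

theorem card_ball (h : Nb nb Δ) : (ball nb n u).card ≤ (Δ + 1) ^ n := by
  simpa [ball] using card_nbh (n := n) (S := {u}) h

/-- A function changing by at most `l` along edges changes by at most `n * l` in a ball. -/
theorem ball_lip {φ : V → ℝ} {l : ℝ} (hl : 0 ≤ l) (hφ : ∀ a, ∀ b ∈ nb a, |φ b - φ a| ≤ l)
    (hv : v ∈ ball nb n u) : |φ v - φ u| ≤ n * l := by
  induction n generalizing v with
  | zero => simp [mem_ball_zero.1 hv]
  | succ n ih =>
    push_cast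
    rcases mem_ball_succ.1 hv with h1 | ⟨a, ha, h1⟩
    · linarith [ih h1]
    · have := abs_sub_le (φ v) (φ a) (φ u)
      linarith [ih ha, hφ a v h1]

theorem mem_inE {e : Sym2 V} :
    e ∈ inE nb S ↔ ∃ a ∈ S, ∃ b ∈ S, b ∈ nb a ∧ e = s(a, b) := by
  simp only [inE, Finset.mem_biUnion, Finset.mem_image, Finset.mem_filter]
  exact ⟨fun ⟨a, ha, b, hb, he⟩ => ⟨a, ha, b, hb.2, hb.1, he.symm⟩,
    fun ⟨a, ha, b, hb, h1, he⟩ => ⟨a, ha, b, ⟨h1, hb⟩, he.symm⟩⟩

theorem isE_of_mem_inE {e : Sym2 V} (h : e ∈ inE nb S) : IsE nb e :=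
  let ⟨a, _, b, _, h1, h2⟩ := mem_inE.1 h; ⟨a, b, h1, h2⟩

theorem mem_of_mem_inE {e : Sym2 V} (h : e ∈ inE nb S) (hv : v ∈ e) : v ∈ S := by
  obtain ⟨a, ha, b, hb, _, rfl⟩ := mem_inE.1 h
  rcases Sym2.mem_iff.1 hv with rfl | rfl
  · exact ha
  · exact hb

theorem inE_mono (h : S ⊆ S') : inE nb S ⊆ inE nb S' := fun _ he =>
  let ⟨a, ha, b, hb, h1⟩ := mem_inE.1 he; mem_inE.2 ⟨a, h ha, b, h hb, h1⟩

theorem card_inE (h : Nb nb Δ) : (inE nb S).card ≤ S.card * Δ :=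
  Finset.card_biUnion_le_card_mul _ _ _ fun a _ =>
    Finset.card_image_le.trans ((Finset.card_filter_le _ _).trans (h.card a))

theorem conn_of_ball (hω : inE nb (ball nb r u) ⊆ ω) (hv : v ∈ ball nb r u) : Conn ω u v := by
  have key : ∀ n ≤ r, ∀ v ∈ ball nb n u, Conn ω u v := by
    intro n hn
    induction n with
    | zero => intro v hv; rw [mem_ball_zero.1 hv]; exact Conn.refl _ _
    | succ n ih =>
      intro v hv
      rcases mem_ball_succ.1 hv with h1 | ⟨a, ha, h1⟩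
      · exact ih (by omega) v h1
      · exact (ih (by omega) a ha).tail
          (hω (mem_inE.2 ⟨a, ball_le (by omega) ha, v, ball_le hn hv, h1, rfl⟩))
  exact key r le_rfl v hv

theorem Wt.opn (hw : Wt w) (nb : V → Finset V) (r : ℕ) (u : V) : Wt (opn nb w r u) := hw.rev _ _

theorem opn_of_mem {e : Sym2 V} (h : e ∈ inE nb (ball nb r u)) : opn nb w r u e = 1 := by
  simp [opn, rev, h]

theorem opn_of_not_mem {e : Sym2 V} (h : e ∉ inE nb (ball nb r u)) : opn nb w r u e = w e := by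
  simp [opn, rev, h]

theorem le_opn (hw : Wt w) (e : Sym2 V) : w e ≤ opn nb w r u e := by
  by_cases h : e ∈ inE nb (ball nb r u)
  · rw [opn_of_mem h]; exact (hw e).2
  · rw [opn_of_not_mem h]

theorem opn_le_opn {e : Sym2 V} (h : w e ≤ w' e) : opn nb w r u e ≤ opn nb w' r u e := by
  by_cases h : e ∈ inE nb (ball nb r u)
  · rw [opn_of_mem h, opn_of_mem h]
  · rwa [opn_of_not_mem h, opn_of_not_mem h]

omit [DecidableEq V] in
theorem hit_mono (a : V) (T : Set V) : Monotone (hit a T) :=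
  fun _ _ h => ind_mono fun h' => Cl_mono h subset_rfl h'

omit [DecidableEq V] in
theorem hit_le_hit (h : T ⊆ T') : hit a T ω ≤ hit a T' ω :=
  ind_mono fun h' => Cl_mono subset_rfl h h'

omit [DecidableEq V] in
theorem hit_nonneg : 0 ≤ hit a T ω := ind_nonneg _

omit [DecidableEq V] in
theorem hit_le_one : hit a T ω ≤ 1 := ind_le_one _

omit [DecidableEq V] in
theorem hit_of_mem (h : a ∈ T) : hit a T ω = 1 := ind_pos (subset_Cl h)

theorem Lb.le (h : Lb w ok f c) (hc : c' ≤ c) : Lb w ok f c' :=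
  let ⟨F, h1, h2⟩ := h; ⟨F, h1, hc.trans h2⟩

theorem Lb.mono_ok (h : Lb w ok f c) (hok : ∀ e, ok e → ok' e) : Lb w ok' f c :=
  let ⟨F, h1, h2⟩ := h; ⟨F, fun e he => hok e (h1 e he), h2⟩

theorem Lb.fn (h : Lb w ok f c) (hw : Wt w)
    (hf : ∀ ω : Finset (Sym2 V), (∀ e ∈ ω, ok e) → f ω ≤ f' ω) : Lb w ok f' c :=
  let ⟨F, h1, h2⟩ := h; ⟨F, h1, h2.trans (Ex_mono hw fun ω hω => hf ω fun e he => h1 e (hω he))⟩

theorem Lb.wt (h : Lb w ok f c) (hw : Wt w) (hw' : Wt w') (hf : Monotone f)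
    (hle : ∀ e, ok e → w e ≤ w' e) : Lb w' ok f c :=
  let ⟨F, h1, h2⟩ := h; ⟨F, h1, h2.trans (Ex_mono_w hw hw' (fun e he => hle e (h1 e he)) hf)⟩

theorem Lb.congr_w (h : Lb w ok f c) (hle : ∀ e, ok e → w e = w' e) : Lb w' ok f c :=
  let ⟨F, h1, h2⟩ := h; ⟨F, h1, h2.trans (Ex_congr_w fun e he => hle e (h1 e he)).le⟩

theorem Lb.of_le (h : c ≤ f ∅) : Lb w ok f c := ⟨∅, by simp, by simpa using h⟩

theorem Lb.hit_mono (h : Lb w ok (hit a T) c) (hw : Wt w) (hT : T ⊆ T') :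
    Lb w ok (hit a T') c := h.fn hw fun _ _ => hit_le_hit hT

/-- Finitely many certificates can be merged. -/
theorem Lb.merge {κ : Type*} (I : Finset κ) (W : κ → Sym2 V → ℝ) (g : κ → Finset (Sym2 V) → ℝ)
    (d : κ → ℝ) (hW : ∀ i ∈ I, Wt (W i)) (hg : ∀ i ∈ I, Monotone (g i))
    (h : ∀ i ∈ I, Lb (W i) ok (g i) (d i)) :
    ∃ F : Finset (Sym2 V), (∀ e ∈ F, ok e) ∧ ∀ F', F ⊆ F' → ∀ i ∈ I, d i ≤ Ex (W i) F' (g i) := by
  choose! G h1 h2 using h
  refine ⟨I.biUnion G, fun e he => ?_, fun F' hF i hi => (h2 i hi).trans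
    (Ex_le_of_subset (hW i hi) ((Finset.subset_biUnion_of_mem G hi).trans hF) (hg i hi))⟩
  obtain ⟨i, hi, he⟩ := Finset.mem_biUnion.1 he
  exact h1 i hi e he

/-- Reveal a finite set of edges. -/
theorem Lb.tower (hw : Wt w) (hf : Monotone f) (E : Finset (Sym2 V)) (g : Finset (Sym2 V) → ℝ)
    (h : ∀ ξ ⊆ E, Lb (rev w E ξ) ok f (g ξ)) : Lb w ok f (Ex w E g) := by
  obtain ⟨F, h1, h2⟩ := Lb.merge E.powerset (fun ξ => rev w E ξ) (fun _ => f) g
    (fun ξ _ => hw.rev _ _) (fun _ _ => hf) fun ξ hξ => h ξ (Finset.mem_powerset.1 hξ)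
  refine ⟨F, h1, ?_⟩
  rw [Ex_tower (F := F) E]
  exact Ex_mono hw fun ξ hξ => h2 F subset_rfl ξ (Finset.mem_powerset.2 hξ)

/-- Edges of weight one may be assumed open. -/
theorem Ex_mono_one (hw : Wt w) {F : Finset (Sym2 V)}
    (h : ∀ ω ⊆ F, (∀ e ∈ F, w e = 1 → e ∈ ω) → f ω ≤ f' ω) : Ex w F f ≤ Ex w F f' := by
  refine Finset.sum_le_sum fun ω hω => ?_
  by_cases h1 : ∀ e ∈ F, w e = 1 → e ∈ ω
  · exact mul_le_mul_of_nonneg_left (h ω (Finset.mem_powerset.1 hω) h1)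
      (mul_nonneg (Finset.prod_nonneg fun e _ => (hw e).1)
        (Finset.prod_nonneg fun e _ => sub_nonneg.2 (hw e).2))
  · push Not at h1
    obtain ⟨e, he, h2, h3⟩ := h1
    rw [Finset.prod_eq_zero (i := e) (Finset.mem_sdiff.2 ⟨he, h3⟩) (by rw [h2, sub_self])]
    simp

/-- With a ball opened, its centre may be replaced by any point of the ball. -/
theorem Lb.opn_ball (hw : Wt w) (hok : ∀ e ∈ inE nb (ball nb r u), ok e) (hv : v ∈ ball nb r u)
    (h : Lb (opn nb w r u) ok (hit v T) c) : Lb (opn nb w r u) ok (hit u T) c := by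
  obtain ⟨F, h1, h2⟩ := h
  refine ⟨F ∪ inE nb (ball nb r u), fun e he => (Finset.mem_union.1 he).elim (h1 e) (hok e),
    h2.trans ((Ex_le_of_subset (hw.opn _ _ _) Finset.subset_union_left
      (Vale.Agent.P151.hit_mono _ _)).trans (Ex_mono_one (hw.opn _ _ _) fun ω _ hω => ?_))⟩
  exact ind_mono fun h3 => Cl_trans h3
    (conn_of_ball (fun e he => hω e (Finset.mem_union_right _ he) (opn_of_mem he)) hv).symm

end Vale.Agent.P151
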