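import Vale.Agent.P151.Defs

/-! Steering along a corridor. -/

namespace Vale.Agent.P151

/-- The constants of the renormalisation. -/
structure RC (V : Type*) [DecidableEq V] where
  nb : V → Finset V
  Δ : ℕ
  lo : ℝ
  hi : ℝ
  η : ℝ
  δ : ℝ
  r : ℕ
  J : ℕ
  p : ℝ
  lam : ℝ
  ε : ℝ
  N : ℕ
  hnb : Nb nb Δ
  hext : Ext nb lo hi η δ r J
  hlo : lo ≤ p
  hhi : p ≤ hi
  hp0 : 0 ≤ p
  hp1 : p < 1
  hδ : 0 ≤ δ
  hη : 0 ≤ η
  hlam : 0 ≤ lam
  hJ : (J + r + 1) * lam ≤ ε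
  hε : ε ≤ 1 / 8
  hN : 2 * ε * N ≤ 1

variable {V : Type*} [DecidableEq V]

/-- Coordinates with two good moves. -/
structure RC.Co (C : RC V) (α β : V → ℝ) : Prop where
  la : Lip C.nb α C.lam
  lb : Lip C.nb β C.lam
  m1 : Move C.nb C.p C.r C.δ C.ε α β
  m2 : Move C.nb C.p C.r C.δ C.ε β α

theorem RC.Co.swap {C : RC V} {α β : V → ℝ} (h : C.Co α β) : C.Co β α := ⟨h.lb, h.la, h.m2, h.m1⟩

theorem RC.eps_nonneg (C : RC V) : 0 ≤ C.ε := le_trans (by have := C.hlam; positivity) C.hJ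

theorem RC.lam_le (C : RC V) : C.lam ≤ C.ε := by
  have := C.hlam
  have := C.hJ
  nlinarith [mul_nonneg (Nat.cast_nonneg (α := ℝ) C.J) C.hlam,
    mul_nonneg (Nat.cast_nonneg (α := ℝ) C.r) C.hlam]

theorem RC.ballJ (C : RC V) {φ : V → ℝ} (h : Lip C.nb φ C.lam) {u t : V}
    (hu : u ∈ ball C.nb C.J t) : |φ u - φ t| ≤ C.ε := by
  have := C.hJ
  nlinarith [ball_lip C.hlam h hu, mul_nonneg (Nat.cast_nonneg (α := ℝ) C.r) C.hlam, C.hlam]

theorem RC.ballr (C : RC V) {φ : V → ℝ} (h : Lip C.nb φ C.lam) {u t : V}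
    (hu : u ∈ ball C.nb C.r t) : |φ u - φ t| ≤ C.ε := by
  have := C.hJ
  nlinarith [ball_lip C.hlam h hu, mul_nonneg (Nat.cast_nonneg (α := ℝ) C.J) C.hlam, C.hlam]

/-- The intermediate targets. -/
def Tg (s₀ s₁ d₀ S b₀ k e a b : ℝ) : Prop :=
  (s₀ + k ≤ a + b ∨ S ≤ a + b) ∧ a + b ≤ S + 3 + e ∧
    (b - b₀ ≤ 4 + e ∨ b - b₀ ≤ d₀ - (a + b - s₁) / 4 + e) ∧
    (b₀ - b ≤ 4 + e ∨ b₀ - b ≤ d₀ - (a + b - s₁) / 4 + e)

/-- The zone used by the chain, with margin `m`. -/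
def Zn (s₀ S b₀ G m a b : ℝ) : Prop :=
  s₀ - b₀ - G - 1 - m ≤ a ∧ a ≤ S - b₀ + G + 5 + m ∧ b - b₀ ≤ G + 1 + m ∧ b₀ - b ≤ G + 1 + m

section
variable {s₀ s₁ d₀ S b₀ G k e a b a' b' ε m : ℝ}

theorem Tg.zone (h : Tg s₀ s₁ d₀ S b₀ k e a b) (hk : 0 ≤ k) (he : e ≤ 1) (hS : s₀ ≤ S)
    (hG : 4 ≤ G) (hG' : d₀ + (s₁ - s₀) / 4 ≤ G) : s₀ ≤ a + b ∧ Zn s₀ S b₀ G 0 a b := by
  obtain ⟨h1, h2, h3, h4⟩ := h
  have h5 : s₀ ≤ a + b := by rcases h1 with h1 | h1 <;> linarith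
  have h6 : b - b₀ ≤ G + 1 := by rcases h3 with h3 | h3 <;> linarith
  have h7 : b₀ - b ≤ G + 1 := by rcases h4 with h4 | h4 <;> linarith
  exact ⟨h5, by linarith, by linarith, by linarith, by linarith⟩

theorem Zn.near {m' t : ℝ} (h : Zn s₀ S b₀ G m a b) (ha : |a' - a| ≤ t) (hb : |b' - b| ≤ t)
    (hm : m + t ≤ m') : Zn s₀ S b₀ G m' a' b' := by
  obtain ⟨h1, h2, h3, h4⟩ := h
  rw [abs_le] at ha hb
  exact ⟨by linarith, by linarith, by linarith, by linarith⟩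

theorem Tg.stop (h : Tg s₀ s₁ d₀ S b₀ k e a b) (ha : |a' - a| ≤ ε) (hb : |b' - b| ≤ ε)
    (hS : S ≤ a' + b') : Tg s₀ s₁ d₀ S b₀ (k + 1) (e + 2 * ε) a' b' := by
  obtain ⟨_, h2, h3, h4⟩ := h
  rw [abs_le] at ha hb
  exact ⟨Or.inr hS, by linarith, h3.imp (fun h => by linarith) fun h => by linarith,
    h4.imp (fun h => by linarith) fun h => by linarith⟩

theorem Tg.down {a'' b'' : ℝ} (h : Tg s₀ s₁ d₀ S b₀ k e a b) (ha : |a' - a| ≤ ε)
    (hb : |b' - b| ≤ ε) (hS : a' + b' ≤ S) (hb' : b₀ ≤ b') (hε : ε ≤ 1 / 8) (he : 0 ≤ e)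
    (h1 : |a'' - a' - 3| ≤ ε) (h2 : |b'' - b' + 1| ≤ ε) :
    Tg s₀ s₁ d₀ S b₀ (k + 1) (e + 2 * ε) a'' b'' := by
  obtain ⟨h3, _, h5, _⟩ := h
  rw [abs_le] at ha hb h1 h2
  exact ⟨h3.imp (fun h => by linarith) fun h => by linarith, by linarith,
    h5.imp (fun h => by linarith) fun h => by linarith, Or.inl (by linarith)⟩

theorem Tg.up {a'' b'' : ℝ} (h : Tg s₀ s₁ d₀ S b₀ k e a b) (ha : |a' - a| ≤ ε)
    (hb : |b' - b| ≤ ε) (hS : a' + b' ≤ S) (hb' : b' ≤ b₀) (hε : ε ≤ 1 / 8) (he : 0 ≤ e)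
    (h1 : |b'' - b' - 3| ≤ ε) (h2 : |a'' - a' + 1| ≤ ε) :
    Tg s₀ s₁ d₀ S b₀ (k + 1) (e + 2 * ε) a'' b'' := by
  obtain ⟨h3, _, _, h6⟩ := h
  rw [abs_le] at ha hb h1 h2
  exact ⟨h3.imp (fun h => by linarith) fun h => by linarith, by linarith,
    Or.inl (by linarith), h6.imp (fun h => by linarith) fun h => by linarith⟩

end

theorem RC.chain (C : RC V) {α β : V → ℝ} (hco : C.Co α β) {w : Sym2 V → ℝ} {ok : Sym2 V → Prop}
    {o : V} (hw : Wt w) (hok : ∀ e, ok e → IsE C.nb e) {s₀ s₁ d₀ S b₀ G : ℝ} (hS : s₀ ≤ S)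
    (hG : 4 ≤ G) (hG' : d₀ + (s₁ - s₀) / 4 ≤ G) (hN : S ≤ s₀ + C.N) (hd : d₀ - (S - s₁) / 4 ≤ 4)
    (hdom : ∀ e, IsE C.nb e → (∀ v ∈ e, Zn s₀ S b₀ G 42 (α v) (β v)) → ok e ∧ C.p ≤ w e)
    (hfresh : ∀ a, ∀ b ∈ C.nb a, s₀ - 1 / 2 ≤ α a + β a → Zn s₀ S b₀ G 42 (α a) (β a) →
      Zn s₀ S b₀ G 42 (α b) (β b) → w s(a, b) ≤ C.p)
    (ho : ¬ (s₀ - 1 / 2 ≤ α o + β o ∧ Zn s₀ S b₀ G 42 (α o) (β o)))
    {T₀ T₁ : Set V} (h₀ : ∀ v ∈ T₀, s₀ ≤ α v + β v ∧ α v + β v ≤ s₁ ∧ α v + β v ≤ S + 3 ∧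
      β v - b₀ ≤ d₀ ∧ b₀ - β v ≤ d₀)
    (h₁ : ∀ v, S ≤ α v + β v → α v + β v ≤ S + 4 → β v - b₀ ≤ 5 → b₀ - β v ≤ 5 → v ∈ T₁)
    {c : ℝ} (h : Lb w ok (hit o T₀) c) : Lb w ok (hit o T₁) (c - C.N * C.η) := by
  have hε0 := C.eps_nonneg
  have hε := C.hε
  have hwp : Wt (fun _ : Sym2 V => C.p) := fun _ => ⟨C.hp0, C.hp1.le⟩
  have key : ∀ k : ℕ, k ≤ C.N →
      Lb w ok (hit o {v | Tg s₀ s₁ d₀ S b₀ k (2 * C.ε * k) (α v) (β v)}) (c - k * C.η) := by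
    intro k
    induction k with
    | zero =>
      intro _
      refine (h.hit_mono hw fun v hv => ?_).le (by simp)
      obtain ⟨h1, h2, h3, h4, h5⟩ := h₀ v hv
      exact ⟨Or.inl (by simpa using h1), by simpa using h3, Or.inr (by simp; linarith),
        Or.inr (by simp; linarith)⟩
    | succ k ih =>
      intro hk
      have hk' : (k : ℝ) + 1 ≤ C.N := by exact_mod_cast hk
      have he : 2 * C.ε * k ≤ 1 := by nlinarith [C.hN]
      have hz : ∀ t, Tg s₀ s₁ d₀ S b₀ k (2 * C.ε * k) (α t) (β t) → ∀ u ∈ ball C.nb C.J t,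
          s₀ - 1 / 2 ≤ α u + β u ∧ Zn s₀ S b₀ G 1 (α u) (β u) := by
        intro t ht u hu
        obtain ⟨h1, h2⟩ := ht.zone (Nat.cast_nonneg _) he hS hG hG'
        have h3 := C.ballJ hco.la hu
        have h4 := C.ballJ hco.lb hu
        exact ⟨by rw [abs_le] at h3 h4; linarith, h2.near h3 h4 (by linarith)⟩
      have h1 := C.hext w ok o {v | Tg s₀ s₁ d₀ S b₀ k (2 * C.ε * k) (α v) (β v)}
        {v | Tg s₀ s₁ d₀ S b₀ (k + 1) (2 * C.ε * k + 2 * C.ε) (α v) (β v)} (c - k * C.η) hw hok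
        (fun t ht h => ho ⟨(hz t ht o h).1, (hz t ht o h).2.near (t := 0) (by simp) (by simp)
          (by norm_num)⟩)
        (fun t ht a ha b hb => by
          have h2 := (hz t ht a ha).2.near (a' := α a) (b' := β a) (t := 0) (m' := 42) (by simp)
            (by simp) (by norm_num)
          have h3 := (hz t ht a ha).2.near (hco.la a b hb) (hco.lb a b hb) (m' := 42)
            (by linarith [C.lam_le])
          have h4 := hdom s(a, b) ⟨a, b, hb, rfl⟩ fun v hv => by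
            rcases Sym2.mem_iff.1 hv with rfl | rfl
            · exact h2
            · exact h3
          exact ⟨h4.1, C.hlo.trans h4.2, (hfresh a b hb (hz t ht a ha).1 h2 h3).trans C.hhi⟩)
        (fun t ht u hu => by
          have h2 := C.ballJ hco.la hu
          have h3 := C.ballJ hco.lb hu
          have h4 := (hz t ht u hu).2
          have he0 : 0 ≤ 2 * C.ε * k := by positivity
          rcases le_total S (α u + β u) with h5 | h5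
          · exact Lb.of_le (le_trans (by linarith [C.hδ])
              (hit_of_mem (by exact Tg.stop ht h2 h3 h5)).ge)
          rcases le_total b₀ (β u) with h6 | h6
          · have h7 : ∀ e, Dom C.nb α β u e → ok e ∧ C.p ≤ w e := fun e he =>
              hdom e he.1 fun v hv => h4.near (he.2 v hv).1 (he.2 v hv).2 (by norm_num)
            exact (((hco.m1 u).wt (hwp.opn _ _ _) (hw.opn _ _ _) (hit_mono _ _)
              fun e he => opn_le_opn (h7 e he).2).mono_ok fun e he => (h7 e he).1).hit_mono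
              (hw.opn _ _ _) fun v hv => Tg.down ht h2 h3 h5 h6 hε he0 hv.1 hv.2
          · have h7 : ∀ e, Dom C.nb β α u e → ok e ∧ C.p ≤ w e := fun e he =>
              hdom e he.1 fun v hv => h4.near (he.2 v hv).2 (he.2 v hv).1 (by norm_num)
            exact (((hco.m2 u).wt (hwp.opn _ _ _) (hw.opn _ _ _) (hit_mono _ _)
              fun e he => opn_le_opn (h7 e he).2).mono_ok fun e he => (h7 e he).1).hit_mono
              (hw.opn _ _ _) fun v hv => Tg.up ht h2 h3 h5 h6 hε he0 hv.1 hv.2)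
        ((ih (by omega)).hit_mono hw Set.subset_union_left)
      push_cast
      rw [mul_add, mul_one]
      exact h1.le (by linarith)
  refine (key C.N le_rfl).hit_mono hw fun v hv => ?_
  obtain ⟨h1, h2, h3, h4⟩ := hv
  have h5 : S ≤ α v + β v := by rcases h1 with h1 | h1 <;> linarith
  have h6 := C.hN
  exact h₁ v h5 (by linarith) (by rcases h3 with h3 | h3 <;> linarith)
    (by rcases h4 with h4 | h4 <;> linarith)

end Vale.Agent.P151
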