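import Vale.Agent.P151.KLevel

/-! Passing the connection from a box to a neighbouring box. -/

namespace Vale.Agent.P151

variable {V : Type*}

/-- The piece with given labels. -/
def At (L : ℝ) (α β : V → ℝ) (m n : ℤ) : Set V := {v | lab L (α v) = m ∧ lab L (β v) = n}

/-- Edges inside `R`, or known to be open. -/
def okR (nb : V → Finset V) (w : Sym2 V → ℝ) (R : Set V) (e : Sym2 V) : Prop :=
  IsE nb e ∧ ((∀ v ∈ e, v ∈ R) ∨ w e = 1)

/-- The weights `w'` come from `w` by revealing edges inside `Z`. -/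
def Rf (Z : Set V) (w w' : Sym2 V → ℝ) : Prop :=
  Wt w' ∧ ∀ e, w' e = w e ∨ (w e ≠ 1 ∧ ∀ v ∈ e, v ∈ Z)

/-- The target in the middle of a box. -/
def Tx (L : ℝ) (α β : V → ℝ) (i j : ℤ) : Set V := {v | |α v - L * i| ≤ 10 ∧ |β v - L * j| ≤ 10}

/-- The part of a link ahead of level `k`. -/
def Ah (L : ℝ) (α β : V → ℝ) (i j : ℤ) (k : ℕ) : Set V :=
  {v | v ∈ At L α β (2 * i + 1) (2 * j) ∧ L * i + 150 + 210 * k ≤ α v}

/-- The narrow part of a link. -/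
def Nar (L : ℝ) (α β : V → ℝ) (i j : ℤ) : Set V :=
  {v | v ∈ At L α β (2 * i + 1) (2 * j) ∧ |β v - L * j| ≤ 63}

/-- The band at level `k`. -/
def Band (L : ℝ) (α β : V → ℝ) (i j : ℤ) (k : ℕ) : Set V :=
  {v | L * i + 150 + 210 * k ≤ α v ∧ α v ≤ L * i + 151 + 210 * k ∧ |β v - L * j| ≤ 63}

variable {L : ℝ} {α β : V → ℝ} {i j : ℤ} {K k : ℕ} {w w' w'' : Sym2 V → ℝ} {Z Z' R : Set V}
  {o : V} {c : ℝ} {nb : V → Finset V}

theorem At_swap (m n : ℤ) : At L β α m n = At L α β n m := Set.ext fun _ => and_comm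

theorem Tx_swap : Tx L β α j i = Tx L α β i j := Set.ext fun _ => and_comm

theorem Ah_anti {k k' : ℕ} (h : k ≤ k') : Ah L α β i j k' ⊆ Ah L α β i j k := fun v hv =>
  ⟨hv.1, le_trans (by have : (k : ℝ) ≤ k' := Nat.cast_le.2 h; linarith) hv.2⟩

theorem Rf.mono (h : Rf Z w w') (hZ : Z ⊆ Z') : Rf Z' w w' :=
  ⟨h.1, fun e => (h.2 e).imp_right fun h => ⟨h.1, fun v hv => hZ (h.2 v hv)⟩⟩

theorem Rf.trans (h : Rf Z w w') (h' : Rf Z w' w'') : Rf Z w w'' :=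
  ⟨h'.1, fun e => (h.2 e).elim (fun h1 => (h'.2 e).imp (fun h2 => h2.trans h1)
    fun h2 => ⟨h1 ▸ h2.1, h2.2⟩) Or.inr⟩

theorem Rf.eq_of_touch (h : Rf Z w w') {e : Sym2 V} (hd : Disjoint R Z) (he : Touch R e) :
    w' e = w e :=
  let ⟨v, hv, hve⟩ := he
  (h.2 e).resolve_right fun h1 => Set.disjoint_left.1 hd hv (h1.2 v hve)

theorem touch_of_forall {e : Sym2 V} (h : ∀ v ∈ e, v ∈ R) : Touch R e :=
  ⟨e.out.1, h _ (Sym2.out_fst_mem e), Sym2.out_fst_mem e⟩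

theorem Rf.eq_of_okR (h : Rf Z w w') {e : Sym2 V} (hd : Disjoint R Z) (he : okR nb w R e) :
    w' e = w e :=
  he.2.elim (fun h1 => h.eq_of_touch hd (touch_of_forall h1))
    fun h1 => (h.2 e).resolve_right fun h2 => h2.1 h1

theorem okR.mono {R' : Set V} {e : Sym2 V} (h : okR nb w R e) (hR : R ⊆ R') : okR nb w R' e :=
  ⟨h.1, h.2.imp_left fun h v hv => hR (h v hv)⟩

variable [DecidableEq V]

theorem Rf.claim (h : Rf Z w w') (hd : Disjoint R Z) {f : Finset (Sym2 V) → ℝ}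
    (hc : Lb w (okR nb w R) f c) : Lb w' (okR nb w' R) f c :=
  (hc.congr_w fun _ he => (h.eq_of_okR hd he).symm).mono_ok fun _ he =>
    ⟨he.1, he.2.imp_right fun h1 => (h.eq_of_okR hd he).trans h1⟩

theorem RC.phase1 (C : RC V) (hco : C.Co α β) (hL : L = 210 * K + 460) (hN : L ≤ C.N)
    (hi : 0 ≤ i) (hj : 0 ≤ j) (hw : Wt w) (ho : lab L (α o) < 0 ∨ lab L (β o) < 0) (Λ : Set V)
    (hfr : ∀ e, IsE C.nb e →
      (∀ v ∈ e, v ∈ At L α β (2 * i) (2 * j) ∪ At L α β (2 * i + 1) (2 * j)) → w e = C.p)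
    (h : Lb w (okR C.nb w (Λ ∪ At L α β (2 * i) (2 * j))) (hit o (Tx L α β i j)) c) :
    Lb w (okR C.nb w (Λ ∪ At L α β (2 * i) (2 * j) ∪ Nar L α β i j)) (hit o (Ah L α β i j K))
      (c - C.N * C.η) := by
  have hK : (0 : ℝ) ≤ K := Nat.cast_nonneg K
  have hL' : 300 ≤ L := by linarith
  have hz : ∀ v, Zn (L * i + L * j - 20) (L * i + 150 + 210 * K + L * j + 5) (L * j) 20 42
      (α v) (β v) → v ∈ At L α β (2 * i) (2 * j) ∪ Nar L α β i j := by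
    rintro v ⟨h1, h2, h3, h4⟩
    have h5 := lab_box hL' (i := j) (t := β v) (by linarith) (by linarith)
    exact (lab_box_link hL' (i := i) (t := α v) (by linarith) (by linarith)).imp
      (fun h => ⟨h, h5⟩) fun h => ⟨⟨h, h5⟩, abs_le.2 ⟨by linarith, by linarith⟩⟩
  have hz' : ∀ v, v ∈ At L α β (2 * i) (2 * j) ∪ Nar L α β i j →
      v ∈ At L α β (2 * i) (2 * j) ∪ At L α β (2 * i + 1) (2 * j) :=
    fun v hv => hv.imp_right fun h => h.1
  refine C.chain hco hw (fun e he => he.1) (s₀ := L * i + L * j - 20) (s₁ := L * i + L * j + 20)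
    (d₀ := 10) (S := L * i + 150 + 210 * K + L * j + 5) (b₀ := L * j) (G := 20) (by linarith)
    (by norm_num) (by linarith) (by linarith) (by linarith)
    (fun e he hv => ⟨⟨he, Or.inl fun v h => (hz v (hv v h)).elim (fun h => Or.inl (Or.inr h))
      Or.inr⟩, (hfr e he fun v h => hz' v (hz v (hv v h))).ge⟩)
    (fun a b hb _ h1 h2 => (hfr _ ⟨a, b, hb, rfl⟩ fun v hv => ?_).le) (fun h => ?_)
    (fun v hv => ?_) (fun v h1 h2 h3 h4 => ?_)
    (h.mono_ok fun e he => he.mono Set.subset_union_left)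
  · rcases Sym2.mem_iff.1 hv with rfl | rfl
    · exact hz' _ (hz _ h1)
    · exact hz' _ (hz _ h2)
  · rcases hz' _ (hz _ h.2) with h1 | h1 <;> obtain ⟨h1, h2⟩ := h1 <;> omega
  · obtain ⟨h1, h2⟩ := hv
    rw [abs_le] at h1 h2
    exact ⟨by linarith, by linarith, by linarith, by linarith, by linarith⟩
  · exact ⟨⟨lab_link hL' (by linarith) (by linarith), lab_box hL' (by linarith) (by linarith)⟩,
      by linarith⟩

theorem RC.entry (C : RC V) (hco : C.Co α β) (hL : 300 ≤ L) {Λ : Set V}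
    (hΛ : ∀ v ∈ Λ, lab L (α v) ≤ 2 * i) (ho : o ∉ At L α β (2 * i + 1) (2 * j))
    (hfr : ∀ e, IsE C.nb e → Touch (At L α β (2 * i + 1) (2 * j)) e → w e ≠ 1)
    {ω : Finset (Sym2 V)}
    (hω : ∀ e ∈ ω, okR C.nb w (Λ ∪ At L α β (2 * i) (2 * j) ∪ Nar L α β i j) e)
    (h : o ∈ Cl ω (Ah L α β i j (k + 1))) : o ∈ Cl ω (Band L α β i j (k + 1)) := by
  by_contra hcon
  obtain ⟨a, ha, h1⟩ := h
  refine (h1.symm.closed (P := fun v => v ∉ Ah L α β i j (k + 1) ∧ Conn ω o v)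
    ⟨fun h => ho h.1, Conn.refl _ _⟩ fun x y hx hxy => ⟨fun hy => ?_, hx.2.tail hxy⟩).1 ha
  have h2 := hω _ hxy
  have h3 := h2.2.resolve_right (hfr _ h2.1 (touch_mk.2 (Or.inr hy.1)))
  have h4 := hco.la x y ((isE_mk C.hnb).1 h2.1)
  have h5 := C.lam_le
  have h6 := C.hε
  have h7 := hy.2
  have hk : (0 : ℝ) ≤ k := Nat.cast_nonneg k
  rw [abs_le] at h4
  push_cast at h7
  have h8 := lab_ge hL (i := i) (t := α x) (by linarith)
  have h9 : x ∈ Nar L α β i j := by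
    rcases h3 x (Sym2.mem_mk_left _ _) with (h | h) | h
    · have := hΛ x h; omega
    · have := h.1; omega
    · exact h
  have h10 : y ∈ Nar L α β i j := by
    have := hy.1.1
    rcases h3 y (Sym2.mem_mk_right _ _) with (h | h) | h
    · have := hΛ y h; omega
    · have := h.1; omega
    · exact h
  have h11 : α x < L * i + 150 + 210 * ((k + 1 : ℕ) : ℝ) := lt_of_not_ge fun h => hx.1 ⟨h9.1, h⟩
  exact hcon ⟨y, ⟨hy.2, by linarith, h10.2⟩, (hx.2.tail hxy).symm⟩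

theorem RC.phase2 (C : RC V) (hco : C.Co α β) (hL : L = 210 * K + 460) (hN : L ≤ C.N)
    (hi : 0 ≤ i) (hj : 0 ≤ j) (hk : k < K) (hw : Wt w) (ho : lab L (α o) < 0 ∨ lab L (β o) < 0)
    (hfr : ∀ e, IsE C.nb e →
      (∀ v ∈ e, v ∈ Ah L α β i j k ∪ At L α β (2 * (i + 1)) (2 * j)) → w e = C.p)
    (h : Lb w (okR C.nb w (At L α β (2 * i + 1) (2 * j) ∪ At L α β (2 * (i + 1)) (2 * j)))
      (hit o (Band L α β i j (k + 1))) c) :
    Lb w (okR C.nb w (At L α β (2 * i + 1) (2 * j) ∪ At L α β (2 * (i + 1)) (2 * j)))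
      (hit o (Tx L α β (i + 1) j)) (c - C.N * C.η) := by
  have hk0 : (0 : ℝ) ≤ k := Nat.cast_nonneg k
  have hK : (k : ℝ) + 1 ≤ K := by exact_mod_cast hk
  have hL' : 300 ≤ L := by linarith
  have hz : ∀ v, Zn (L * i + 297 + 210 * k + L * j) (L * i + L + L * j - 2) (L * j) 95 42
      (α v) (β v) → v ∈ Ah L α β i j k ∪ At L α β (2 * (i + 1)) (2 * j) := by
    rintro v ⟨h1, h2, h3, h4⟩
    have h5 := lab_box hL' (i := j) (t := β v) (by linarith) (by linarith)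
    exact (lab_link_box hL' (i := i) (t := α v) (by linarith) (by linarith)).imp
      (fun h => ⟨⟨h, h5⟩, by linarith⟩) fun h => ⟨h, h5⟩
  refine C.chain hco hw (fun e he => he.1) (s₀ := L * i + 297 + 210 * k + L * j)
    (s₁ := L * i + 425 + 210 * k + L * j) (d₀ := 63) (S := L * i + L + L * j - 2) (b₀ := L * j)
    (G := 95) (by linarith) (by norm_num) (by linarith) (by linarith) (by linarith)
    (fun e he hv => ⟨⟨he, Or.inl fun v h => (hz v (hv v h)).imp_left fun h => h.1⟩,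
      (hfr e he fun v h => hz v (hv v h)).ge⟩)
    (fun a b hb _ h1 h2 => (hfr _ ⟨a, b, hb, rfl⟩ fun v hv => ?_).le) (fun h => ?_)
    (fun v hv => ?_) (fun v h1 h2 h3 h4 => ?_) h
  · rcases Sym2.mem_iff.1 hv with rfl | rfl
    · exact hz _ h1
    · exact hz _ h2
  · rcases hz _ h.2 with ⟨⟨h1, h2⟩, _⟩ | ⟨h1, h2⟩ <;> omega
  · obtain ⟨h1, h2, h3⟩ := hv
    rw [abs_le] at h3
    push_cast at h1 h2
    exact ⟨by linarith, by linarith, by linarith, by linarith, by linarith⟩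
  · exact ⟨abs_le.2 ⟨by push_cast; linarith, by push_cast; linarith⟩,
      abs_le.2 ⟨by linarith, by linarith⟩⟩

theorem RC.child (C : RC V) (hco : C.Co α β) (hL : L = 210 * K + 460) (hN : L ≤ C.N)
    (hi : 0 ≤ i) (hj : 0 ≤ j) (ho : lab L (α o) < 0 ∨ lab L (β o) < 0)
    (Val : (Sym2 V → ℝ) → ℝ → Prop) (hdown : ∀ w a b, Val w a → b ≤ a → Val w b)
    (htower : ∀ w E g, Wt w → (∀ ξ ⊆ E, Val (rev w E ξ) (g ξ)) → Val w (Ex w E g))
    {F : Finset (Sym2 V)} {hy : Prop} (hw : Wt w) (hF : ∀ e ∈ F, IsE C.nb e)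
    (hF0 : ∀ e ∈ F, ¬ (∀ v ∈ e, v ∈ Ah L α β i j 0) → w e = 0 ∨ w e = 1)
    (hentry : ∀ ω ⊆ F, ∀ k, o ∈ Cl ω (Ah L α β i j (k + 1)) → o ∈ Cl ω (Band L α β i j (k + 1)))
    (hfr : hy → ∀ e, IsE C.nb e →
      (∀ v ∈ e, v ∈ Ah L α β i j 0 ∪ At L α β (2 * (i + 1)) (2 * j)) → w e = C.p)
    {t a b : ℝ} (ht : 0 ≤ t) (hab : b ≤ a)
    (hs : ∀ w', Rf (At L α β (2 * i + 1) (2 * j)) w w' → (hy →
      Lb w' (okR C.nb w' (At L α β (2 * i + 1) (2 * j) ∪ At L α β (2 * (i + 1)) (2 * j)))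
        (hit o (Tx L α β (i + 1) j)) (t - C.N * C.η)) → Val w' a)
    (hf : ∀ w', Rf (At L α β (2 * i + 1) (2 * j)) w w' → Val w' b) :
    Val w (b + (a - b) * (Ex w F (hit o (Ah L α β i j K)) - t ^ K)) := by
  classical
  have hoA : ∀ k, o ∉ Ah L α β i j k := fun k h => by obtain ⟨⟨h1, h2⟩, _⟩ := h; omega
  have hRf : ∀ (k : ℕ) (w' : Sym2 V → ℝ), Wt w' → (∀ e, w' e = w e ∨ (w e ≠ 1 ∧
      (∀ v ∈ e, v ∈ At L α β (2 * i + 1) (2 * j)) ∧ ¬ ∀ v ∈ e, v ∈ Ah L α β i j k)) →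
      Rf (At L α β (2 * i + 1) (2 * j)) w w' :=
    fun k w' h1 h2 => ⟨h1, fun e => (h2 e).imp_right fun h => ⟨h.1, h.2.1⟩⟩
  refine klevel Val hdown htower F (fun k => hit o (Ah L α β i j (k + 1)))
    (hit o (Ah L α β i j K)) (fun k w' => Wt w' ∧ (∀ e, w' e = w e ∨ (w e ≠ 1 ∧
      (∀ v ∈ e, v ∈ At L α β (2 * i + 1) (2 * j)) ∧ ¬ ∀ v ∈ e, v ∈ Ah L α β i j k)) ∧
      ∀ e ∈ F, ¬ (∀ v ∈ e, v ∈ Ah L α β i j k) → w' e = 0 ∨ w' e = 1) K ht hab
    (fun _ => hit_le_one) (fun _ _ => hit_nonneg) (fun _ _ h => h.1)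
    (fun k w' h => hf w' (hRf k w' h.1 h.2.1)) (fun k hk w' h h1 => ?_) (fun k hk w' h => ?_)
    w ⟨hw, fun _ => Or.inl rfl, hF0⟩
  · refine hs w' (hRf k w' h.1 h.2.1) fun hy => C.phase2 hco hL hN hi hj hk h.1 ho
      (fun e he hv => ?_) (Lb.of_support h.1 (fun e he h0 => ⟨hF e he, ?_⟩)
        (h1.trans (Ex_mono h.1 fun ω hω => ind_mono (hentry ω hω k))))
    · rw [(h.2.1 e).resolve_right fun h2 => h2.2.2 fun v hv' => (hv v hv').resolve_right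
        fun h3 => by have := h3.1; have := (h2.2.1 v hv').1; omega]
      exact hfr hy e he fun v hv' => (hv v hv').imp_left fun h => Ah_anti (Nat.zero_le k) h
    · by_cases h2 : ∀ v ∈ e, v ∈ Ah L α β i j k
      · exact Or.inl fun v hv => Or.inl (h2 v hv).1
      · exact Or.inr ((h.2.2 e he h2).resolve_left h0)
  · refine ⟨F.filter fun e => w' e ≠ 1 ∧ (∀ v ∈ e, v ∈ Ah L α β i j k) ∧
      ¬ ∀ v ∈ e, v ∈ Ah L α β i j (k + 1), fun ξ _ => ?_⟩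
    set E := F.filter fun e => w' e ≠ 1 ∧ (∀ v ∈ e, v ∈ Ah L α β i j k) ∧
      ¬ ∀ v ∈ e, v ∈ Ah L α β i j (k + 1) with hE
    have h1 : ∀ e ∈ F, ¬ (∀ v ∈ e, v ∈ Ah L α β i j (k + 1)) →
        rev w' E ξ e = 0 ∨ rev w' E ξ e = 1 := by
      intro e he h2
      by_cases h3 : e ∈ E
      · exact rev_of_mem h3
      · rw [rev_of_not_mem h3]
        by_cases h4 : ∀ v ∈ e, v ∈ Ah L α β i j k
        · exact Or.inr (not_not.1 fun h5 => h3 (Finset.mem_filter.2 ⟨he, h5, h4, h2⟩))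
        · exact h.2.2 e he h4
    refine ⟨⟨h.1.rev _ _, fun e => ?_, h1⟩, (det_hit (h.1.rev _ _) (hoA _) h1).imp_right fun h2 =>
      le_trans (Ex_mono (h.1.rev _ _) fun ω _ => hit_le_hit (Ah_anti hk)) h2⟩
    by_cases h3 : e ∈ E
    · obtain ⟨_, h4, h5, h6⟩ := Finset.mem_filter.1 h3
      exact Or.inr ⟨((h.2.1 e).resolve_right fun h7 => h7.2.2 h5) ▸ h4, fun v hv => (h5 v hv).1, h6⟩
    · rw [rev_of_not_mem h3]
      exact (h.2.1 e).imp_right fun h4 =>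
        ⟨h4.1, h4.2.1, fun h5 => h4.2.2 fun v hv => Ah_anti (Nat.le_succ k) (h5 v hv)⟩

end Vale.Agent.P151
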