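import Vale.Agent.P151.Ex

/-! Clusters of a finite configuration of open edges. -/

namespace Vale.Agent.P151

variable {V : Type*}

/-- Two vertices are joined by a path of edges of `ω`. -/
def Conn (ω : Finset (Sym2 V)) (a b : V) : Prop :=
  Relation.ReflTransGen (fun x y => s(x, y) ∈ ω) a b

/-- The union of the clusters of the vertices of `X`. -/
def Cl (ω : Finset (Sym2 V)) (X : Set V) : Set V := {v | ∃ x ∈ X, Conn ω x v}

/-- An edge has an end in `S`. -/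
def Touch (S : Set V) (e : Sym2 V) : Prop := ∃ v ∈ S, v ∈ e

open Classical in
/-- Delete the edges with an end in `S`. -/
noncomputable def del (ω : Finset (Sym2 V)) (S : Set V) : Finset (Sym2 V) :=
  ω.filter (fun e => ¬ Touch S e)

variable {ω ω' : Finset (Sym2 V)} {a b c x v : V} {X Y S T : Set V}

theorem Conn.refl (ω : Finset (Sym2 V)) (a : V) : Conn ω a a := Relation.ReflTransGen.refl

theorem Conn.trans (h : Conn ω a b) (h' : Conn ω b c) : Conn ω a c :=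
  Relation.ReflTransGen.trans h h'

theorem Conn.single (h : s(a, b) ∈ ω) : Conn ω a b := Relation.ReflTransGen.single h

theorem Conn.tail (h : Conn ω a b) (h' : s(b, c) ∈ ω) : Conn ω a c :=
  Relation.ReflTransGen.tail h h'

theorem Conn.symm (h : Conn ω a b) : Conn ω b a := by
  induction h with
  | refl => exact Conn.refl _ _
  | tail _ h2 ih => exact (Conn.single (by rwa [Sym2.eq_swap])).trans ih

theorem Conn.mono (hω : ω ⊆ ω') (h : Conn ω a b) : Conn ω' a b := by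
  induction h with
  | refl => exact Conn.refl _ _
  | tail _ h2 ih => exact ih.tail (hω h2)

theorem Conn.eq_of_empty (h : Conn ∅ a b) : a = b := by
  induction h with
  | refl => rfl
  | tail _ h2 _ => simp at h2

/-- A set closed under open edges contains whole clusters. -/
theorem Conn.closed {P : V → Prop} (h : Conn ω a b) (ha : P a)
    (hP : ∀ x y, P x → s(x, y) ∈ ω → P y) : P b := by
  induction h with
  | refl => exact ha
  | tail _ h2 ih => exact hP _ _ ih h2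

theorem touch_mk : Touch S s(a, b) ↔ a ∈ S ∨ b ∈ S := by
  simp only [Touch, Sym2.mem_iff]
  constructor
  · rintro ⟨v, hv, rfl | rfl⟩
    · exact Or.inl hv
    · exact Or.inr hv
  · rintro (h | h)
    · exact ⟨a, h, Or.inl rfl⟩
    · exact ⟨b, h, Or.inr rfl⟩

theorem Touch.mono {e : Sym2 V} (h : Touch S e) (hST : S ⊆ T) : Touch T e :=
  let ⟨v, hv, he⟩ := h; ⟨v, hST hv, he⟩

theorem mem_del {e : Sym2 V} : e ∈ del ω S ↔ e ∈ ω ∧ ¬ Touch S e := by
  classical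
  simp [del]

theorem del_subset : del ω S ⊆ ω := fun _ h => (mem_del.1 h).1

theorem del_mono (hω : ω ⊆ ω') (hST : T ⊆ S) : del ω S ⊆ del ω' T := fun _ h =>
  mem_del.2 ⟨hω (mem_del.1 h).1, fun h' => (mem_del.1 h).2 (h'.mono hST)⟩

theorem del_empty (S : Set V) : del ∅ S = ∅ := Finset.subset_empty.1 del_subset

theorem subset_Cl : X ⊆ Cl ω X := fun x hx => ⟨x, hx, Conn.refl _ _⟩

theorem Cl_mono (hω : ω ⊆ ω') (hX : X ⊆ Y) : Cl ω X ⊆ Cl ω' Y :=
  fun _ ⟨x, hx, h⟩ => ⟨x, hX hx, h.mono hω⟩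

theorem Cl_trans (h : a ∈ Cl ω X) (h' : Conn ω a b) : b ∈ Cl ω X :=
  let ⟨x, hx, h1⟩ := h; ⟨x, hx, h1.trans h'⟩

theorem mem_Cl_singleton : v ∈ Cl ω {x} ↔ Conn ω x v := by simp [Cl]

theorem Cl_union : Cl ω (X ∪ Y) = Cl ω X ∪ Cl ω Y := by
  ext v
  simp only [Cl, Set.mem_union, Set.mem_ofPred_eq, or_and_right, exists_or]

theorem Cl_insert : Cl ω (insert x X) = Cl ω {x} ∪ Cl ω X := by
  rw [Set.insert_eq, Cl_union]

theorem Cl_empty_set : Cl ω (∅ : Set V) = ∅ := by simp [Cl]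

theorem Cl_empty : Cl (∅ : Finset (Sym2 V)) X = X :=
  Set.Subset.antisymm (fun _ ⟨_, hx, h⟩ => h.eq_of_empty ▸ hx) subset_Cl

theorem mem_Cl_iff : x ∈ Cl ω Y ↔ ∃ y ∈ Y, y ∈ Cl ω {x} := by
  simp only [mem_Cl_singleton]
  exact ⟨fun ⟨y, hy, h⟩ => ⟨y, hy, h.symm⟩, fun ⟨y, hy, h⟩ => ⟨y, hy, h.symm⟩⟩

theorem Cl_singleton_subset (h : x ∈ Cl ω Y) : Cl ω {x} ⊆ Cl ω Y :=
  fun _ hv => Cl_trans h (mem_Cl_singleton.1 hv)

theorem Cl_disjoint (h : x ∉ Cl ω Y) : Disjoint (Cl ω {x}) (Cl ω Y) :=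
  Set.disjoint_left.2 fun _ hv hv' => h (Cl_trans hv' (mem_Cl_singleton.1 hv).symm)

/-- Clusters are stopping sets. -/
theorem Cl_stop (h : ∀ e, Touch (Cl ω Y) e → (e ∈ ω ↔ e ∈ ω')) : Cl ω' Y = Cl ω Y := by
  apply Set.Subset.antisymm
  · rintro v ⟨y, hy, hv⟩
    exact hv.closed (P := fun v => v ∈ Cl ω Y) (subset_Cl hy) fun a b ha hab =>
      Cl_trans ha (Conn.single ((h _ (touch_mk.2 (Or.inl ha))).2 hab))
  · rintro v ⟨y, hy, hv⟩
    refine (hv.closed (P := fun v => v ∈ Cl ω Y ∧ v ∈ Cl ω' Y) ⟨subset_Cl hy, subset_Cl hy⟩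
      fun a b ha hab => ⟨Cl_trans ha.1 (Conn.single hab),
        Cl_trans ha.2 (Conn.single ((h _ (touch_mk.2 (Or.inl ha.1))).1 hab))⟩).2

theorem Cl_del_stop (h : ∀ e, Touch (Cl (del ω S) Y) e → (e ∈ ω ↔ e ∈ ω')) :
    Cl (del ω' S) Y = Cl (del ω S) Y :=
  Cl_stop fun e he => by rw [mem_del, mem_del, h e he]

theorem Cl_del_of_disjoint (h : Disjoint (Cl ω X) S) : Cl (del ω S) X = Cl ω X := by
  refine Cl_stop fun e he => ⟨fun h1 => mem_del.2 ⟨h1, fun h2 => ?_⟩, fun h1 => del_subset h1⟩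
  induction e using Sym2.ind with
  | h a b =>
    have hab : a ∈ Cl ω X ∧ b ∈ Cl ω X := by
      rcases touch_mk.1 he with h3 | h3
      · exact ⟨h3, Cl_trans h3 (Conn.single h1)⟩
      · exact ⟨Cl_trans h3 (Conn.single h1).symm, h3⟩
    rcases touch_mk.1 h2 with h3 | h3
    · exact Set.disjoint_left.1 h hab.1 h3
    · exact Set.disjoint_left.1 h hab.2 h3

theorem Cl_diff : Cl ω X \ Cl ω Y = Cl (del ω (Cl ω Y)) (X \ Cl ω Y) := by
  have h1 : Disjoint (Cl ω (X \ Cl ω Y)) (Cl ω Y) :=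
    Set.disjoint_left.2 fun _ ⟨_, hx, hv⟩ hv' => hx.2 (Cl_trans hv' hv.symm)
  rw [Cl_del_of_disjoint h1]
  ext v
  exact ⟨fun ⟨⟨x, hx, hv⟩, h2⟩ => ⟨x, ⟨hx, fun h3 => h2 (Cl_trans h3 hv)⟩, hv⟩,
    fun h2 => ⟨Cl_mono subset_rfl Set.sdiff_subset h2, Set.disjoint_left.1 h1 h2⟩⟩

variable [DecidableEq V]

/-- Markov property at a stopping set of vertices. -/
theorem Ex_stop_del (τ : Finset (Sym2 V) → Set V)
    (hτ : ∀ ω ω' : Finset (Sym2 V), (∀ e, Touch (τ ω) e → (e ∈ ω ↔ e ∈ ω')) → τ ω' = τ ω)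
    (w : Sym2 V → ℝ) (F : Finset (Sym2 V)) (g : Set V → Finset (Sym2 V) → ℝ) :
    Ex w F (fun ω => g (τ ω) (del ω (τ ω))) =
      Ex w F (fun ω => Ex w F (fun ω' => g (τ ω) (del ω' (τ ω)))) :=
  Ex_stop τ Touch hτ w F g

end Vale.Agent.P151
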