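import Vale.Agent.P151.Defs

/-! The abstract oriented site exploration survives. -/

namespace Vale.Agent.P151

universe u

/-- Reached from the origin by an oriented path all of whose sites but the last lie in `ω`. -/
def CoReach (ω : Finset (ℕ × ℕ)) (x : ℕ × ℕ) : Prop :=
  Relation.ReflTransGen (fun y x => y ∈ ω ∧ (x = (y.1 + 1, y.2) ∨ x = (y.1, y.2 + 1))) (0, 0) x

/-- Level `n` is reached. -/
def CoSurv (n : ℕ) (ω : Finset (ℕ × ℕ)) : Prop := ∃ x : ℕ × ℕ, x.1 + x.2 = n ∧ CoReach ω x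

/-- Sites of level below `n`. -/
def coTri (n : ℕ) : Finset (ℕ × ℕ) :=
  (Finset.range n ×ˢ Finset.range n).filter fun x => x.1 + x.2 < n

theorem mem_coTri {n : ℕ} {x : ℕ × ℕ} : x ∈ coTri n ↔ x.1 + x.2 < n := by
  simp only [coTri, Finset.mem_filter, Finset.mem_product, Finset.mem_range]
  omega

theorem CoSurv.mono {n : ℕ} {ω ω' : Finset (ℕ × ℕ)} (h : ω ⊆ ω') (hs : CoSurv n ω) :
    CoSurv n ω' := by
  obtain ⟨x, hx, hr⟩ := hs
  refine ⟨x, hx, ?_⟩
  clear hx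
  induction hr with
  | refl => exact Relation.ReflTransGen.refl
  | tail _ h2 ih => exact ih.tail ⟨h h2.1, h2.2⟩

theorem CoReach.par {ω : Finset (ℕ × ℕ)} {x : ℕ × ℕ} (h : CoReach ω x) : Par ω x := by
  cases h with
  | refl => exact Or.inl rfl
  | tail _ h2 => exact Or.inr ⟨_, h2.1, h2.2⟩

theorem co_skip {n : ℕ} {c η : Finset (ℕ × ℕ)} {x : ℕ × ℕ} (hx : ¬ Par c x)
    (hη : ∀ y ∈ η, x.1 + x.2 ≤ y.1 + y.2) (hs : CoSurv n (c ∪ insert x η)) : CoSurv n (c ∪ η) := by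
  obtain ⟨v, hv, hr⟩ := hs
  refine ⟨v, hv, ?_⟩
  clear hv
  induction hr with
  | refl => exact Relation.ReflTransGen.refl
  | @tail a b _ h2 ih =>
    refine ih.tail ⟨?_, h2.2⟩
    rcases Finset.mem_union.1 h2.1 with h | h
    · exact Finset.mem_union_left _ h
    · rcases Finset.mem_insert.1 h with rfl | h
      · exfalso
        rcases CoReach.par ih with h0 | ⟨y, hy, h0⟩
        · exact hx (Or.inl h0)
        · rcases Finset.mem_union.1 hy with h1 | h1
          · exact hx (Or.inr ⟨y, h1, h0⟩)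
          · have := hη y h1
            rcases h0 with rfl | rfl <;> simp only at this <;> omega
      · exact Finset.mem_union_right _ h

/-- A chain of closed sites of `A` from `z` to the first column. -/
def CoCh (A ω : Finset (ℕ × ℕ)) (z : ℕ × ℕ) : Prop :=
  z ∈ A ∧ z ∉ ω ∧ ∃ z' : ℕ × ℕ, z'.1 = 0 ∧
    Relation.ReflTransGen (fun a b => (a.1 ≤ b.1 + 1 ∧ b.2 ≤ a.2 + 1) ∧ b ∈ A ∧ b ∉ ω) z z'

theorem CoCh.last {A ω : Finset (ℕ × ℕ)} {z : ℕ × ℕ} (h : CoCh A ω z) :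
    z.1 = 0 ∨ ∃ y ∈ (A.erase z).filter (fun y => z.1 ≤ y.1 + 1 ∧ y.2 ≤ z.2 + 1),
      CoCh (A.erase z) ω y := by
  obtain ⟨hA, hω, z', h0, hc⟩ := h
  have key : ∀ a, Relation.ReflTransGen
      (fun a b : ℕ × ℕ => (a.1 ≤ b.1 + 1 ∧ b.2 ≤ a.2 + 1) ∧ b ∈ A ∧ b ∉ ω) a z' → a ∈ A → a ∉ ω →
      CoCh (A.erase z) ω a ∨ (z.1 = 0 ∨ ∃ y ∈ (A.erase z).filter
        (fun y => z.1 ≤ y.1 + 1 ∧ y.2 ≤ z.2 + 1), CoCh (A.erase z) ω y) := by
    intro a ha
    induction ha using Relation.ReflTransGen.head_induction_on with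
    | refl =>
      intro h1 h2
      by_cases e : z' = z
      · exact Or.inr (Or.inl (e ▸ h0))
      · exact Or.inl ⟨Finset.mem_erase.2 ⟨e, h1⟩, h2, z', h0, Relation.ReflTransGen.refl⟩
    | @head a b hab _ ih =>
      intro h1 h2
      rcases ih hab.2.1 hab.2.2 with h3 | h3
      · by_cases e : a = z
        · subst e
          exact Or.inr (Or.inr ⟨b, Finset.mem_filter.2 ⟨h3.1, hab.1⟩, h3⟩)
        · obtain ⟨k1, k2, y, k3, k4⟩ := h3
          exact Or.inl ⟨Finset.mem_erase.2 ⟨e, h1⟩, h2, y, k3, k4.head ⟨hab.1, k1, k2⟩⟩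
      · exact Or.inr h3
  exact (key z hc hA hω).resolve_left fun h => Finset.notMem_erase z A h.1

theorem co_geom (B : Finset (ℕ × ℕ)) (a b : ℕ) (h : ∀ y ∈ B, a ≤ y.1 ∧ y.2 < b) :
    ∑ y ∈ B, (1 / 2 : ℝ) ^ y.1 * 2 ^ y.2 ≤ (2 * (1 / 2) ^ a) * 2 ^ b := by
  obtain ⟨N, hN⟩ := (B.image Prod.fst).bddAbove
  have hsub : B ⊆ Finset.Ico a (N + 1) ×ˢ Finset.range b := fun y hy =>
    Finset.mem_product.2 ⟨Finset.mem_Ico.2 ⟨(h y hy).1, Nat.lt_succ_of_le
      (hN (Finset.mem_coe.2 (Finset.mem_image_of_mem _ hy)))⟩, Finset.mem_range.2 (h y hy).2⟩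
  refine (Finset.sum_le_sum_of_subset_of_nonneg hsub fun _ _ _ => by positivity).trans ?_
  rw [Finset.sum_product' (f := fun i j => (1 / 2 : ℝ) ^ i * 2 ^ j), ← Finset.sum_mul_sum]
  refine mul_le_mul ?_ ?_ (by positivity) (by positivity)
  · refine (geom_sum_Ico_le_of_lt_one (by norm_num) (by norm_num)).trans (le_of_eq ?_)
    ring
  · rw [geom_sum_eq (by norm_num)]
    norm_num

theorem co_ind_exists {κ : Type*} (I : Finset κ) (P : κ → Prop) (Q : Prop) (h : Q → ∃ i ∈ I, P i) :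
    ind Q ≤ ∑ i ∈ I, ind (P i) := by
  by_cases hQ : Q
  · obtain ⟨i, hi, hP⟩ := h hQ
    rw [ind_pos hQ, ← ind_pos hP]
    exact Finset.single_le_sum (f := fun i => ind (P i)) (fun _ _ => ind_nonneg _) hi
  · rw [ind_neg hQ]
    exact Finset.sum_nonneg fun _ _ => ind_nonneg _

theorem co_wt : Wt (fun _ : ℕ × ℕ => (1 : ℝ) - 1 / 32) := fun _ => by norm_num

theorem co_chain_le (k : ℕ) : ∀ (A : Finset (ℕ × ℕ)), A.card = k → ∀ z : ℕ × ℕ,
    Ex (fun _ => (1 : ℝ) - 1 / 32) A (fun ω => ind (CoCh A ω z)) ≤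
      1 / 16 * ((1 / 2) ^ z.1 * 2 ^ z.2) := by
  induction k with
  | zero =>
    intro A hA z
    refine Ex_le co_wt fun ω _ => ?_
    rw [ind_neg fun h => by simpa [Finset.card_eq_zero.1 hA] using h.1]
    positivity
  | succ k ih =>
    intro A hA z
    by_cases hz : z ∈ A
    swap
    · refine Ex_le co_wt fun ω _ => ?_
      rw [ind_neg fun h => hz h.1]
      positivity
    have hc : (A.erase z).card = k := by rw [Finset.card_erase_of_mem hz, hA]; rfl
    have h1 : Ex (fun _ => (1 : ℝ) - 1 / 32) (A.erase z)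
        (fun ω => ind (CoCh A (insert z ω) z)) = 0 := by
      rw [← Ex_const (fun _ => (1 : ℝ) - 1 / 32) (A.erase z) 0]
      exact Ex_congr fun ω _ => ind_neg fun h => h.2.1 (Finset.mem_insert_self _ _)
    have h2 : Ex (fun _ => (1 : ℝ) - 1 / 32) (A.erase z) (fun ω => ind (CoCh A ω z)) ≤
        ind (z.1 = 0) + ∑ y ∈ (A.erase z).filter (fun y => z.1 ≤ y.1 + 1 ∧ y.2 ≤ z.2 + 1),
          1 / 16 * ((1 / 2 : ℝ) ^ y.1 * 2 ^ y.2) := by
      refine le_trans (Ex_mono (g := fun ω => ind (z.1 = 0) +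
        ∑ y ∈ (A.erase z).filter (fun y => z.1 ≤ y.1 + 1 ∧ y.2 ≤ z.2 + 1),
          ind (CoCh (A.erase z) ω y)) co_wt fun ω _ => ?_) ?_
      · by_cases h0 : z.1 = 0
        · rw [ind_pos h0]
          exact (ind_le_one _).trans (le_add_of_nonneg_right
            (Finset.sum_nonneg fun _ _ => ind_nonneg _))
        · rw [ind_neg h0, zero_add]
          exact co_ind_exists _ _ _ fun h => h.last.resolve_left h0
      · rw [Ex_add, Ex_const, Ex_sum]
        exact add_le_add le_rfl (Finset.sum_le_sum fun y _ => ih _ hc y)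
    have h3 := co_geom ((A.erase z).filter (fun y => z.1 ≤ y.1 + 1 ∧ y.2 ≤ z.2 + 1)) (z.1 - 1)
      (z.2 + 2) fun y hy => by
        have := (Finset.mem_filter.1 hy).2
        omega
    have h4 : (1 / 2 : ℝ) ^ (z.1 - 1) ≤ 2 * (1 / 2) ^ z.1 := by
      rcases Nat.eq_zero_or_pos z.1 with h | h
      · rw [h]; norm_num
      · obtain ⟨j, hj⟩ : ∃ j, z.1 = j + 1 := ⟨z.1 - 1, by omega⟩
        rw [hj, Nat.add_sub_cancel, pow_succ]
        linarith
    have h5 : ind (z.1 = 0) ≤ (1 / 2 : ℝ) ^ z.1 * 2 ^ z.2 := by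
      by_cases h0 : z.1 = 0
      · rw [ind_pos h0, h0, pow_zero, one_mul]
        exact one_le_pow₀ (by norm_num)
      · rw [ind_neg h0]
        positivity
    have h6 : (2 * (1 / 2 : ℝ) ^ (z.1 - 1)) * 2 ^ (z.2 + 2) ≤ 16 * ((1 / 2) ^ z.1 * 2 ^ z.2) := by
      have : (0 : ℝ) ≤ 2 ^ z.2 := by positivity
      rw [pow_add]
      nlinarith
    rw [← Finset.mul_sum] at h2
    have h7 := Ex_insert (Finset.notMem_erase z A) (fun _ => (1 : ℝ) - 1 / 32)
      (fun ω => ind (CoCh A ω z))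
    rw [Finset.insert_erase hz, h1] at h7
    rw [h7]
    linarith

theorem co_dual (n : ℕ) (ω : Finset (ℕ × ℕ))
    (h : ¬ ∃ z ∈ (coTri n).filter (fun z => z.2 = 0), CoCh (coTri n) ω z) : CoSurv n ω := by
  let B : ℕ × ℕ → Prop := fun b => ∃ z : ℕ × ℕ, z.2 = 0 ∧ z ∈ coTri n ∧ z ∉ ω ∧
    Relation.ReflTransGen
      (fun a b => (a.1 ≤ b.1 + 1 ∧ b.2 ≤ a.2 + 1) ∧ b ∈ coTri n ∧ b ∉ ω) z b
  let U : ℕ → ℕ → Prop := fun i j => ∃ b, B b ∧ b.1 ≤ i ∧ j ≤ b.2
  have key : ∀ l ≤ n, ∃ x : ℕ × ℕ, x.1 + x.2 = l ∧ CoReach ω x ∧ ¬ U x.1 x.2 ∧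
      (x.2 = 0 ∨ U (x.1 + 1) (x.2 - 1)) := by
    intro l hl
    induction l with
    | zero =>
      refine ⟨(0, 0), rfl, Relation.ReflTransGen.refl, ?_, Or.inl rfl⟩
      rintro ⟨b, ⟨z, h1, h2, h3, h4⟩, h5, -⟩
      exact h ⟨z, Finset.mem_filter.2 ⟨h2, h1⟩, h2, h3, b, Nat.le_zero.1 h5, h4⟩
    | succ l ih =>
      obtain ⟨x, h1, h2, h3, h4⟩ := ih (by omega)
      have hT : x ∈ coTri n := mem_coTri.2 (by omega)
      have hx : x ∈ ω := by
        by_contra hx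
        refine h3 ⟨x, ?_, le_rfl, le_rfl⟩
        rcases h4 with h4 | ⟨b, ⟨z, k1, k2, k3, k4⟩, k5, k6⟩
        · exact ⟨x, h4, hT, hx, Relation.ReflTransGen.refl⟩
        · exact ⟨z, k1, k2, k3, k4.tail ⟨⟨k5, by omega⟩, hT, hx⟩⟩
      by_cases hU : U (x.1 + 1) x.2
      · refine ⟨(x.1, x.2 + 1), by omega, h2.tail ⟨hx, Or.inr rfl⟩, ?_, Or.inr hU⟩
        rintro ⟨b, k1, k2, k3⟩
        exact h3 ⟨b, k1, k2, Nat.le_of_succ_le k3⟩
      · refine ⟨(x.1 + 1, x.2), by omega, h2.tail ⟨hx, Or.inl rfl⟩, hU, h4.imp id ?_⟩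
        rintro ⟨b, k1, k2, k3⟩
        exact ⟨b, k1, Nat.le_succ_of_le k2, k3⟩
  obtain ⟨x, h1, h2, -⟩ := key n le_rfl
  exact ⟨x, h1, h2⟩

theorem co_surv (n : ℕ) :
    1 / 2 ≤ Ex (fun _ => (1 : ℝ) - 1 / 32) (coTri n) (fun ω => ind (CoSurv n ω)) := by
  have h1 : Ex (fun _ => (1 : ℝ) - 1 / 32) (coTri n) (fun ω => ind (¬ CoSurv n ω)) ≤
      ∑ z ∈ (coTri n).filter (fun z => z.2 = 0), 1 / 16 * ((1 / 2 : ℝ) ^ z.1 * 2 ^ z.2) := by
    refine le_trans (Ex_mono (g := fun ω => ∑ z ∈ (coTri n).filter (fun z => z.2 = 0),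
      ind (CoCh (coTri n) ω z)) co_wt fun ω _ => co_ind_exists _ _ _ fun h => ?_) ?_
    · by_contra hc
      exact h (co_dual n ω hc)
    · rw [Ex_sum]
      exact Finset.sum_le_sum fun z _ => co_chain_le _ _ rfl z
  have h2 := co_geom ((coTri n).filter (fun z => z.2 = 0)) 0 1 fun y hy => by
    have := (Finset.mem_filter.1 hy).2
    omega
  rw [← Finset.mul_sum, Ex_ind_not] at h1
  norm_num at h1 h2 ⊢
  linarith

theorem coarse : ∃ ε : ℝ, 0 < ε ∧ ∀ (σ : Type u), Coarse σ ε := by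
  refine ⟨1 / 32, by norm_num, fun σ Val Inv n m hm hle h0 hstep hskip hend => ?_⟩
  have key : ∀ (k : ℕ) (P c : Finset (ℕ × ℕ)) (s : σ), (coTri n \ P).card = k →
      (∀ y ∈ P, y.1 + y.2 < n) → Inv s P c →
      Val s (m * Ex (fun _ => (1 : ℝ) - 1 / 32) (coTri n \ P)
        (fun η => ind (CoSurv n (c ∪ η)))) := by
    intro k
    induction k with
    | zero =>
      intro P c s hk hP hI
      rw [Finset.card_eq_zero.1 hk, Ex_empty, Finset.union_empty]
      by_cases hs : CoSurv n c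
      · obtain ⟨x, h1, h2⟩ := hs
        rw [ind_pos ⟨x, h1, h2⟩, mul_one]
        exact hend s P c x hI (fun h => (hP x h).ne h1) h2.par h1
      · rw [ind_neg hs, mul_zero]
        exact h0 s
    | succ k ih =>
      intro P c s hk hP hI
      obtain ⟨x, hx, hmin⟩ := Finset.exists_min_image (coTri n \ P) (fun y => y.1 + y.2)
        (Finset.card_pos.1 (by omega))
      obtain ⟨hxT, hxP⟩ := Finset.mem_sdiff.1 hx
      have e1 : coTri n \ insert x P = (coTri n \ P).erase x := Finset.sdiff_insert _ _ _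
      have hk' : (coTri n \ insert x P).card = k := by
        rw [e1, Finset.card_erase_of_mem hx, hk]; rfl
      have hP' : ∀ y ∈ insert x P, y.1 + y.2 < n := fun y hy =>
        (Finset.mem_insert.1 hy).elim (fun h => h ▸ mem_coTri.1 hxT) (hP y)
      have e2 := Ex_insert (Finset.notMem_erase x (coTri n \ P)) (fun _ => (1 : ℝ) - 1 / 32)
        (fun η => ind (CoSurv n (c ∪ η)))
      rw [Finset.insert_erase hx, ← e1] at e2
      rw [e2]
      by_cases hpar : Par c x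
      · have h1 := hstep s P c x hI hxP hpar _ _
          (mul_nonneg hm (Ex_ind_nonneg co_wt _))
          (mul_le_mul_of_nonneg_left (Ex_mono co_wt fun η _ => ind_mono (CoSurv.mono
            (Finset.union_subset_union (Finset.subset_insert x c) subset_rfl))) hm)
          (fun s' hs' => ih _ _ s' hk' hP' hs') (fun s' hs' => ih _ _ s' hk' hP' hs')
        refine hle _ _ _ h1 (le_of_eq ?_)
        simp only [Finset.union_insert, Finset.insert_union]
        ring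
      · refine hle _ _ _ (ih _ _ s hk' hP' (hskip s P c x hI)) (le_of_eq ?_)
        rw [Ex_congr (g := fun η => ind (CoSurv n (c ∪ η))) fun η hη => ind_congr
          ⟨co_skip hpar fun y hy => hmin y (Finset.mem_of_mem_erase (e1 ▸ hη hy)),
            CoSurv.mono (Finset.union_subset_union subset_rfl (Finset.subset_insert x η))⟩]
        ring
  intro s hs
  have h1 := key _ ∅ ∅ s rfl (by simp) hs
  simp only [Finset.sdiff_empty, Finset.empty_union] at h1
  refine hle _ _ _ h1 ?_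
  have := mul_le_mul_of_nonneg_left (co_surv n) hm
  linarith

end Vale.Agent.P151
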