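import Vale.Agent.P151.Defs2

/-! Escape, the exit lemma and the top lemma. -/

namespace Vale.Agent.P151

section Escape

variable {V Γ : Type*} [DecidableEq V] [Group Γ] [MulAction Γ V]

theorem Setup.X_o (S : Setup V Γ) : S.X S.o = 0 := by
  have := S.hX 1 S.o
  rw [one_smul] at this
  linarith

theorem Setup.Y_o (S : Setup V Γ) : S.Y S.o = 0 := by
  have := S.hY 1 S.o
  rw [one_smul] at this
  linarith

theorem Setup.ex_ball (S : Setup V Γ) (γ : Γ) {n : ℕ} {u v : V} (h : v ∈ ball S.nb n u) :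
    γ • v ∈ ball S.nb n (γ • u) := by
  induction n generalizing v with
  | zero => rw [mem_ball_zero.1 h]; exact mem_ball_self
  | succ n ih =>
    rcases mem_ball_succ.1 h with h1 | ⟨a, ha, h1⟩
    · exact ball_le (Nat.le_succ n) (ih h1)
    · exact ball_step (ih ha) (S.act γ a v h1)

theorem Setup.ex_pow (S : Setup V Γ) (γ : Γ) (k : ℕ) :
    S.X (γ ^ k • S.o) = k * S.X (γ • S.o) ∧ S.Y (γ ^ k • S.o) = k * S.Y (γ • S.o) := by
  induction k with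
  | zero => simp [S.X_o, S.Y_o]
  | succ k ih =>
    rw [pow_succ', mul_smul, S.hX, S.hY, ih.1, ih.2]
    push_cast
    constructor <;> ring

theorem ex_real {a b a₁ b₁ a₂ b₂ M k : ℝ} (hd : a₁ * b₂ - b₁ * a₂ ≠ 0) (hk0 : 0 ≤ k)
    (hk : 2 * |M| * (|a₁| + |b₁| + |a₂| + |b₂|) ≤ k * |a₁ * b₂ - b₁ * a₂|) :
    2 * (M * (|a| + |b|)) ≤ k * |a * a₁ + b * b₁| ∨ 2 * (M * (|a| + |b|)) ≤ k * |a * a₂ + b * b₂| := by
  set l₁ := a * a₁ + b * b₁ with h1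
  set l₂ := a * a₂ + b * b₂ with h2
  set d := a₁ * b₂ - b₁ * a₂ with h3
  have e1 : |a| * |d| ≤ |b₂| * |l₁| + |b₁| * |l₂| := by
    rw [← abs_mul, ← abs_mul, ← abs_mul, show a * d = b₂ * l₁ - b₁ * l₂ by rw [h1, h2, h3]; ring]
    exact abs_sub _ _
  have e2 : |b| * |d| ≤ |a₁| * |l₂| + |a₂| * |l₁| := by
    rw [← abs_mul, ← abs_mul, ← abs_mul, show b * d = a₁ * l₂ - a₂ * l₁ by rw [h1, h2, h3]; ring]
    exact abs_sub _ _
  have e3 : |d| ≤ |a₁| * |b₂| + |b₁| * |a₂| := by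
    rw [← abs_mul, ← abs_mul]; exact abs_sub _ _
  have hd' : 0 < |d| := abs_pos.2 hd
  have p1 := abs_nonneg a₁
  have p2 := abs_nonneg b₁
  have p3 := abs_nonneg a₂
  have p4 := abs_nonneg b₂
  have hK : 0 < |a₁| + |b₁| + |a₂| + |b₂| := by
    by_contra h
    have q1 : |a₁| = 0 := by linarith
    have q2 : |b₁| = 0 := by linarith
    rw [q1, q2] at e3
    linarith
  have hs : 0 ≤ |a| + |b| := by positivity
  have key : ∀ l : ℝ, |l₁| ≤ l → |l₂| ≤ l → 2 * (M * (|a| + |b|)) ≤ k * l := fun l q1 q2 => by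
    have q3 : (|a| + |b|) * |d| ≤ (|a₁| + |b₁| + |a₂| + |b₂|) * l := by
      nlinarith [mul_le_mul_of_nonneg_left q1 p4, mul_le_mul_of_nonneg_left q2 p2,
        mul_le_mul_of_nonneg_left q2 p1, mul_le_mul_of_nonneg_left q1 p3]
    have q4 := mul_le_mul_of_nonneg_left q3 hk0
    have q5 := mul_le_mul_of_nonneg_left hk hs
    have q6 : 2 * (|M| * (|a| + |b|)) ≤ k * l := le_of_mul_le_mul_left (by linarith) hK
    linarith [mul_le_mul_of_nonneg_right (le_abs_self M) hs]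
  rcases le_total |l₁| |l₂| with h | h
  · exact Or.inr (key _ h le_rfl)
  · exact Or.inl (key _ le_rfl h)

theorem escape (S : Setup V Γ) : Escape S := by
  intro M
  have hd := abs_pos.2 S.rank
  obtain ⟨k, hk⟩ := exists_nat_ge (2 * |M| * (|S.X (S.γ₁ • S.o)| + |S.Y (S.γ₁ • S.o)| +
    |S.X (S.γ₂ • S.o)| + |S.Y (S.γ₂ • S.o)|) /
      |S.X (S.γ₁ • S.o) * S.Y (S.γ₂ • S.o) - S.Y (S.γ₁ • S.o) * S.X (S.γ₂ • S.o)|)
  rw [div_le_iff₀ hd] at hk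
  obtain ⟨ρ₁, h₁⟩ := S.conn (S.γ₁ ^ k • S.o)
  obtain ⟨ρ₂, h₂⟩ := S.conn (S.γ₂ ^ k • S.o)
  refine ⟨S.D₀ + (ρ₁ + ρ₂), fun a b u => ?_⟩
  obtain ⟨γ, hγ⟩ := S.near u
  have h0 := ball_symm S.hnb hγ
  have key : ∀ g : Γ, g ^ k • S.o ∈ ball S.nb (ρ₁ + ρ₂) S.o →
      2 * (M * (|a| + |b|)) ≤ k * |a * S.X (g • S.o) + b * S.Y (g • S.o)| →
      ∃ v ∈ ball S.nb (S.D₀ + (ρ₁ + ρ₂)) u, M * (|a| + |b|) ≤ |a * S.X v + b * S.Y v| := by
    intro g hg h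
    by_cases hc : M * (|a| + |b|) ≤ |a * S.X (γ • S.o) + b * S.Y (γ • S.o)|
    · exact ⟨_, ball_le (Nat.le_add_right _ _) h0, hc⟩
    refine ⟨_, ball_trans h0 (S.ex_ball γ hg), ?_⟩
    rw [S.hX, S.hY, (S.ex_pow g k).1, (S.ex_pow g k).2]
    have h3 := abs_sub (a * (k * S.X (g • S.o) + S.X (γ • S.o)) +
      b * (k * S.Y (g • S.o) + S.Y (γ • S.o))) (a * S.X (γ • S.o) + b * S.Y (γ • S.o))
    rw [show a * (k * S.X (g • S.o) + S.X (γ • S.o)) + b * (k * S.Y (g • S.o) + S.Y (γ • S.o)) -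
      (a * S.X (γ • S.o) + b * S.Y (γ • S.o)) = k * (a * S.X (g • S.o) + b * S.Y (g • S.o)) by ring,
      abs_mul, Nat.abs_cast] at h3
    linarith [not_le.1 hc]
  rcases ex_real (a := a) (b := b) S.rank (Nat.cast_nonneg k) hk with h | h
  · exact key _ (ball_le (Nat.le_add_right _ _) h₁) h
  · exact key _ (ball_le (Nat.le_add_left _ _) h₂) h

end Escape

variable {V : Type*} [DecidableEq V] {nb : V → Finset V} {Δ : ℕ} {P : Set V}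

open Classical in
/-- The subgraph of the edges with an end in `P`. -/
noncomputable def nbP (nb : V → Finset V) (P : Set V) (a : V) : Finset V :=
  (nb a).filter fun b => a ∈ P ∨ b ∈ P

omit [DecidableEq V] in
theorem mem_nbP {a b : V} : b ∈ nbP nb P a ↔ b ∈ nb a ∧ (a ∈ P ∨ b ∈ P) := by
  classical
  simp [nbP]

omit [DecidableEq V] in
theorem Nb.nbP (h : Nb nb Δ) (P : Set V) : Nb (nbP nb P) Δ where
  symm a b hb := mem_nbP.2 ⟨h.symm a b (mem_nbP.1 hb).1, (mem_nbP.1 hb).2.symm⟩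
  card a := (Finset.card_le_card fun _ hb => (mem_nbP.1 hb).1).trans (h.card a)

omit [DecidableEq V] in
theorem isE_nbP {e : Sym2 V} : IsE (nbP nb P) e ↔ okP nb P e := by
  constructor
  · rintro ⟨a, b, h, rfl⟩
    exact ⟨⟨a, b, (mem_nbP.1 h).1, rfl⟩, touch_mk.2 (mem_nbP.1 h).2⟩
  · rintro ⟨⟨a, b, h, rfl⟩, h'⟩
    exact ⟨a, b, mem_nbP.2 ⟨h, touch_mk.1 h'⟩, rfl⟩

theorem ball_nbP {n : ℕ} {u v : V} (h : v ∈ ball (nbP nb P) n u) : v ∈ ball nb n u := by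
  induction n generalizing v with
  | zero => exact h
  | succ n ih =>
    rcases mem_ball_succ.1 h with h1 | ⟨a, ha, h1⟩
    · exact ball_le (Nat.le_succ n) (ih h1)
    · exact ball_step (ih ha) (mem_nbP.1 h1).1

theorem ball_nbP_mem {n : ℕ} {u v : V} (hu : u ∈ P) (h : v ∈ ball (nbP nb P) n u) :
    v ∈ P ∨ v ∈ Bd nb P := by
  induction n generalizing v with
  | zero => rw [mem_ball_zero.1 h]; exact Or.inl hu
  | succ n ih =>
    rcases mem_ball_succ.1 h with h1 | ⟨a, -, h1⟩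
    · exact ih h1
    · refine or_iff_not_imp_left.2 fun hv => ⟨hv, a, (mem_nbP.1 h1).2.resolve_right hv, ?_⟩
      exact (mem_nbP.1 h1).1

theorem ball_exit {n : ℕ} {u v : V} (hu : u ∈ P) (h : v ∈ ball nb n u) (hv : v ∉ P) :
    ∃ v' ∈ ball (nbP nb P) n u, v' ∈ Bd nb P := by
  have key : ∀ v ∈ ball nb n u, (v ∈ P ∧ v ∈ ball (nbP nb P) n u) ∨
      ∃ v' ∈ ball (nbP nb P) n u, v' ∈ Bd nb P := by
    clear h hv
    induction n with
    | zero =>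
      intro v h
      rw [mem_ball_zero.1 h]
      exact Or.inl ⟨hu, mem_ball_self⟩
    | succ n ih =>
      intro v h
      rcases mem_ball_succ.1 h with h1 | ⟨a, ha, h1⟩
      · rcases ih v h1 with h2 | ⟨v', h2, h3⟩
        · exact Or.inl ⟨h2.1, ball_le (Nat.le_succ n) h2.2⟩
        · exact Or.inr ⟨v', ball_le (Nat.le_succ n) h2, h3⟩
      · rcases ih a ha with h2 | ⟨v', h2, h3⟩
        · have h3 := ball_step h2.2 (mem_nbP.2 ⟨h1, Or.inl h2.1⟩)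
          by_cases h4 : v ∈ P
          · exact Or.inl ⟨h4, h3⟩
          · exact Or.inr ⟨v, h3, h4, a, h2.1, h1⟩
        · exact Or.inr ⟨v', ball_le (Nat.le_succ n) h2, h3⟩
  exact (key v h).resolve_left fun h' => hv h'.1

omit [DecidableEq V] in
theorem conn_exit (hnb : Nb nb Δ) {ω ω' : Finset (Sym2 V)} (hω : ∀ e ∈ ω, IsE nb e)
    (hω' : ∀ e ∈ ω, Touch P e → e ∈ ω') {o v : V} (ho : o ∈ P) (h : Conn ω o v) (hv : v ∉ P) :
    ∃ y ∈ Bd nb P, Conn ω' y o := by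
  refine (h.closed (P := fun v => (v ∈ P ∧ Conn ω' o v) ∨ ∃ y ∈ Bd nb P, Conn ω' y o)
    (Or.inl ⟨ho, Conn.refl _ _⟩) fun a b ha hab => ?_).resolve_left fun h' => hv h'.1
  rcases ha with ha | ha
  · have h1 := ha.2.tail (hω' _ hab (touch_mk.2 (Or.inl ha.1)))
    by_cases h2 : b ∈ P
    · exact Or.inl ⟨h2, h1⟩
    · exact Or.inr ⟨b, ⟨h2, a, ha.1, (isE_mk hnb).1 (hω _ hab)⟩, h1.symm⟩
  · exact Or.inr ha

theorem ext_sub (hE : ExtAll V) (hnb : Nb nb Δ) {p : ℝ} (hp0 : 0 < p) (hp1 : p < 1) {η : ℝ}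
    (hη : 0 < η) (ρ : ℕ) : ∃ J : ℕ, ∀ (P T₁ T₂ : Set V) (o : V) (r₀ : ℕ) (c : ℝ),
      (∀ t ∈ T₁, ∀ a ∈ ball nb J t, a ∉ ball nb r₀ o) →
      (∀ t ∈ T₁, ∀ u ∈ ball (nbP nb P) J t, ∃ v ∈ ball (nbP nb P) ρ u, v ∈ T₂) →
      Lb (opn nb (fun _ => p) r₀ o) (okP nb P) (hit o (T₁ ∪ T₂)) c →
      Lb (opn nb (fun _ => p) r₀ o) (okP nb P) (hit o T₂) (c - η) := by
  obtain ⟨δ, hδ, h⟩ := hE η hη
  obtain ⟨J, hJ⟩ := h Δ p p hp0 hp1 ρ
  refine ⟨J, fun P T₁ T₂ o r₀ c h1 h2 => ?_⟩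
  have hw : Wt (opn nb (fun _ => p) r₀ o) := Wt.opn (fun _ => ⟨hp0.le, hp1.le⟩) _ _ _
  refine hJ _ (hnb.nbP P) _ _ o T₁ T₂ c hw (fun e he => isE_nbP.2 he)
    (fun t ht h3 => h1 t ht o (ball_nbP h3) mem_ball_self) (fun t ht a ha b hb => ?_)
    fun t ht u hu => ?_
  · rw [opn_of_not_mem fun h3 => h1 t ht a (ball_nbP ha) (mem_of_mem_inE h3 (Sym2.mem_mk_left a b))]
    exact ⟨isE_nbP.1 ⟨a, b, hb, rfl⟩, le_rfl, le_rfl⟩
  · obtain ⟨v, hv, h3⟩ := h2 t ht u hu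
    refine Lb.opn_ball hw (fun e he => isE_nbP.1 (isE_of_mem_inE he)) hv (Lb.of_le ?_)
    rw [hit_of_mem h3]
    linarith

theorem exit_lemma (hE : ExtAll V) {nb : V → Finset V} {Δ : ℕ} (hnb : Nb nb Δ) {p : ℝ}
    (hp0 : 0 < p) (hp1 : p < 1) : ExitLemma nb p := by
  classical
  intro o r₀ c hfar P ρ ho hP η hη
  obtain ⟨J, hJ⟩ := ext_sub hE hnb hp0 hp1 hη ρ
  have hw : Wt (opn nb (fun _ => p) r₀ o) := Wt.opn (fun _ => ⟨hp0.le, hp1.le⟩) _ _ _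
  refine hJ P {t | t ∈ P ∧ t ∉ ball nb (r₀ + J) o} _ o r₀ c
    (fun t ht a ha h => ht.2 (ball_trans h (ball_symm hnb ha))) (fun t ht u hu => ?_) ?_
  · rcases ball_nbP_mem ht.1 hu with h | h
    · obtain ⟨v, hv, h1⟩ := hP u h
      exact ball_exit h hv h1
    · exact ⟨u, mem_ball_self, h⟩
  · obtain ⟨F, h1, h2⟩ := hfar (r₀ + J)
    refine ⟨F.filter (Touch P), fun e he =>
      ⟨h1 e (Finset.mem_filter.1 he).1, (Finset.mem_filter.1 he).2⟩, h2.trans ?_⟩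
    rw [← Ex_filter]
    refine Ex_mono hw fun ω hω => ind_mono fun ⟨v, hv, h⟩ => ?_
    obtain ⟨y, hy, h3⟩ := conn_exit (P := P ∩ ↑(ball nb (r₀ + J) o)) (ω' := ω.filter (Touch P)) hnb
      (fun e he => h1 e (hω he))
      (fun e he h4 => Finset.mem_filter.2 ⟨he, h4.mono Set.inter_subset_left⟩)
      ⟨ho, mem_ball_self⟩ h.symm fun h4 => hv h4.2
    obtain ⟨h4, a, ha, h5⟩ := hy
    by_cases h6 : y ∈ P
    · exact ⟨y, Or.inl ⟨h6, fun h7 => h4 ⟨h6, h7⟩⟩, h3⟩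
    · exact ⟨y, Or.inr ⟨h6, a, ha.1, h5⟩, h3⟩

theorem top_lemma (hE : ExtAll V) {nb : V → Finset V} {Δ : ℕ} (hnb : Nb nb Δ) {p : ℝ}
    (hp0 : 0 < p) (hp1 : p < 1) : TopLemma nb p := by
  intro η D r₀ ρ hη hD
  obtain ⟨J, hJ⟩ := ext_sub hE hnb hp0 hp1 hη ρ
  refine ⟨2 * (J * D + ρ * D + r₀ * D + D) + 1, fun n hn x o Q c hx hxo ho hQ h => ?_⟩
  have hw : Wt (opn nb (fun _ => p) r₀ o) := Wt.opn (fun _ => ⟨hp0.le, hp1.le⟩) _ _ _
  have p1 : 0 ≤ J * D := by positivity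
  have p2 : 0 ≤ ρ * D := by positivity
  have p3 : 0 ≤ r₀ * D := by positivity
  have lip : ∀ k u v, v ∈ ball nb k u → |x v| ≤ |x u| + k * D ∧ |x u| ≤ |x v| + k * D :=
    fun k u v hv => by
      have h1 := ball_lip hD hx hv
      have h2 := abs_le.1 ((abs_abs_sub_abs_le _ _).trans h1)
      constructor <;> linarith [h2.1, h2.2]
  set P : Set V := {v | v ∈ Q ∧ |x v| < n} with hP
  refine hJ P {t | t ∈ P ∧ n / 2 ≤ |x t| ∧ |x t| ≤ n / 2 + D} _ o r₀ c (fun t ht a ha h1 => ?_)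
    (fun t ht u hu => ?_) (h.fn hw fun ω hω => ind_mono fun ⟨v, hv, h1⟩ => ?_)
  · have h2 := (lip _ _ _ ha).2
    have h3 := (lip _ _ _ h1).1
    rw [hxo, abs_zero] at h3
    linarith [ht.2.1]
  · have h2 := (lip _ _ _ (ball_nbP hu)).1
    rcases ball_nbP_mem ht.1 hu with h1 | h1
    · obtain ⟨v, hv, h3⟩ := hQ u
      obtain ⟨v', h4, h5⟩ := ball_exit h1 hv fun h4 => h3 h4.1
      have h6 := (lip _ _ _ (ball_nbP h4)).1
      exact ⟨v', h4, h5, fun h7 => h5.1 ⟨h7, by linarith [ht.2.2]⟩⟩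
    · exact ⟨u, mem_ball_self, h1, fun h7 => h1.1 ⟨h7, by linarith [ht.2.2]⟩⟩
  · obtain ⟨y, ⟨h2, a, ha, h3⟩, h4⟩ := conn_exit (P := {v | v ∈ Q ∧ |x v| < n / 2}) (ω' := ω) hnb
      (fun e he => (hω e he).1) (fun e he _ => he)
      ⟨ho, by rw [hxo, abs_zero]; linarith⟩ h1.symm fun h2 => hv.1 ⟨h2.1, by linarith [h2.2]⟩
    have h5 := (lip 1 a y (mem_ball_one h3)).1
    rw [Nat.cast_one, one_mul] at h5
    have h6 := ha.2
    by_cases h7 : y ∈ Q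
    · exact ⟨y, Or.inl ⟨⟨h7, by linarith⟩, not_lt.1 fun h8 => h2 ⟨h7, h8⟩, by linarith⟩, h4⟩
    · exact ⟨y, Or.inr ⟨⟨fun h8 => h7 h8.1, a, ⟨ha.1, by linarith⟩, h3⟩, h7⟩, h4⟩

end Vale.Agent.P151
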