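import Vale.Agent.P151.Ball

/-! The interfaces between the parts of the proof. -/

namespace Vale.Agent.P151

/-- A connected bounded degree graph with a cocompact group action and an equivariant map
to the plane whose translations have rank two. -/
structure Setup (V Γ : Type*) [DecidableEq V] [Group Γ] [MulAction Γ V] where
  nb : V → Finset V
  Δ : ℕ
  hnb : Nb nb Δ
  act : ∀ (γ : Γ) a b, b ∈ nb a → γ • b ∈ nb (γ • a)
  o : V
  D₀ : ℕ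
  near : ∀ u, ∃ γ : Γ, u ∈ ball nb D₀ (γ • o)
  conn : ∀ u, ∃ n, u ∈ ball nb n o
  X : V → ℝ
  Y : V → ℝ
  hX : ∀ (γ : Γ) v, X (γ • v) = X v + X (γ • o)
  hY : ∀ (γ : Γ) v, Y (γ • v) = Y v + Y (γ • o)
  D : ℝ
  lipX : ∀ a, ∀ b ∈ nb a, |X b - X a| ≤ D
  lipY : ∀ a, ∀ b ∈ nb a, |Y b - Y a| ≤ D
  γ₁ : Γ
  γ₂ : Γ
  rank : X (γ₁ • o) * Y (γ₂ • o) - Y (γ₁ • o) * X (γ₂ • o) ≠ 0

variable {V : Type*} [DecidableEq V]

/-- With weights `w`, the vertex `o` is joined to every distance with probability at least `c`. -/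
def Far (nb : V → Finset V) (o : V) (w : Sym2 V → ℝ) (c : ℝ) : Prop :=
  ∀ R : ℕ, Lb w (IsE nb) (hit o (↑(ball nb R o) : Set V)ᶜ) c

/-- Large opened balls are joined to every distance with probability close to one. -/
def Seeds (nb : V → Finset V) (o : V) (p : ℝ) : Prop :=
  ∀ δ : ℝ, 0 < δ → ∃ r : ℕ, Far nb o (opn nb (fun _ => p) r o) (1 - δ)

/-- The extension property. -/
def Ext (nb : V → Finset V) (lo hi η δ : ℝ) (r J : ℕ) : Prop :=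
  ∀ (w : Sym2 V → ℝ) (ok : Sym2 V → Prop) (o : V) (T₁ T₂ : Set V) (c : ℝ), Wt w →
    (∀ e, ok e → IsE nb e) →
    (∀ t ∈ T₁, o ∉ ball nb J t) →
    (∀ t ∈ T₁, ∀ a ∈ ball nb J t, ∀ b ∈ nb a, ok s(a, b) ∧ lo ≤ w s(a, b) ∧ w s(a, b) ≤ hi) →
    (∀ t ∈ T₁, ∀ u ∈ ball nb J t, Lb (opn nb w r u) ok (hit u T₂) (1 - δ)) →
    Lb w ok (hit o (T₁ ∪ T₂)) c → Lb w ok (hit o T₂) (c - η)

/-- The extension property with its order of constants. -/
def ExtAll (V : Type*) [DecidableEq V] : Prop :=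
  ∀ η : ℝ, 0 < η → ∃ δ : ℝ, 0 < δ ∧ ∀ (Δ : ℕ) (lo hi : ℝ), 0 < lo → hi < 1 → ∀ r : ℕ, ∃ J : ℕ,
    ∀ nb : V → Finset V, Nb nb Δ → Ext nb lo hi η δ r J

/-- A coordinate changes by at most `l` along edges. -/
def Lip (nb : V → Finset V) (φ : V → ℝ) (l : ℝ) : Prop := ∀ a, ∀ b ∈ nb a, |φ b - φ a| ≤ l

/-- Edges close to `u` in the coordinates. -/
def Dom (nb : V → Finset V) (α β : V → ℝ) (u : V) (e : Sym2 V) : Prop :=
  IsE nb e ∧ ∀ v ∈ e, |α v - α u| ≤ 40 ∧ |β v - β u| ≤ 40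

/-- From an opened ball about any vertex one can move by about `(3, -1)`. -/
def Move (nb : V → Finset V) (p : ℝ) (r : ℕ) (δ ε : ℝ) (α β : V → ℝ) : Prop :=
  ∀ u, Lb (opn nb (fun _ => p) r u) (Dom nb α β u)
    (hit u {v | |α v - α u - 3| ≤ ε ∧ |β v - β u + 1| ≤ ε}) (1 - δ)

/-- Two good moves at a small scale. -/
def Moves (nb : V → Finset V) (p : ℝ) (r : ℕ) (δ ε l : ℝ) : Prop :=
  ∃ α β : V → ℝ, Lip nb α l ∧ Lip nb β l ∧ Move nb p r δ ε α β ∧ Move nb p r δ ε β α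

/-- The site is the origin or has a parent in `c`. -/
def Par (c : Finset (ℕ × ℕ)) (x : ℕ × ℕ) : Prop :=
  x = (0, 0) ∨ ∃ y ∈ c, x = (y.1 + 1, y.2) ∨ x = (y.1, y.2 + 1)

/-- The abstract oriented site exploration survives when each step fails with chance `ε`. -/
def Coarse (σ : Type*) (ε : ℝ) : Prop :=
  ∀ (Val : σ → ℝ → Prop) (Inv : σ → Finset (ℕ × ℕ) → Finset (ℕ × ℕ) → Prop) (n : ℕ) (m : ℝ),
    0 ≤ m → (∀ s a b, Val s a → b ≤ a → Val s b) → (∀ s, Val s 0) →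
    (∀ s P c x, Inv s P c → x ∉ P → Par c x → ∀ a b : ℝ, 0 ≤ b → b ≤ a →
      (∀ s', Inv s' (insert x P) (insert x c) → Val s' a) →
      (∀ s', Inv s' (insert x P) c → Val s' b) → Val s ((1 - ε) * a + ε * b)) →
    (∀ s P c x, Inv s P c → Inv s (insert x P) c) →
    (∀ s P c x, Inv s P c → x ∉ P → Par c x → x.1 + x.2 = n → Val s m) →
    ∀ s, Inv s ∅ ∅ → Val s (m / 2)

/-- Percolation at `p < 1` implies percolation at a smaller parameter, and percolation happens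
below one. -/
def Core (V Γ : Type*) [DecidableEq V] [Group Γ] [MulAction Γ V] : Prop :=
  ∀ S : Setup V Γ,
    (∀ p θ : ℝ, 0 ≤ p → p < 1 → 0 < θ → Far S.nb S.o (fun _ => p) θ →
      ∃ p' c : ℝ, 0 ≤ p' ∧ p' < p ∧ 0 < c ∧ Far S.nb S.o (fun _ => p') c) ∧
    ∃ p c : ℝ, 0 ≤ p ∧ p < 1 ∧ 0 < c ∧ Far S.nb S.o (fun _ => p) c

end Vale.Agent.P151
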