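import Vale.Agent.P151.ExtAux
import Vale.Agent.P151.Defs

/-! The extension lemma. -/

namespace Vale.Agent.P151

variable {V : Type*} [DecidableEq V] {nb : V → Finset V} {Δ : ℕ} {w : Sym2 V → ℝ}
  {F : Finset (Sym2 V)} {o : V} {U U' : Finset V} {T₂ : Set V}

open Classical in
/-- The points of `U` reached from `o`. -/
noncomputable def reach (o : V) (U : Finset V) (a : Finset (Sym2 V)) : Finset V :=
  U.filter (fun v => Conn a o v)

omit [DecidableEq V] in
theorem mem_reach {a : Finset (Sym2 V)} {v : V} : v ∈ reach o U a ↔ v ∈ U ∧ Conn a o v := by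
  classical
  simp [reach]

theorem shell (hnb : Nb nb Δ) (hw : Wt w) {hi : ℝ} (hhi : hi ≤ 1) (hhi0 : 0 ≤ hi) (M : ℕ)
    (hUU : U' ⊆ U) (hU' : ∀ v ∈ U', nb v ⊆ U) (ho : o ∉ U) (hF : ∀ e ∈ F, IsE nb e)
    (hE : inE nb U ⊆ F) (hw' : ∀ e ∈ inE nb U, w e ≤ hi) :
    (1 - hi) ^ (M * Δ) * Ex w (F \ inE nb U)
      (fun a => ind ((reach o U a).Nonempty ∧ (reach o U a).card < M)) ≤
    Ex w F (fun ω => ind ((∃ v ∈ U, Conn ω o v) ∧ ¬ ∃ v ∈ U', Conn ω o v)) := by
  classical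
  rw [Ex_sub_split hE, Ex_comm, ← Ex_mul_left]
  refine Ex_mono hw fun a ha => ?_
  by_cases h : (reach o U a).Nonempty ∧ (reach o U a).card < M
  swap
  · rw [ind_neg h, mul_zero]
    exact Ex_ind_nonneg hw _
  set G := (inE nb U).filter (Touch (reach o U a : Set V)) with hG
  have h1 : G.card ≤ M * Δ := by
    have h2 : G ⊆ (reach o U a).biUnion fun x => (nb x).image fun y => s(x, y) := by
      intro e he
      obtain ⟨he1, he2⟩ := Finset.mem_filter.1 he
      obtain ⟨x, _, y, _, hxy, rfl⟩ := mem_inE.1 he1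
      simp only [Finset.mem_biUnion, Finset.mem_image]
      rcases touch_mk.1 he2 with h3 | h3
      · exact ⟨x, h3, y, hxy, rfl⟩
      · exact ⟨y, h3, x, hnb.symm _ _ hxy, Sym2.eq_swap⟩
    exact (Finset.card_le_card h2).trans ((Finset.card_biUnion_le_card_mul _ _ _ fun x _ =>
      Finset.card_image_le.trans (hnb.card x)).trans (Nat.mul_le_mul_right _ h.2.le))
  have h2 : (1 - hi) ^ (M * Δ) ≤ ∏ e ∈ G, (1 - w e) := by
    refine (pow_le_pow_of_le_one (by linarith) (by linarith) h1).trans ?_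
    rw [← Finset.prod_const]
    exact Finset.prod_le_prod (fun _ _ => by linarith)
      fun e he => sub_le_sub_left (hw' e (Finset.mem_filter.1 he).1) _
  rw [ind_pos h, mul_one]
  refine h2.trans ((closed_prob hw (Finset.filter_subset _ _)).trans
    (Ex_mono hw fun ξ hξ => ind_mono fun hd => ?_))
  have h3 : Cl (ξ ∪ a) {o} = Cl a {o} := by
    refine Cl_stop fun e he => ⟨fun h4 => Finset.mem_union_right _ h4, fun h4 => ?_⟩
    refine (Finset.mem_union.1 h4).resolve_left fun h5 => Finset.disjoint_left.1 hd h5 ?_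
    obtain ⟨v, hv, hve⟩ := he
    exact Finset.mem_filter.2 ⟨hξ h5, v,
      mem_reach.2 ⟨mem_of_mem_inE (hξ h5) hve, mem_Cl_singleton.1 hv⟩, hve⟩
  obtain ⟨v, hv⟩ := h.1
  refine ⟨⟨v, (mem_reach.1 hv).1, (mem_reach.1 hv).2.mono Finset.subset_union_right⟩, ?_⟩
  rintro ⟨v, hv, h4⟩
  have h5 : Conn a o v := mem_Cl_singleton.1 (h3 ▸ mem_Cl_singleton.2 h4)
  refine h5.closed (P := fun v => v ∉ U') (fun h6 => ho (hUU h6)) (fun x y _ hxy hy => ?_) hv
  have h6 := Finset.mem_sdiff.1 (ha hxy)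
  have h7 := (isE_mk hnb).1 (hF _ h6.1)
  exact h6.2 (mem_inE.2 ⟨x, hU' y hy (hnb.symm _ _ h7), y, hUU hy, h7, rfl⟩)

theorem sum_shell_le {P : ℕ → Prop} (hP : ∀ j, P j → P (j + 1)) (n : ℕ) :
    ∑ j ∈ Finset.range n, ind (P (j + 1) ∧ ¬ P j) ≤ 1 := by
  have h : ∀ j, ind (P (j + 1) ∧ ¬ P j) = ind (P (j + 1)) - ind (P j) := by
    intro j
    by_cases h1 : P j
    · rw [ind_and, ind_neg (not_not.2 h1), ind_pos h1, ind_pos (hP j h1)]; ring
    · rw [ind_and, ind_pos h1, ind_neg h1]; ring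
  simp only [h, Finset.sum_range_sub (fun j => ind (P j))]
  linarith [ind_le_one (P n), ind_nonneg (P 0)]

open Classical in
/-- The points with an open seed which are likely to be joined to the target. -/
noncomputable def good (w : Sym2 V → ℝ) (F E : Finset (Sym2 V)) (s : V → Finset (Sym2 V))
    (T₂ : Set V) (b : ℝ) (ξ : Finset (Sym2 V)) : Set V :=
  {v | s v ⊆ ξ ∧ 1 - b ≤ Ex (rev w E ξ) F (hit v T₂)}

theorem seed_bad (hw : Wt w) {E s : Finset (Sym2 V)} (hs : s ⊆ E) {v : V} {b δ : ℝ} (hb : 0 < b)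
    (h : 1 - δ ≤ Ex (rev w s s) F (hit v T₂)) :
    Ex w E (fun ξ => ind (s ⊆ ξ) * ind (Ex (rev w E ξ) F (hit v T₂) < 1 - b)) ≤
      (∏ e ∈ s, w e) * (δ / b) := by
  rw [Ex_all hs]
  refine mul_le_mul_of_nonneg_left (Ex_markov (hw.rev _ _) hb
    (fun ξ _ => Ex_le (hw.rev _ _) fun _ _ => hit_le_one) ?_)
    (Finset.prod_nonneg fun e _ => (hw e).1)
  rw [Ex_tower E] at h
  refine h.trans_eq (Ex_congr fun ξ _ => Ex_congr_w fun e _ => ?_)
  by_cases h1 : e ∈ E
  · simp [rev, h1]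
  · simp [rev, h1, mt (@hs e) h1]

theorem seeds_bound (hw : Wt w) {E : Finset (Sym2 V)} (s : V → Finset (Sym2 V)) (I : Finset V)
    (hs : ∀ v ∈ I, s v ⊆ E) (hd : ∀ i ∈ I, ∀ j ∈ I, i ≠ j → Disjoint (s i) (s j))
    {b δ lam : ℝ} (hb : 0 < b) (hδ : 0 ≤ δ) (hlam : 0 ≤ lam)
    (h1 : lam ≤ ∑ v ∈ I, ∏ e ∈ s v, w e) (h2 : ∑ v ∈ I, ∏ e ∈ s v, w e ≤ lam + 1)
    (h : ∀ v ∈ I, 1 - δ ≤ Ex (rev w (s v) (s v)) F (hit v T₂)) :
    Ex w E (fun ξ => ind (∀ v ∈ I, v ∉ good w F E s T₂ b ξ)) ≤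
      1 / (1 + lam) + (lam + 1) * (δ / b) := by
  have h3 : Ex w E (fun ξ => ind (∀ v ∈ I, v ∉ good w F E s T₂ b ξ)) ≤
      Ex w E (fun ξ => ind (∀ v ∈ I, ¬ s v ⊆ ξ) +
        ∑ v ∈ I, ind (s v ⊆ ξ) * ind (Ex (rev w E ξ) F (hit v T₂) < 1 - b)) := by
    refine Ex_mono hw fun ξ _ => ?_
    have h4 : ∀ v ∈ I, 0 ≤ ind (s v ⊆ ξ) * ind (Ex (rev w E ξ) F (hit v T₂) < 1 - b) :=
      fun v _ => mul_nonneg (ind_nonneg _) (ind_nonneg _)
    by_cases h5 : ∀ v ∈ I, ¬ s v ⊆ ξ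
    · rw [ind_pos h5]
      linarith [ind_le_one (∀ v ∈ I, v ∉ good w F E s T₂ b ξ), Finset.sum_nonneg h4]
    · rw [ind_neg h5, zero_add]
      push Not at h5
      obtain ⟨v, hv, h5⟩ := h5
      refine le_trans ?_ (Finset.single_le_sum h4 hv)
      rw [ind_pos h5, one_mul]
      exact ind_mono fun h6 => lt_of_not_ge fun h7 => h6 v hv ⟨h5, h7⟩
  rw [Ex_add, Ex_sum, none_open I s hs hd] at h3
  have h4 := prod_one_sub_le I (fun v => ∏ e ∈ s v, w e) fun v _ =>
    ⟨Finset.prod_nonneg fun e _ => (hw e).1,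
      Finset.prod_le_one (fun e _ => (hw e).1) fun e _ => (hw e).2⟩
  have h5 : 0 ≤ ∏ v ∈ I, (1 - ∏ e ∈ s v, w e) := Finset.prod_nonneg fun v _ =>
    sub_nonneg.2 (Finset.prod_le_one (fun e _ => (hw e).1) fun e _ => (hw e).2)
  have h6 := Finset.sum_le_sum fun v hv => seed_bad (F := F) hw (hs v hv) hb (h v hv)
  rw [← Finset.sum_mul] at h6
  refine h3.trans (add_le_add ?_ (h6.trans (mul_le_mul_of_nonneg_right h2 (by positivity))))
  rw [le_div_iff₀ (by linarith)]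
  nlinarith [mul_le_mul_of_nonneg_left h1 h5]

theorem shell_step (hw : Wt w) (ho : o ∉ U) (hE : inE nb U ⊆ F) (s : V → Finset (Sym2 V))
    {b t : ℝ} (hb : 0 ≤ b) (ht : 0 ≤ t) (M : ℕ)
    (h : ∀ R ⊆ U, M ≤ R.card →
      Ex w (inE nb U) (fun ξ => ind (∀ v ∈ R, v ∉ good w F (inE nb U) s T₂ b ξ)) ≤ t) :
    Ex w F (hit o (U ∪ T₂)) - b - t - Ex w (F \ inE nb U)
      (fun a => ind ((reach o U a).Nonempty ∧ (reach o U a).card < M)) ≤ Ex w F (hit o T₂) := by
  set E := inE nb U with hE'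
  have h1 : Ex w E (fun ξ => Ex w (F \ E) (fun a => hit o (good w F E s T₂ b ξ ∪ T₂) (ξ ∪ a))) - b
      ≤ Ex w F (hit o T₂) := by
    rw [Ex_tower (F := F) E, ← Ex_const w E b, ← Ex_sub]
    refine Ex_mono hw fun ξ hξ => ?_
    rw [← Ex_rev_sub hE hξ, Ex_const]
    refine glue_set (hw.rev _ _) hb fun v hv => hv.elim (fun h => h.2) fun h => ?_
    exact le_Ex (hw.rev _ _) fun _ _ => by rw [hit_of_mem h]; linarith
  have h2 : Ex w E (fun ξ => Ex w (F \ E) (fun a => ind (M ≤ (reach o U a).card) *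
      ind (∀ v ∈ reach o U a, v ∉ good w F E s T₂ b ξ))) ≤ t := by
    rw [Ex_comm]
    refine Ex_le hw fun a _ => ?_
    rw [Ex_mul_left]
    by_cases h3 : M ≤ (reach o U a).card
    · rw [ind_pos h3, one_mul]
      exact h _ (fun v hv => (mem_reach.1 hv).1) h3
    · rwa [ind_neg h3, zero_mul]
  have h3 : Ex w F (hit o (U ∪ T₂)) ≤ Ex w E (fun ξ => Ex w (F \ E) (fun a =>
      hit o (good w F E s T₂ b ξ ∪ T₂) (ξ ∪ a) + ind (M ≤ (reach o U a).card) *
        ind (∀ v ∈ reach o U a, v ∉ good w F E s T₂ b ξ) +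
      ind ((reach o U a).Nonempty ∧ (reach o U a).card < M))) := by
    rw [Ex_sub_split hE]
    refine Ex_mono hw fun ξ hξ => Ex_mono hw fun a _ => ?_
    have n1 : 0 ≤ hit o (good w F E s T₂ b ξ ∪ T₂) (ξ ∪ a) := hit_nonneg
    have n2 := mul_nonneg (ind_nonneg (M ≤ (reach o U a).card))
      (ind_nonneg (∀ v ∈ reach o U a, v ∉ good w F E s T₂ b ξ))
    have n3 := ind_nonneg ((reach o U a).Nonempty ∧ (reach o U a).card < M)
    have n4 : hit o (U ∪ T₂) (ξ ∪ a) ≤ 1 := hit_le_one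
    by_cases h4 : o ∈ Cl (ξ ∪ a) (good w F E s T₂ b ξ ∪ T₂)
    · rw [hit, hit, ind_pos h4] at *
      linarith
    by_cases h5 : o ∈ Cl (ξ ∪ a) (U ∪ T₂)
    swap
    · rw [hit, ind_neg h5]
      linarith
    have h6 : (reach o U a).Nonempty := by
      rw [Cl_union] at h5
      obtain ⟨v, hv, h7⟩ := h5.resolve_right fun h => h4 (Cl_mono subset_rfl Set.subset_union_right h)
      by_contra h8
      refine (h7.symm.closed (P := fun v => v ∉ U ∧ Conn a o v) ⟨ho, Conn.refl _ _⟩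
        fun x y hx hxy => ?_).1 hv
      have h9 := hx.2.tail ((Finset.mem_union.1 hxy).resolve_left fun h =>
        hx.1 (mem_of_mem_inE (hξ h) (Sym2.mem_mk_left _ _)))
      exact ⟨fun h => h8 ⟨y, mem_reach.2 ⟨h, h9⟩⟩, h9⟩
    by_cases h7 : M ≤ (reach o U a).card
    · rw [ind_pos h7, ind_pos fun v hv hg => h4 ⟨v, Or.inl hg,
        ((mem_reach.1 hv).2.mono Finset.subset_union_right).symm⟩]
      linarith
    · rw [ind_pos (P := _ ∧ _) ⟨h6, not_le.1 h7⟩]
      linarith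
  simp only [Ex_add, Ex_const] at h3
  linarith

theorem extAll (V : Type*) [DecidableEq V] : ExtAll V := by
  intro η hη
  refine ⟨η / 4 * (η / 4) / (4 / η + 1), by positivity, fun Δ lo hi hlo hhi r => ?_⟩
  obtain ⟨k, hk⟩ := exists_nat_ge (4 / η / min lo 1 ^ ((Δ + 1) ^ r * Δ))
  have hq : 0 < min lo 1 ^ ((Δ + 1) ^ r * Δ) := by positivity
  rw [div_le_iff₀ hq] at hk
  set M := k * (Δ + 1) ^ (r + r + (r + r)) with hM
  have hhi' : 0 < 1 - max hi 0 := sub_pos.2 (max_lt hhi one_pos)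
  obtain ⟨J, hJ⟩ := exists_nat_gt (4 / η / (1 - max hi 0) ^ (M * Δ))
  rw [div_lt_iff₀ (by positivity)] at hJ
  refine ⟨J * (r + 1), fun nb hnb w ok o T₁ T₂ c hw hok ho hfresh hnear ⟨F₁, hF₁, hc⟩ => ?_⟩
  set T := fin F₁ o T₁ with hT
  have hU : ∀ j ≤ J, ∀ v ∈ nbh nb (j * (r + 1)) T, ∃ t ∈ T₁, v ∈ ball nb (J * (r + 1)) t := by
    intro j hj v hv
    obtain ⟨t, ht, h⟩ := mem_nbh.1 (nbh_le (Nat.mul_le_mul_right _ hj) hv)
    exact ⟨t, fin_subset ht, h⟩
  have hE : ∀ j ≤ J, ∀ e ∈ inE nb (nbh nb (j * (r + 1)) T), ok e ∧ lo ≤ w e ∧ w e ≤ hi := by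
    intro j hj e he
    obtain ⟨a, ha, b, _, hab, rfl⟩ := mem_inE.1 he
    obtain ⟨t, ht, h⟩ := hU j hj a ha
    exact hfresh t ht a h b hab
  obtain ⟨F₂, hF₂, hF₂'⟩ := Lb.merge (ok := ok) (nbh nb (J * (r + 1)) T) (fun u => opn nb w r u)
    (fun u => hit u T₂) (fun _ => 1 - η / 4 * (η / 4) / (4 / η + 1)) (fun _ _ => hw.opn _ _ _)
    (fun _ _ => hit_mono _ _) fun u hu => let ⟨t, ht, h⟩ := hU J le_rfl u hu; hnear t ht u h
  set F := F₁ ∪ F₂ ∪ inE nb (nbh nb (J * (r + 1)) T) with hF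
  have hFok : ∀ e ∈ F, ok e := fun e he => (Finset.mem_union.1 he).elim
    (fun h => (Finset.mem_union.1 h).elim (hF₁ e) (hF₂ e)) fun h => (hE J le_rfl e h).1
  have hEF : ∀ j ≤ J, inE nb (nbh nb (j * (r + 1)) T) ⊆ F := fun j hj =>
    (inE_mono (nbh_le (Nat.mul_le_mul_right _ hj))).trans Finset.subset_union_right
  have hoU : ∀ j ≤ J, o ∉ nbh nb (j * (r + 1)) T := fun j hj h =>
    let ⟨t, ht, h'⟩ := hU j hj o h; ho t ht h'
  obtain ⟨j, hj, hsmall⟩ : ∃ j < J, Ex w (F \ inE nb (nbh nb ((j + 1) * (r + 1)) T))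
      (fun a => ind ((reach o (nbh nb ((j + 1) * (r + 1)) T) a).Nonempty ∧
        (reach o (nbh nb ((j + 1) * (r + 1)) T) a).card < M)) ≤ η / 4 := by
    by_contra hcon
    push Not at hcon
    have h1 : ∑ j ∈ Finset.range J, (1 - max hi 0) ^ (M * Δ) * (η / 4) ≤
        ∑ j ∈ Finset.range J, Ex w F (fun ω => ind ((∃ v ∈ nbh nb ((j + 1) * (r + 1)) T,
          Conn ω o v) ∧ ¬ ∃ v ∈ nbh nb (j * (r + 1)) T, Conn ω o v)) := by
      refine Finset.sum_le_sum fun j hj => ?_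
      have hj' := Finset.mem_range.1 hj
      refine (mul_le_mul_of_nonneg_left (hcon j hj').le (by positivity)).trans
        (shell hnb hw (by linarith) (le_max_right _ _) M (nbh_le (by nlinarith))
          (fun v hv x hx => nbh_le (m := j * (r + 1) + 1) (by nlinarith)
            (mem_nbh_succ.2 (Or.inr ⟨v, hv, hx⟩))) (hoU _ hj') (fun e he => hok e (hFok e he))
          (hEF _ hj') fun e he => (hE _ hj' e he).2.2.trans (le_max_left _ _))
    rw [← Ex_sum] at h1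
    have h2 := h1.trans (Ex_le hw fun ω _ => sum_shell_le
      (P := fun j => ∃ v ∈ nbh nb (j * (r + 1)) T, Conn ω o v)
      (fun j ⟨v, hv, h⟩ => ⟨v, nbh_le (by nlinarith) hv, h⟩) J)
    rw [Finset.sum_const, Finset.card_range, nsmul_eq_mul] at h2
    rw [div_lt_iff₀ hη] at hJ
    nlinarith
  set U := nbh nb ((j + 1) * (r + 1)) T with hUdef
  have hu : ∀ v ∈ U, ∃ u, v ∈ ball nb r u ∧ ball nb r u ⊆ U := by
    intro v hv
    have h1 : U = nbh nb r (nbh nb (j * (r + 1) + 1) T) := by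
      rw [hUdef, ← nbh_add]; congr 1; ring
    rw [h1] at hv ⊢
    obtain ⟨u, hu, h2⟩ := mem_nbh.1 hv
    exact ⟨u, h2, nbh_mono (Finset.singleton_subset_iff.2 hu)⟩
  choose! u hu1 hu2 using hu
  have h1 := shell_step (T₂ := T₂) hw (hoU _ hj) (hEF _ hj) (fun v => inE nb (ball nb r (u v)))
    (b := η / 4) (t := η / 4 + η / 4) (by positivity) (by positivity) M fun R hR hcard => by
      obtain ⟨I, hI, h1, h2, h3⟩ := greedy (fun v => ball nb (r + r + (r + r)) v)
        (fun v => ∏ e ∈ inE nb (ball nb r (u v)), w e) ((Δ + 1) ^ (r + r + (r + r)))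
        (min lo 1 ^ ((Δ + 1) ^ r * Δ)) (by positivity) (fun _ => mem_ball_self)
        (fun _ => card_ball hnb) (fun _ _ => ball_symm hnb) k (4 / η) R (by positivity) hk hcard
        fun v hv => ⟨by
          refine (pow_le_pow_of_le_one (by positivity) (min_le_right _ _)
            ((card_inE hnb).trans (Nat.mul_le_mul_right _ (card_ball (u := u v) hnb)))).trans ?_
          rw [← Finset.prod_const]
          exact Finset.prod_le_prod (fun _ _ => by positivity) fun e he =>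
            (min_le_left _ _).trans (hE _ hj e (inE_mono (hu2 v (hR hv)) he)).2.1,
          Finset.prod_le_one (fun e _ => (hw e).1) fun e _ => (hw e).2⟩
      have h4 := seeds_bound (F := F) (T₂ := T₂) (E := inE nb U) hw
        (fun v => inE nb (ball nb r (u v))) I (fun v hv => inE_mono (hu2 v (hR (hI hv))))
        (fun x hx y hy hxy => Finset.disjoint_left.2 fun e he he' => by
          obtain ⟨a, ha, b, _, _, rfl⟩ := mem_inE.1 he
          exact h1 x hx y hy hxy (ball_trans (ball_trans (ball_symm hnb (hu1 y (hR (hI hy))))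
            (mem_of_mem_inE he' (Sym2.mem_mk_left _ _)))
            (ball_trans (ball_symm hnb ha) (hu1 x (hR (hI hx))))))
        (b := η / 4) (δ := η / 4 * (η / 4) / (4 / η + 1)) (by positivity) (by positivity)
        (by positivity) h2 h3 fun v hv => by
          have h5 := hu2 v (hR (hI hv))
          refine (hF₂' F (Finset.subset_union_right.trans Finset.subset_union_left) (u v)
            (nbh_le (Nat.mul_le_mul_right _ hj) (h5 mem_ball_self))).trans
            (Ex_mono_one (hw.opn _ _ _) fun ω _ hω => ind_mono fun h6 => Cl_trans h6 ?_)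
          exact conn_of_ball (fun e he => hω e (hEF _ hj (inE_mono h5 he)) (opn_of_mem he))
            (hu1 v (hR (hI hv)))
      refine (Ex_mono hw fun ξ _ => ind_mono fun h v hv => h v (hI hv)).trans (h4.trans ?_)
      have h5 : (4 / η + 1) * (η / 4 * (η / 4) / (4 / η + 1) / (η / 4)) = η / 4 := by
        field_simp
      have h6 : 1 / (1 + 4 / η) ≤ η / 4 := by
        rw [div_le_iff₀ (by positivity)]
        have : η / 4 * (1 + 4 / η) = η / 4 + 1 := by field_simp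
        linarith
      linarith
  refine ⟨F, hFok, ?_⟩
  have h2 : c ≤ Ex w F (hit o (U ∪ T₂)) := by
    refine hc.trans ((Ex_mono hw fun ω hω => ind_mono fun h => ?_).trans
      (Ex_le_of_subset hw (Finset.subset_union_left.trans Finset.subset_union_left)
        (hit_mono _ _)))
    rw [Cl_union] at h ⊢
    exact h.imp_left fun h => Cl_mono subset_rfl
      (Finset.coe_subset.2 (nbh_le (m := 0) (Nat.zero_le _))) (mem_Cl_fin hω h)
  linarith

end Vale.Agent.P151
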