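import Vale.Agent.P151.Defs2

/-! Transport of the two moves to all vertices and to a smaller parameter. -/

namespace Vale.Agent.P151

variable {V Γ : Type*} [DecidableEq V] [Group Γ] [MulAction Γ V]

theorem geo_ball (S : Setup V Γ) (γ : Γ) {n : ℕ} {u v : V} (h : v ∈ ball S.nb n u) :
    γ • v ∈ ball S.nb n (γ • u) := by
  induction n generalizing v with
  | zero => rw [mem_ball_zero.1 h]; exact mem_ball_self
  | succ n ih =>
    rcases mem_ball_succ.1 h with h1 | ⟨a, ha, h1⟩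
    · exact mem_ball_succ.2 (Or.inl (ih h1))
    · exact ball_step (ih ha) (S.act γ a v h1)

theorem geo_inE (S : Setup V Γ) (γ : Γ) {n : ℕ} {u : V} {e : Sym2 V}
    (h : e ∈ inE S.nb (ball S.nb n u)) : e.map (γ • ·) ∈ inE S.nb (ball S.nb n (γ • u)) := by
  obtain ⟨a, ha, b, hb, h1, rfl⟩ := mem_inE.1 h
  exact mem_inE.2 ⟨_, geo_ball S γ ha, _, geo_ball S γ hb, S.act γ a b h1, rfl⟩

theorem geo_conn (γ : Γ) {ω : Finset (Sym2 V)} {a b : V} (h : Conn ω a b) :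
    Conn (ω.image (Sym2.map (γ • ·))) (γ • a) (γ • b) := by
  induction h with
  | refl => exact Conn.refl _ _
  | tail _ h2 ih => exact ih.tail (Finset.mem_image.2 ⟨_, h2, rfl⟩)

omit [DecidableEq V] in
theorem geo_wt {p : ℝ} (h0 : 0 ≤ p) (h1 : p ≤ 1) : Wt fun _ : Sym2 V => p := fun _ => ⟨h0, h1⟩

/-- Transport of a certificate by a group element, opening a larger ball. -/
theorem geo_transport (S : Setup V Γ) {p : ℝ} (h0 : 0 ≤ p) (h1 : p ≤ 1) (γ : Γ) {r₀ r : ℕ} {u : V}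
    (hb : ball S.nb r₀ (γ • S.o) ⊆ ball S.nb r u) {ok ok' : Sym2 V → Prop} {T T' : Set V} {c : ℝ}
    (hok : ∀ e, ok e → ok' (e.map (γ • ·))) (hT : ∀ v ∈ T, γ • v ∈ T')
    (h : Lb (opn S.nb (fun _ => p) r₀ S.o) ok (hit S.o T) c) :
    Lb (opn S.nb (fun _ => p) r u) ok' (hit (γ • S.o) T') c := by
  obtain ⟨F, hF, hc⟩ := h
  have hw := geo_wt (V := V) h0 h1
  refine ⟨F.image (Sym2.map (γ • ·)), fun e he => ?_, hc.trans ?_⟩
  · obtain ⟨e', he', rfl⟩ := Finset.mem_image.1 he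
    exact hok e' (hF e' he')
  rw [Ex_image _ (Sym2.map.injective (MulAction.injective γ))]
  refine (Ex_mono (hw.opn _ _ _) fun ω _ => ?_).trans (Ex_mono_w (hw.opn _ _ _)
    (fun e => hw.opn _ _ _ _) (fun e _ => ?_)
    fun a b hab => hit_mono _ _ (Finset.image_subset_image hab))
  · exact ind_mono fun ⟨x, hx, hc⟩ => ⟨_, hT x hx, geo_conn γ hc⟩
  · by_cases he : e ∈ inE S.nb (ball S.nb r₀ S.o)
    · rw [opn_of_mem he, opn_of_mem (inE_mono hb (geo_inE S γ he))]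
    · rw [opn_of_not_mem he]
      exact le_opn hw _

omit [DecidableEq V] in
theorem geo_lip {nb : V → Finset V} {μ ν : V → ℝ} {l : ℝ} (hμ : Lip nb μ l) (hν : Lip nb ν l) :
    Lip nb (fun v => 3 * μ v - ν v) (4 * l) := by
  intro a b hb
  have h1 := abs_le.1 (hμ a b hb)
  have h2 := abs_le.1 (hν a b hb)
  rw [abs_le]
  constructor <;> linarith

theorem geo_move (S : Setup V Γ) {p δ ε l : ℝ} (h0 : 0 ≤ p) (h1 : p ≤ 1) {r₀ : ℕ} {μ ν : V → ℝ}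
    (hε : 0 < ε) (hl : 0 ≤ l) (hl1 : (r₀ + S.D₀ : ℕ) * (4 * l) ≤ 1)
    (hl2 : (r₀ + S.D₀ : ℕ) * (4 * l) ≤ ε / 2)
    (hμ : Lip S.nb μ l) (hν : Lip S.nb ν l)
    (eμ : ∀ (γ : Γ) v, μ (γ • v) = μ v + μ (γ • S.o))
    (eν : ∀ (γ : Γ) v, ν (γ • v) = ν v + ν (γ • S.o))
    (h : MoveAt S.nb (opn S.nb (fun _ => p) r₀ S.o) S.o δ (ε / 10) μ ν) :
    Move S.nb p (r₀ + S.D₀) δ ε (fun v => 3 * μ v - ν v) (fun v => 3 * ν v - μ v) := by
  intro u
  obtain ⟨γ, hγ⟩ := S.near u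
  have hγ' := ball_symm S.hnb hγ
  have hb : ball S.nb r₀ (γ • S.o) ⊆ ball S.nb (r₀ + S.D₀) u := fun v hv => by
    rw [add_comm]
    exact ball_trans hγ' hv
  have k : ∀ v ∈ ball S.nb (r₀ + S.D₀) u,
      |(3 * μ v - ν v) - (3 * μ u - ν u)| ≤ (r₀ + S.D₀ : ℕ) * (4 * l) ∧
      |(3 * ν v - μ v) - (3 * ν u - μ u)| ≤ (r₀ + S.D₀ : ℕ) * (4 * l) := fun v hv =>
    ⟨ball_lip (by positivity) (geo_lip hμ hν) hv, ball_lip (by positivity) (geo_lip hν hμ) hv⟩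
  obtain ⟨k1, k2⟩ := k _ (hb mem_ball_self)
  rw [abs_le] at k1 k2
  refine Lb.opn_ball (geo_wt h0 h1) (fun e he => ⟨isE_of_mem_inE he, fun v hv => ?_⟩)
    (hb mem_ball_self) (geo_transport S h0 h1 γ hb ?_ ?_ h)
  · obtain ⟨k3, k4⟩ := k v (mem_of_mem_inE he hv)
    exact ⟨k3.trans (by linarith), k4.trans (by linarith)⟩
  · rintro e ⟨⟨a, b, hab, rfl⟩, he⟩
    refine ⟨⟨_, _, S.act γ a b hab, rfl⟩, fun v hv => ?_⟩
    obtain ⟨x, hx, rfl⟩ := Sym2.mem_map.1 hv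
    obtain ⟨k3, k4⟩ := he x hx
    rw [abs_le] at k3 k4
    simp only [abs_le]
    rw [eμ γ x, eν γ x]
    refine ⟨⟨?_, ?_⟩, ?_, ?_⟩ <;> linarith
  · rintro x ⟨k3, k4⟩
    rw [abs_le] at k3 k4
    simp only [Set.mem_ofPred_eq, abs_le]
    rw [eμ γ x, eν γ x]
    refine ⟨⟨?_, ?_⟩, ?_, ?_⟩ <;> linarith

/-- Continuity in the parameter. -/
theorem geo_cont {nb : V → Finset V} {p δ : ℝ} (hp0 : 0 ≤ p) (hp1 : p ≤ 1) (hδ : 0 < δ) {r : ℕ}
    {o : V} {ok : Sym2 V → Prop} {T : Set V}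
    (h : Lb (opn nb (fun _ => p) r o) ok (hit o T) (1 - δ / 2)) :
    ∃ t : ℝ, 0 < t ∧ ∀ p', 0 ≤ p' → p' ≤ p → p - t ≤ p' →
      Lb (opn nb (fun _ => p') r o) ok (hit o T) (1 - δ) := by
  obtain ⟨F, hF, hc⟩ := h
  refine ⟨δ / (2 * (F.card + 1)), by positivity, fun p' h0 h1 h2 => ⟨F, hF, ?_⟩⟩
  have h3 := Ex_lip (F := F) (f := hit o T) (t := δ / (2 * (F.card + 1)))
    ((geo_wt hp0 hp1).opn nb r o) ((geo_wt h0 (h1.trans hp1)).opn nb r o) (fun e _ => by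
      by_cases he : e ∈ inE nb (ball nb r o)
      · rw [opn_of_mem he, opn_of_mem he, sub_self, abs_zero]
        positivity
      · rw [opn_of_not_mem he, opn_of_not_mem he, abs_of_nonneg (by linarith)]
        linarith) fun _ => ⟨hit_nonneg, hit_le_one⟩
  have h4 : (F.card : ℝ) * (δ / (2 * (F.card + 1))) ≤ δ / 2 := by
    rw [← mul_div_assoc, div_le_div_iff₀ (by positivity) (by positivity)]
    nlinarith
  linarith

theorem geometry (S : Setup V Γ) {p : ℝ} (hp0 : 0 < p) (hp1 : p < 1) (h : TwoMoves S p) :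
    Geometry S p := by
  intro δ ε hδ hε lam hlam
  have hm : 0 < min ε 1 := lt_min hε one_pos
  obtain ⟨r₀, a, b, c, d, l1, l2, m1, m2⟩ := h (δ / 2) (ε / 10) (by positivity) (by positivity)
    (fun r₀ => min (lam (r₀ + S.D₀) / 4) (min ε 1 / (8 * ((r₀ + S.D₀ : ℕ) + 1))))
    fun r₀ => lt_min (div_pos (hlam _) (by norm_num)) (by positivity)
  set l := min (lam (r₀ + S.D₀) / 4) (min ε 1 / (8 * ((r₀ + S.D₀ : ℕ) + 1))) with hl
  have hl0 : 0 ≤ l := (lt_min (div_pos (hlam _) (by norm_num)) (by positivity)).le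
  have hl1 : 4 * l ≤ lam (r₀ + S.D₀) := by
    linarith [min_le_left (lam (r₀ + S.D₀) / 4) (min ε 1 / (8 * ((r₀ + S.D₀ : ℕ) + 1)))]
  have hl2 : ((r₀ + S.D₀ : ℕ) : ℝ) * (4 * l) ≤ min ε 1 / 2 := by
    have h1 : l ≤ min ε 1 / (8 * ((r₀ + S.D₀ : ℕ) + 1)) := min_le_right _ _
    rw [le_div_iff₀ (by positivity)] at h1
    linarith
  have hl3 : ((r₀ + S.D₀ : ℕ) : ℝ) * (4 * l) ≤ 1 := by linarith [min_le_right ε 1]
  have hl4 : ((r₀ + S.D₀ : ℕ) : ℝ) * (4 * l) ≤ ε / 2 := by linarith [min_le_left ε 1]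
  obtain ⟨t₁, ht₁, c1⟩ := geo_cont hp0.le hp1.le hδ m1
  obtain ⟨t₂, ht₂, c2⟩ := geo_cont hp0.le hp1.le hδ m2
  have ht : 0 < min t₁ t₂ := lt_min ht₁ ht₂
  have q1 : p / 2 ≤ max (p / 2) (p - min t₁ t₂) := le_max_left _ _
  have q2 : p - min t₁ t₂ ≤ max (p / 2) (p - min t₁ t₂) := le_max_right _ _
  have q3 : max (p / 2) (p - min t₁ t₂) < p := max_lt (by linarith) (by linarith)
  set p' := max (p / 2) (p - min t₁ t₂)
  have q0 : 0 ≤ p' := by linarith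
  have e : ∀ a b : ℝ, ∀ (γ : Γ) v, a * S.X (γ • v) + b * S.Y (γ • v) =
      a * S.X v + b * S.Y v + (a * S.X (γ • S.o) + b * S.Y (γ • S.o)) := fun a b γ v => by
    rw [S.hX γ v, S.hY γ v]
    ring
  refine ⟨r₀ + S.D₀, p', q1, q3, _, _, fun x y hy => (geo_lip l1 l2 x y hy).trans hl1,
    fun x y hy => (geo_lip l2 l1 x y hy).trans hl1,
    geo_move S q0 (by linarith) hε hl0 hl3 hl4 l1 l2 (e a b) (e c d)
      (c1 p' q0 q3.le (by linarith [min_le_left t₁ t₂])),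
    geo_move S q0 (by linarith) hε hl0 hl3 hl4 l2 l1 (e c d) (e a b)
      (c2 p' q0 q3.le (by linarith [min_le_right t₁ t₂]))⟩

end Vale.Agent.P151
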