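import Vale.Agent.P151.Defs

/-! Good moves exist when the parameter is close to one. -/

namespace Vale.Agent.P151

variable {V Γ : Type*} [DecidableEq V] [Group Γ] [MulAction Γ V]

theorem mvo_ball_smul (S : Setup V Γ) (γ : Γ) {n : ℕ} {u v : V} (h : v ∈ ball S.nb n u) :
    γ • v ∈ ball S.nb n (γ • u) := by
  induction n generalizing v with
  | zero => rw [mem_ball_zero.1 h]; exact mem_ball_self
  | succ n ih =>
    rcases mem_ball_succ.1 h with h1 | ⟨a, ha, h1⟩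
    · exact ball_le (Nat.le_succ n) (ih h1)
    · exact ball_step (ih ha) (S.act γ _ _ h1)

theorem mvo_pow {o : V} {A : V → ℝ} (hA : ∀ (γ : Γ) v, A (γ • v) = A v + A (γ • o)) (g γ : Γ)
    (k : ℕ) : A ((γ * g ^ k) • o) = A (γ • o) + k * A (g • o) := by
  have h : ∀ k : ℕ, A (g ^ k • o) = k * A (g • o) := by
    intro k
    induction k with
    | zero =>
      have := hA 1 o
      simp only [one_smul] at this
      simp only [pow_zero, one_smul, Nat.cast_zero, zero_mul]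
      linarith
    | succ k ih => rw [pow_succ', mul_smul, hA, ih]; push_cast; ring
  rw [mul_smul, hA, h, add_comm]

theorem mvo_all {w : Sym2 V → ℝ} (hw : Wt w) {p : ℝ} (hp : 0 ≤ p) (hp1 : p ≤ 1)
    (h : ∀ e, p ≤ w e) {E : Finset (Sym2 V)} {M : ℕ} (hM : E.card ≤ M)
    {f : Finset (Sym2 V) → ℝ} (hf : ∀ ω, 0 ≤ f ω) (hE : 1 ≤ f E) : p ^ M ≤ Ex w E f := by
  have h1 := Ex_all (subset_refl E) w fun _ => 1
  rw [Ex_const, mul_one] at h1
  calc p ^ M ≤ p ^ E.card := pow_le_pow_of_le_one hp hp1 hM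
    _ = ∏ _e ∈ E, p := (Finset.prod_const p).symm
    _ ≤ ∏ e ∈ E, w e := Finset.prod_le_prod (fun _ _ => hp) fun e _ => h e
    _ = _ := h1.symm
    _ ≤ _ := Ex_mono hw fun ω hω => by
      by_cases h2 : E ⊆ ω
      · rw [ind_pos h2, one_mul, Finset.Subset.antisymm hω h2]; exact hE
      · rw [ind_neg h2, zero_mul]; exact hf ω

theorem mvo_move (S : Setup V Γ) (g : Γ) {A B : V → ℝ} {L ε : ℝ} (hL : 0 ≤ L) (hε : 0 < ε)
    (hA : ∀ (γ : Γ) v, A (γ • v) = A v + A (γ • S.o))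
    (hB : ∀ (γ : Γ) v, B (γ • v) = B v + B (γ • S.o)) (lA : Lip S.nb A L) (lB : Lip S.nb B L)
    (h1 : A (g • S.o) = 3) (h2 : B (g • S.o) = -1) :
    ∃ N : ℝ, ∀ n : ℕ, 0 < n → N ≤ n → ∃ M : ℕ, ∀ p δ : ℝ, 0 ≤ p → p ≤ 1 → 1 - δ ≤ p ^ M →
      Move S.nb p 0 δ ε (fun v => A v / n) (fun v => B v / n) := by
  obtain ⟨ρ₀, hρ₀⟩ := S.conn (g • S.o)
  obtain ⟨ρ, hρ1, hρ2⟩ : ∃ ρ : ℕ, S.D₀ ≤ ρ ∧ ρ₀ ≤ ρ := ⟨_, le_max_left _ _, le_max_right _ _⟩
  refine ⟨max (ρ * L) (ρ * L / ε), fun n hn hN =>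
    ⟨(n + 1) * ((S.Δ + 1) ^ ρ * S.Δ), fun p δ hp hp1 hδ u => ?_⟩⟩
  have hn' : (0 : ℝ) < n := by exact_mod_cast hn
  have hN1 : ρ * L ≤ n := (le_max_left _ _).trans hN
  have hN2 : ρ * L ≤ ε * n := by
    have := (le_max_right _ _).trans hN
    rwa [div_le_iff₀ hε, mul_comm (n : ℝ)] at this
  obtain ⟨γ, hγ⟩ := S.near u
  have hu : u ∈ ball S.nb ρ (γ • S.o) := ball_le hρ1 hγ
  obtain ⟨x, hx⟩ : ∃ x : ℕ → V, ∀ k, x k = (γ * g ^ k) • S.o := ⟨_, fun _ => rfl⟩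
  have hx0 : x 0 = γ • S.o := by rw [hx, pow_zero, mul_one]
  have hxA : ∀ k, A (x k) = A (γ • S.o) + k * 3 := fun k => by rw [hx, mvo_pow hA, h1]
  have hxB : ∀ k, B (x k) = B (γ • S.o) + k * (-1) := fun k => by rw [hx, mvo_pow hB, h2]
  have uA := abs_le.1 (ball_lip hL lA hu)
  have uB := abs_le.1 (ball_lip hL lB hu)
  obtain ⟨E, hE⟩ : ∃ E, E = (Finset.range (n + 1)).biUnion fun k => inE S.nb (ball S.nb ρ (x k)) :=
    ⟨_, rfl⟩
  have hsub : ∀ k ≤ n, inE S.nb (ball S.nb ρ (x k)) ⊆ E := fun k hk => by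
    rw [hE]
    exact Finset.subset_biUnion_of_mem (fun k => inE S.nb (ball S.nb ρ (x k)))
      (Finset.mem_range.2 (Nat.lt_succ_of_le hk))
  have hw : Wt (fun _ : Sym2 V => p) := fun _ => ⟨hp, hp1⟩
  refine ⟨E, fun e he => ?_, hδ.trans (mvo_all (hw.opn _ _ _) hp hp1 (le_opn hw) ?_
    (fun _ => hit_nonneg) (ind_pos ?_).ge)⟩
  · rw [hE] at he
    obtain ⟨k, hk, he⟩ := Finset.mem_biUnion.1 he
    have hk' : (k : ℝ) ≤ n := by exact_mod_cast Nat.le_of_lt_succ (Finset.mem_range.1 hk)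
    have hk0 : (0 : ℝ) ≤ k := k.cast_nonneg
    refine ⟨isE_of_mem_inE he, fun v hv => ?_⟩
    have vA := abs_le.1 (ball_lip hL lA (mem_of_mem_inE he hv))
    have vB := abs_le.1 (ball_lip hL lB (mem_of_mem_inE he hv))
    rw [hxA] at vA
    rw [hxB] at vB
    constructor
    · rw [← sub_div, abs_div, abs_of_pos hn', div_le_iff₀ hn', abs_le]
      constructor <;> linarith [vA.1, vA.2, uA.1, uA.2]
    · rw [← sub_div, abs_div, abs_of_pos hn', div_le_iff₀ hn', abs_le]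
      constructor <;> linarith [vB.1, vB.2, uB.1, uB.2]
  · rw [hE]
    refine (Finset.card_biUnion_le_card_mul _ _ ((S.Δ + 1) ^ ρ * S.Δ) fun k _ => ?_).trans
      (by rw [Finset.card_range])
    exact (card_inE S.hnb).trans (Nat.mul_le_mul_right _ (card_ball S.hnb))
  · have hc : ∀ k ≤ n, Conn E (x 0) (x k) := by
      intro k hk
      induction k with
      | zero => exact Conn.refl _ _
      | succ k ih =>
        refine (ih (by omega)).trans (conn_of_ball (hsub k (by omega)) ?_)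
        rw [hx, hx, pow_succ, ← mul_assoc, mul_smul _ g]
        exact mvo_ball_smul S _ (ball_le hρ2 hρ₀)
    refine ⟨x n, ⟨?_, ?_⟩, (hc n le_rfl).symm.trans (conn_of_ball (hsub 0 (Nat.zero_le n))
      (hx0 ▸ hu))⟩
    · have : A (x n) / n - A u / n - 3 = (A (γ • S.o) - A u) / n := by
        rw [hxA]; field_simp; ring
      rw [this, abs_div, abs_of_pos hn', div_le_iff₀ hn', abs_le]
      constructor <;> linarith [uA.1, uA.2]
    · have : B (x n) / n - B u / n + 1 = (B (γ • S.o) - B u) / n := by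
        rw [hxB]; field_simp; ring
      rw [this, abs_div, abs_of_pos hn', div_le_iff₀ hn', abs_le]
      constructor <;> linarith [uB.1, uB.2]

theorem mvo_lip (S : Setup V Γ) (c d : ℝ) :
    Lip S.nb (fun v => c * S.X v + d * S.Y v) ((|c| + |d|) * |S.D|) := by
  intro a b hb
  have h1 := (S.lipX a b hb).trans (le_abs_self _)
  have h2 := (S.lipY a b hb).trans (le_abs_self _)
  calc |c * S.X b + d * S.Y b - (c * S.X a + d * S.Y a)|
      = |c * (S.X b - S.X a) + d * (S.Y b - S.Y a)| := by congr 1; ring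
    _ ≤ |c| * |S.X b - S.X a| + |d| * |S.Y b - S.Y a| := by
      rw [← abs_mul, ← abs_mul]; exact abs_add_le _ _
    _ ≤ |c| * |S.D| + |d| * |S.D| := by gcongr
    _ = _ := by ring

theorem moves_one (S : Setup V Γ) (δ ε l : ℝ) (hδ : 0 < δ) (hε : 0 < ε) (hl : 0 < l) :
    ∃ p : ℝ, 1 / 2 ≤ p ∧ p < 1 ∧ Moves S.nb p 0 δ ε l := by
  have hr := S.rank
  obtain ⟨a₁, a₂, b₁, b₂, e1, e2, e3, e4⟩ : ∃ a₁ a₂ b₁ b₂ : ℝ,
      a₁ * S.X (S.γ₁ • S.o) + a₂ * S.Y (S.γ₁ • S.o) = 3 ∧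
      b₁ * S.X (S.γ₁ • S.o) + b₂ * S.Y (S.γ₁ • S.o) = -1 ∧
      b₁ * S.X (S.γ₂ • S.o) + b₂ * S.Y (S.γ₂ • S.o) = 3 ∧
      a₁ * S.X (S.γ₂ • S.o) + a₂ * S.Y (S.γ₂ • S.o) = -1 := by
    generalize S.X (S.γ₁ • S.o) = x₁, S.Y (S.γ₁ • S.o) = y₁, S.X (S.γ₂ • S.o) = x₂,
      S.Y (S.γ₂ • S.o) = y₂ at hr ⊢
    obtain ⟨t, ht⟩ : ∃ t, t * (x₁ * y₂ - y₁ * x₂) = 1 := ⟨_, inv_mul_cancel₀ hr⟩
    refine ⟨(3 * y₂ + y₁) * t, (-3 * x₂ - x₁) * t, (-y₂ - 3 * y₁) * t, (x₂ + 3 * x₁) * t,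
      ?_, ?_, ?_, ?_⟩
    · linear_combination 3 * ht
    · linear_combination (-1) * ht
    · linear_combination 3 * ht
    · linear_combination (-1) * ht
  obtain ⟨L, hL0, lA, lB⟩ : ∃ L : ℝ, 0 ≤ L ∧ Lip S.nb (fun v => a₁ * S.X v + a₂ * S.Y v) L ∧
      Lip S.nb (fun v => b₁ * S.X v + b₂ * S.Y v) L :=
    ⟨max ((|a₁| + |a₂|) * |S.D|) ((|b₁| + |b₂|) * |S.D|), le_max_of_le_left (by positivity),
      fun a b hb => (mvo_lip S a₁ a₂ a b hb).trans (le_max_left _ _),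
      fun a b hb => (mvo_lip S b₁ b₂ a b hb).trans (le_max_right _ _)⟩
  have hA : ∀ (c d : ℝ) (γ : Γ) v, c * S.X (γ • v) + d * S.Y (γ • v)
      = c * S.X v + d * S.Y v + (c * S.X (γ • S.o) + d * S.Y (γ • S.o)) := fun c d γ v => by
    rw [S.hX γ v, S.hY γ v]; ring
  obtain ⟨N₁, hN₁⟩ := mvo_move S S.γ₁ hL0 hε (hA a₁ a₂) (hA b₁ b₂) lA lB e1 e2
  obtain ⟨N₂, hN₂⟩ := mvo_move S S.γ₂ hL0 hε (hA b₁ b₂) (hA a₁ a₂) lB lA e3 e4
  obtain ⟨n, hn⟩ := exists_nat_gt (max (max N₁ N₂) (max 0 (L / l)))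
  simp only [max_lt_iff] at hn
  obtain ⟨⟨n1, n2⟩, n3, n4⟩ := hn
  obtain ⟨M₁, hM₁⟩ := hN₁ n (by exact_mod_cast n3) n1.le
  obtain ⟨M₂, hM₂⟩ := hN₂ n (by exact_mod_cast n3) n2.le
  obtain ⟨t, t0, t1, t2⟩ : ∃ t : ℝ, 0 < t ∧ t ≤ 1 / 2 ∧ (M₁ + M₂ + 1) * t ≤ δ :=
    ⟨min (1 / 2) (δ / (M₁ + M₂ + 1)), lt_min (by norm_num) (by positivity), min_le_left _ _, by
      rw [← le_div_iff₀' (by positivity)]; exact min_le_right _ _⟩
  have key : ∀ M : ℕ, (M : ℝ) ≤ M₁ + M₂ + 1 → 1 - δ ≤ (1 - t) ^ M := fun M hM => by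
    have h1 := one_add_mul_le_pow (a := -t) (by linarith) M
    rw [← sub_eq_add_neg] at h1
    nlinarith [mul_le_mul_of_nonneg_right hM t0.le]
  have lip : ∀ φ : V → ℝ, Lip S.nb φ L → Lip S.nb (fun v => φ v / n) l := fun φ h a b hb => by
    rw [← sub_div, abs_div, abs_of_pos n3, div_le_iff₀ n3]
    rw [div_lt_iff₀ hl] at n4
    linarith [h a b hb]
  have m1 : (0 : ℝ) ≤ M₁ := M₁.cast_nonneg
  have m2 : (0 : ℝ) ≤ M₂ := M₂.cast_nonneg
  exact ⟨1 - t, by linarith, by linarith, _, _, lip _ lA, lip _ lB,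
    hM₁ _ _ (by linarith) (by linarith) (key _ (by linarith)),
    hM₂ _ _ (by linarith) (by linarith) (key _ (by linarith))⟩

end Vale.Agent.P151
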