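import Vale.Agent.P151.Smul

/-! Seeds from a positive percolation probability. -/

namespace Vale.Agent.P151

section Prod

variable {ι : Type*} [DecidableEq ι]

theorem seeds_Ex_prod {κ : Type*} (I : Finset κ) (E : κ → Finset ι) (w : ι → ℝ) (F : Finset ι)
    (f : κ → Finset ι → ℝ) (hE : ∀ i ∈ I, ∀ j ∈ I, i ≠ j → Disjoint (E i) (E j)) :
    Ex w F (fun ω => ∏ i ∈ I, f i (ω ∩ E i)) = ∏ i ∈ I, Ex w F (fun ω => f i (ω ∩ E i)) := by
  classical
  induction I using Finset.induction_on with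
  | empty => simp
  | insert i I hi ih =>
    have h1 : ∀ ω : Finset ι, ∏ j ∈ I, f j (ω.filter (fun e => ¬ e ∈ E i) ∩ E j) =
        ∏ j ∈ I, f j (ω ∩ E j) := by
      intro ω
      refine Finset.prod_congr rfl fun j hj => congrArg _ ?_
      have hd := hE i (Finset.mem_insert_self _ _) j (Finset.mem_insert_of_mem hj)
        (fun h => hi (h ▸ hj))
      ext e
      simp only [Finset.mem_inter, Finset.mem_filter]
      exact ⟨fun h => ⟨h.1.1, h.2⟩, fun h => ⟨⟨h.1, Finset.disjoint_right.1 hd h.2⟩, h.2⟩⟩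
    have h2 := Ex_indep (fun e => e ∈ E i) w F (f i) (fun ω => ∏ j ∈ I, f j (ω ∩ E j))
    simp only [h1, Finset.filter_mem_eq_inter] at h2
    simp only [Finset.prod_insert hi]
    rw [h2, ih fun a ha b hb => hE a (Finset.mem_insert_of_mem ha) b (Finset.mem_insert_of_mem hb)]

theorem seeds_ind_le {κ : Type*} (I : Finset κ) (A B : κ → Prop) (h : ∀ i, B i → A i) :
    1 - ∏ i ∈ I, (1 - ind (A i)) - ∑ i ∈ I, (ind (A i) - ind (B i)) ≤ ind (∃ i ∈ I, B i) := by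
  have h1 : 0 ≤ ∏ i ∈ I, (1 - ind (A i)) :=
    Finset.prod_nonneg fun i _ => sub_nonneg.2 (ind_le_one _)
  have h2 : ∀ i ∈ I, 0 ≤ ind (A i) - ind (B i) := fun i _ => sub_nonneg.2 (ind_mono (h i))
  by_cases hB : ∃ i ∈ I, B i
  · rw [ind_pos hB]
    linarith [Finset.sum_nonneg h2]
  · rw [ind_neg hB]
    by_cases hA : ∃ i ∈ I, A i
    · obtain ⟨i, hi, hA⟩ := hA
      have h3 := Finset.single_le_sum h2 hi
      rw [ind_pos hA, ind_neg fun hb => hB ⟨i, hi, hb⟩] at h3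
      linarith
    · rw [Finset.prod_eq_one fun i hi => by rw [ind_neg fun ha => hA ⟨i, hi, ha⟩, sub_zero]]
      linarith [Finset.sum_nonneg h2]

end Prod

variable {V Γ : Type*} [DecidableEq V] [Group Γ] [MulAction Γ V]

theorem seeds_exit {nb : V → Finset V} {Δ : ℕ} (hnb : Nb nb Δ) (R : ℕ) (u : V)
    (ω : Finset (Sym2 V)) (hω : ∀ e ∈ ω, IsE nb e) :
    hit u (↑(ball nb R u) : Set V)ᶜ ω =
      hit u (↑(ball nb R u) : Set V)ᶜ (ω ∩ inE nb (ball nb (R + 1) u)) := by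
  refine le_antisymm (ind_mono fun ⟨x, hx, h⟩ => ?_) (hit_mono _ _ Finset.inter_subset_left)
  by_contra hc
  refine hx (h.symm.closed
    (P := fun v => v ∈ ball nb R u ∧ Conn (ω ∩ inE nb (ball nb (R + 1) u)) u v)
    ⟨mem_ball_self, Conn.refl _ _⟩ fun a b ha hab => ?_).1
  have h1 : b ∈ nb a := (isE_mk hnb).1 (hω _ hab)
  have h2 : Conn (ω ∩ inE nb (ball nb (R + 1) u)) u b :=
    ha.2.tail (Finset.mem_inter.2 ⟨hab,
      mem_inE.2 ⟨a, ball_le (Nat.le_succ R) ha.1, b, ball_step ha.1 h1, h1, rfl⟩⟩)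
  refine ⟨?_, h2⟩
  by_contra hb
  exact hc ⟨b, hb, h2.symm⟩

/-- The probability of leaving the ball of radius `R`. -/
noncomputable def seedsT (nb : V → Finset V) (p : ℝ) (R : ℕ) (u : V) : ℝ :=
  Ex (fun _ => p) (inE nb (ball nb (R + 1) u)) (hit u (↑(ball nb R u) : Set V)ᶜ)

theorem seeds_eq {nb : V → Finset V} {Δ : ℕ} (hnb : Nb nb Δ) (p : ℝ) (R : ℕ) (u : V)
    (F : Finset (Sym2 V)) (hF : ∀ e ∈ F, IsE nb e) (h : inE nb (ball nb (R + 1) u) ⊆ F) :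
    Ex (fun _ => p) F (hit u (↑(ball nb R u) : Set V)ᶜ) = seedsT nb p R u := by
  rw [seedsT, ← Ex_inter h]
  exact Ex_congr fun ω hω => seeds_exit hnb R u ω fun e he => hF e (hω he)

theorem seeds_cert {nb : V → Finset V} {Δ : ℕ} (hnb : Nb nb Δ) {p : ℝ} (hp0 : 0 ≤ p) (hp1 : p ≤ 1)
    (R : ℕ) (u : V) (F : Finset (Sym2 V)) (hF : ∀ e ∈ F, IsE nb e) :
    Ex (fun _ => p) F (hit u (↑(ball nb R u) : Set V)ᶜ) ≤ seedsT nb p R u := by
  rw [← seeds_eq hnb p R u (F ∪ inE nb (ball nb (R + 1) u))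
    (fun e he => (Finset.mem_union.1 he).elim (hF e) isE_of_mem_inE) Finset.subset_union_right]
  exact Ex_le_of_subset (fun _ => ⟨hp0, hp1⟩) Finset.subset_union_left (hit_mono _ _)

theorem seeds_smul_le (S : Setup V Γ) {p : ℝ} (hp0 : 0 ≤ p) (hp1 : p ≤ 1) (R : ℕ) (γ : Γ) (u : V) :
    seedsT S.nb p R u ≤ seedsT S.nb p R (γ • u) := by
  refine (Ex_smul γ (w' := fun _ => p) (fun _ => ⟨hp0, hp1⟩) (fun _ => rfl) _ _ _).trans ?_
  have e : {v | γ⁻¹ • v ∈ (↑(ball S.nb R u) : Set V)ᶜ} = (↑(ball S.nb R (γ • u)) : Set V)ᶜ := by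
    ext v
    simp only [Set.mem_ofPred_eq, Set.mem_compl_iff, Finset.mem_coe, S.mem_ball_smul']
  rw [e]
  refine seeds_cert S.hnb hp0 hp1 R _ _ fun e he => ?_
  obtain ⟨e', he', rfl⟩ := Finset.mem_image.1 he
  exact (S.isE_smul γ).2 (isE_of_mem_inE he')

theorem seeds_smul (S : Setup V Γ) {p : ℝ} (hp0 : 0 ≤ p) (hp1 : p ≤ 1) (R : ℕ) (γ : Γ) (u : V) :
    seedsT S.nb p R (γ • u) = seedsT S.nb p R u := by
  refine le_antisymm ?_ (seeds_smul_le S hp0 hp1 R γ u)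
  simpa only [inv_smul_smul] using seeds_smul_le S hp0 hp1 R γ⁻¹ (γ • u)

theorem seeds_far_aux (S : Setup V Γ) (φ : V → ℝ) (hφ : ∀ (γ : Γ) v, φ (γ • v) = φ v + φ (γ • S.o))
    (hl : ∀ a, ∀ b ∈ S.nb a, |φ b - φ a| ≤ S.D) (γ : Γ) (hγ : φ (γ • S.o) ≠ 0) (s : ℕ) :
    ∃ g : ℕ → Γ, ∀ i j, i ≠ j → Disjoint (ball S.nb s (g i • S.o)) (ball S.nb s (g j • S.o)) := by
  have hpow : ∀ n : ℕ, φ (γ ^ n • S.o) = φ S.o + n * φ (γ • S.o) := by
    intro n
    induction n with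
    | zero => simp
    | succ n ih => rw [pow_succ', mul_smul, hφ, ih]; push_cast; ring
  have ha : 0 < |φ (γ • S.o)| := abs_pos.2 hγ
  obtain ⟨N, hN⟩ := exists_nat_gt (2 * (s * |S.D|) / |φ (γ • S.o)|)
  rw [div_lt_iff₀ ha] at hN
  refine ⟨fun i => γ ^ (N * i), fun i j hij => Finset.disjoint_left.2 fun v h1 h2 => ?_⟩
  have k1 := ball_lip (abs_nonneg S.D) (fun a b hb => (hl a b hb).trans (le_abs_self _)) h1
  have k2 := ball_lip (abs_nonneg S.D) (fun a b hb => (hl a b hb).trans (le_abs_self _)) h2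
  have k3 := abs_sub_le (φ (γ ^ (N * i) • S.o)) (φ v) (φ (γ ^ (N * j) • S.o))
  rw [abs_sub_comm] at k1
  have e : φ (γ ^ (N * i) • S.o) - φ (γ ^ (N * j) • S.o) =
      N * ((i : ℝ) - j) * φ (γ • S.o) := by
    rw [hpow, hpow]; push_cast; ring
  have k4 : (1 : ℝ) ≤ |(i : ℝ) - j| := by
    have : (1 : ℤ) ≤ |(i : ℤ) - j| := Int.one_le_abs (by omega)
    exact_mod_cast this
  rw [e, abs_mul, abs_mul, Nat.abs_cast] at k3
  have k5 : (N : ℝ) * 1 * |φ (γ • S.o)| ≤ N * |(i : ℝ) - j| * |φ (γ • S.o)| :=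
    mul_le_mul_of_nonneg_right (mul_le_mul_of_nonneg_left k4 (Nat.cast_nonneg N)) ha.le
  linarith

theorem seeds_far (S : Setup V Γ) (s : ℕ) :
    ∃ g : ℕ → Γ, ∀ i j, i ≠ j → Disjoint (ball S.nb s (g i • S.o)) (ball S.nb s (g j • S.o)) := by
  by_cases h1 : S.X (S.γ₁ • S.o) = 0
  · refine seeds_far_aux S S.Y S.hY S.lipY S.γ₁ (fun h2 => S.rank ?_) s
    rw [h1, h2, zero_mul, zero_mul, sub_self]
  · exact seeds_far_aux S S.X S.hX S.lipX S.γ₁ h1 s

theorem seeds (S : Setup V Γ) {p θ : ℝ} (hp0 : 0 ≤ p) (hp1 : p ≤ 1) (hθ : 0 < θ)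
    (h : Far S.nb S.o (fun _ => p) θ) : Seeds S.nb S.o p := by
  intro δ hδ
  have hw : Wt (fun _ : Sym2 V => p) := fun _ => ⟨hp0, hp1⟩
  have hθt : ∀ R, θ ≤ seedsT S.nb p R S.o := fun R =>
    let ⟨F, h1, h2⟩ := h R; h2.trans (seeds_cert S.hnb hp0 hp1 R _ F h1)
  have ht1 : ∀ R, seedsT S.nb p R S.o ≤ 1 := fun R => Ex_le hw fun _ _ => hit_le_one
  obtain ⟨k, hk⟩ := exists_pow_lt_of_lt_one (half_pos hδ) (show 1 - θ < 1 by linarith)
  have hbdd : BddBelow (Set.range fun R => seedsT S.nb p R S.o) :=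
    ⟨θ, by rintro _ ⟨R, rfl⟩; exact hθt R⟩
  obtain ⟨s, hs⟩ := exists_lt_of_ciInf_lt (f := fun R => seedsT S.nb p R S.o)
    (lt_add_of_pos_right _ (show 0 < δ / 2 / (k + 1) by positivity))
  obtain ⟨g, hg⟩ := seeds_far S (s + 1)
  obtain ⟨r, hr⟩ : ∃ r, ∀ i ∈ Finset.range k, g i • S.o ∈ ball S.nb r S.o := by
    choose n hn using S.conn
    exact ⟨∑ i ∈ Finset.range k, n (g i • S.o), fun i hi => ball_le
      (Finset.single_le_sum (f := fun i => n (g i • S.o)) (fun _ _ => Nat.zero_le _) hi) (hn _)⟩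
  refine ⟨r, fun R => ?_⟩
  set R' := r + R + s with hR'
  set F := (Finset.range k).biUnion (fun i => inE S.nb (ball S.nb (R' + 1) (g i • S.o))) ∪
    inE S.nb (ball S.nb r S.o) with hF
  have hFE : ∀ e ∈ F, IsE S.nb e := fun e he => (Finset.mem_union.1 he).elim
    (fun h1 => let ⟨_, _, h2⟩ := Finset.mem_biUnion.1 h1; isE_of_mem_inE h2) isE_of_mem_inE
  have hsub : ∀ i ∈ Finset.range k, inE S.nb (ball S.nb (R' + 1) (g i • S.o)) ⊆ F := fun i hi =>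
    (Finset.subset_biUnion_of_mem (fun i => inE S.nb (ball S.nb (R' + 1) (g i • S.o))) hi).trans
      Finset.subset_union_left
  have hsub' : ∀ i ∈ Finset.range k, inE S.nb (ball S.nb (s + 1) (g i • S.o)) ⊆ F := fun i hi =>
    (inE_mono (ball_le (by omega))).trans (hsub i hi)
  have hA : ∀ i ∈ Finset.range k, Ex (fun _ => p) F
      (hit (g i • S.o) (↑(ball S.nb s (g i • S.o)) : Set V)ᶜ) = seedsT S.nb p s S.o := fun i hi =>
    (seeds_eq S.hnb p s _ F hFE (hsub' i hi)).trans (seeds_smul S hp0 hp1 s _ _)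
  have hB : ∀ i ∈ Finset.range k, Ex (fun _ => p) F
      (hit (g i • S.o) (↑(ball S.nb R' (g i • S.o)) : Set V)ᶜ) = seedsT S.nb p R' S.o :=
    fun i hi => (seeds_eq S.hnb p R' _ F hFE (hsub i hi)).trans (seeds_smul S hp0 hp1 R' _ _)
  have hprod : Ex (fun _ => p) F (fun ω => ∏ i ∈ Finset.range k,
      (1 - hit (g i • S.o) (↑(ball S.nb s (g i • S.o)) : Set V)ᶜ ω)) ≤ (1 - θ) ^ k := by
    have e1 : ∀ ω ⊆ F, ∀ i, hit (g i • S.o) (↑(ball S.nb s (g i • S.o)) : Set V)ᶜ ω =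
        hit (g i • S.o) (↑(ball S.nb s (g i • S.o)) : Set V)ᶜ
          (ω ∩ inE S.nb (ball S.nb (s + 1) (g i • S.o))) := fun ω hω i =>
      seeds_exit S.hnb s _ ω fun e he => hFE e (hω he)
    rw [Ex_congr fun ω hω => Finset.prod_congr rfl fun i _ => by rw [e1 ω hω i],
      seeds_Ex_prod (Finset.range k) (fun i => inE S.nb (ball S.nb (s + 1) (g i • S.o))) _ F
        (fun i ω => 1 - hit (g i • S.o) (↑(ball S.nb s (g i • S.o)) : Set V)ᶜ ω)
        (fun i _ j _ hij => Finset.disjoint_left.2 fun e h1 h2 =>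
          Finset.disjoint_left.1 (hg i j hij) (mem_of_mem_inE h1 (Sym2.out_fst_mem e))
            (mem_of_mem_inE h2 (Sym2.out_fst_mem e))),
      Finset.prod_congr rfl fun i hi => by
        rw [← Ex_congr fun ω hω => by rw [← e1 ω hω i], Ex_sub, Ex_const, hA i hi],
      Finset.prod_const, Finset.card_range]
    exact pow_le_pow_left₀ (sub_nonneg.2 (ht1 s)) (sub_le_sub_left (hθt s) 1) k
  have hsum : Ex (fun _ => p) F (fun ω => ∑ i ∈ Finset.range k,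
      (hit (g i • S.o) (↑(ball S.nb s (g i • S.o)) : Set V)ᶜ ω -
        hit (g i • S.o) (↑(ball S.nb R' (g i • S.o)) : Set V)ᶜ ω)) ≤ δ / 2 := by
    rw [Ex_sum, Finset.sum_congr rfl fun i hi => by rw [Ex_sub, hA i hi, hB i hi],
      Finset.sum_const, Finset.card_range, nsmul_eq_mul]
    have h1 : seedsT S.nb p s S.o - seedsT S.nb p R' S.o ≤ δ / 2 / (k + 1) := by
      linarith [ciInf_le hbdd R']
    calc (k : ℝ) * _ ≤ k * (δ / 2 / (k + 1)) := mul_le_mul_of_nonneg_left h1 (Nat.cast_nonneg k)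
      _ ≤ (k + 1) * (δ / 2 / (k + 1)) :=
          mul_le_mul_of_nonneg_right (by linarith) (by positivity)
      _ = δ / 2 := by field_simp
  have hmain := Ex_mono (F := F) hw fun ω _ => seeds_ind_le (Finset.range k)
    (fun i => g i • S.o ∈ Cl ω (↑(ball S.nb s (g i • S.o)) : Set V)ᶜ)
    (fun i => g i • S.o ∈ Cl ω (↑(ball S.nb R' (g i • S.o)) : Set V)ᶜ)
    (fun i hi => Cl_mono subset_rfl (Set.compl_subset_compl.2
      (Finset.coe_subset.2 (ball_le (show s ≤ R' by omega)))) hi)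
  rw [Ex_sub, Ex_sub, Ex_const] at hmain
  refine ⟨F, hFE, ?_⟩
  refine le_trans (by unfold hit at hprod hsum; linarith) (hmain.trans ?_)
  refine (Ex_mono_w hw (hw.opn S.nb r S.o) (fun e _ => le_opn hw e)
    (fun a b hab => ind_mono fun ⟨i, hi, h1⟩ => ⟨i, hi, Cl_mono hab subset_rfl h1⟩)).trans ?_
  refine Ex_mono_one (hw.opn _ _ _) fun ω _ hω => ind_mono fun ⟨i, hi, h1⟩ => ?_
  refine Cl_trans (Cl_mono subset_rfl (Set.compl_subset_compl.2 fun v hv => ?_) h1)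
    (conn_of_ball (fun e he => hω e (Finset.mem_union_right _ he) (opn_of_mem he)) (hr i hi)).symm
  exact ball_le (by omega) (ball_trans (ball_symm S.hnb (hr i hi)) hv)

end Vale.Agent.P151
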