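import Vale.Agent.P151.Defs2

/-! The critical parallelogram: two moves from the base vertex. -/

namespace Vale.Agent.P151

variable {V Γ : Type*} [DecidableEq V] [Group Γ] [MulAction Γ V]

theorem tm_piece {N : ℕ} (hN : 0 < N) {t : ℝ} (ht : |t| ≤ 1 + 1 / N) :
    ∃ i ∈ Finset.range (N + 1), |t - (-1 + 2 * (i : ℝ) / N)| ≤ 1 / N := by
  have hN' : (0 : ℝ) < N := by exact_mod_cast hN
  obtain ⟨h1, h2⟩ := abs_le.1 ht
  have hq : 0 < 1 / (N : ℝ) := by positivity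
  by_cases h : 1 - 1 / N ≤ t
  · refine ⟨N, Finset.self_mem_range_succ N, ?_⟩
    rw [mul_div_assoc, div_self hN'.ne', abs_le]
    constructor <;> linarith
  have e : 1 / (N : ℝ) * N = 1 := by field_simp
  have h0 : 0 ≤ (t + 1) * N / 2 + 1 / 2 := by nlinarith
  have h3 := Nat.floor_le h0
  have h4 := Nat.lt_floor_add_one ((t + 1) * N / 2 + 1 / 2)
  refine ⟨⌊(t + 1) * N / 2 + 1 / 2⌋₊, Finset.mem_range.2 ((Nat.floor_lt h0).2 ?_), ?_⟩
  · push_cast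
    nlinarith [not_le.1 h]
  · generalize (⌊(t + 1) * N / 2 + 1 / 2⌋₊ : ℝ) = i at h3 h4
    rw [show t - (-1 + 2 * i / N) = ((t + 1) * N - 2 * i) / N by field_simp; ring, abs_div,
      abs_of_pos hN']
    refine div_le_div_of_nonneg_right (abs_le.2 ⟨?_, ?_⟩) hN'.le <;> linarith

theorem tm_piece_le {N i : ℕ} (hN : 0 < N) (hi : i ∈ Finset.range (N + 1)) :
    |-1 + 2 * (i : ℝ) / N| ≤ 1 := by
  have hN' : (0 : ℝ) < N := by exact_mod_cast hN
  have h1 : (i : ℝ) ≤ N := by exact_mod_cast Nat.lt_succ_iff.1 (Finset.mem_range.1 hi)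
  have h2 : 0 ≤ 2 * (i : ℝ) / N := by positivity
  have h3 : 2 * (i : ℝ) / N ≤ 2 := by rw [div_le_iff₀ hN']; linarith
  rw [abs_le]
  constructor <;> linarith

theorem tm_sign (t : ℝ) : ∃ s ∈ ({1, -1} : Finset ℝ), s * t = |t| := by
  rcases le_total 0 t with h | h
  · exact ⟨1, by simp, by rw [one_mul, abs_of_nonneg h]⟩
  · exact ⟨-1, by simp, by rw [neg_one_mul, abs_of_nonpos h]⟩

theorem tm_abs_sign {s : ℝ} (hs : s ∈ ({1, -1} : Finset ℝ)) : |s| = 1 := by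
  rcases Finset.mem_insert.1 hs with rfl | h
  · simp
  · rw [Finset.mem_singleton.1 h]; simp

theorem tm_card : ({1, -1} : Finset ℝ).card = 2 := Finset.card_pair (by norm_num)

theorem tm_mul_le {ξ t : ℝ} (h : |ξ| ≤ 1) : |ξ * t| ≤ |t| := by
  rw [abs_mul]; exact mul_le_of_le_one_left (abs_nonneg _) h

theorem tm_coord {s ξ A ν a b : ℝ} (hs : |s| = 1) (hξ : |ξ| ≤ 1) (hA : |A| ≤ a) (hν : |ν| ≤ b) :
    |s * (A - ξ * ν)| ≤ a + b := by
  rw [abs_mul, hs, one_mul]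
  exact (abs_sub _ _).trans (add_le_add hA ((tm_mul_le hξ).trans hν))

theorem tm_four {s B b : ℝ} (hs : |s| = 1) (hB : |B| ≤ b) : |4 * s * B| ≤ 4 * b := by
  rw [abs_mul, abs_mul, hs, mul_one, abs_of_pos (by norm_num : (0 : ℝ) < 4)]
  linarith

section Regions

variable (S : Setup V Γ) (n σ h s : ℝ)

/-- The slanted coordinate. -/
def tmL (v : V) : ℝ := S.Y v - σ * S.X v

/-- The slightly enlarged parallelogram. -/
def tmB : Set V := {v | |S.X v| ≤ n + |S.D| ∧ |tmL S σ v| ≤ h + |S.D| * (1 + |σ|)}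

/-- Edges of the enlarged parallelogram. -/
def tmOk (e : Sym2 V) : Prop := IsE S.nb e ∧ ∀ v ∈ e, v ∈ tmB S n σ h

/-- A short side. -/
def tmEnd : Set V := {v | v ∈ tmB S n σ h ∧ n ≤ s * S.X v}

/-- The long sides. -/
def tmTop : Set V := {v | v ∈ tmB S n σ h ∧ h ≤ |tmL S σ v|}

/-- The parallelogram. -/
def tmP : Set V := {v | v ∈ {v | |tmL S σ v| < h} ∧ |S.X v| < n}

variable {n σ h s}

omit [DecidableEq V] in
theorem tm_step {φ : V → ℝ} {a b : V} {l t : ℝ} (h : |φ b - φ a| ≤ l) (ha : |φ a| < t) :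
    |φ b| ≤ t + l := by
  have := abs_add_le (φ a) (φ b - φ a)
  rw [add_sub_cancel] at this
  linarith

theorem tm_lipX : Lip S.nb S.X |S.D| := fun a b hb => (S.lipX a b hb).trans (le_abs_self _)

theorem tm_lipL (σ : ℝ) : Lip S.nb (tmL S σ) (|S.D| * (1 + |σ|)) := fun a b hb => by
  have h1 := (S.lipY a b hb).trans (le_abs_self _)
  have h2 := mul_le_mul_of_nonneg_left (tm_lipX S a b hb) (abs_nonneg σ)
  have h3 := abs_sub (S.Y b - S.Y a) (σ * (S.X b - S.X a))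
  rw [abs_mul] at h3
  rw [show tmL S σ b - tmL S σ a = S.Y b - S.Y a - σ * (S.X b - S.X a) by unfold tmL; ring]
  linarith

theorem tmP_sub {a : V} (ha : a ∈ tmP S n σ h) : a ∈ tmB S n σ h :=
  ⟨ha.2.le.trans (le_add_of_nonneg_right (abs_nonneg _)),
    (le_of_lt ha.1).trans (le_add_of_nonneg_right (by positivity))⟩

theorem tmP_nb {a b : V} (ha : a ∈ tmP S n σ h) (hb : b ∈ S.nb a) : b ∈ tmB S n σ h :=
  ⟨tm_step (tm_lipX S a b hb) ha.2, tm_step (tm_lipL S σ a b hb) ha.1⟩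

theorem tmOk_of_okP (e : Sym2 V) (he : okP S.nb (tmP S n σ h) e) : tmOk S n σ h e := by
  obtain ⟨⟨a, b, hb, rfl⟩, h1⟩ := he
  refine ⟨⟨a, b, hb, rfl⟩, fun v hv => ?_⟩
  rcases touch_mk.1 h1 with h2 | h2 <;> rcases Sym2.mem_iff.1 hv with rfl | rfl
  exacts [tmP_sub S h2, tmP_nb S h2 hb, tmP_nb S h2 (S.hnb.symm _ _ hb), tmP_sub S h2]

theorem tm_Bd {v : V} (hv : v ∈ Bd S.nb (tmP S n σ h)) :
    v ∈ tmEnd S n σ h 1 ∨ v ∈ tmEnd S n σ h (-1) ∨ v ∈ tmTop S n σ h := by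
  obtain ⟨h1, a, ha, h2⟩ := hv
  have h3 := tmP_nb S ha h2
  rcases lt_or_ge |tmL S σ v| h with h4 | h4
  · have h5 : n ≤ |S.X v| := not_lt.1 fun h5 => h1 ⟨h4, h5⟩
    rcases le_abs.1 h5 with h6 | h6
    · exact Or.inl ⟨h3, by rwa [one_mul]⟩
    · exact Or.inr (Or.inl ⟨h3, by rwa [neg_one_mul]⟩)
  · exact Or.inr (Or.inr ⟨h3, h4⟩)

theorem tm_X_o : S.X S.o = 0 := by
  have := S.hX 1 S.o
  rw [one_smul] at this
  linarith

theorem tm_L_o (σ : ℝ) : tmL S σ S.o = 0 := by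
  have := S.hY 1 S.o
  rw [one_smul] at this
  rw [tmL, tm_X_o]
  linarith

/-- A certificate for the strip lives in a parallelogram. -/
theorem tm_strip {w : Sym2 V → ℝ} (hw : Wt w) {a η : ℝ} (hη : 0 ≤ η) (ha : a < η ^ 2) (h₀ : ℝ)
    (hL : Lb w (okP S.nb {v | |S.X v| < n}) (hit S.o (Bd S.nb {v | |S.X v| < n})) (1 - a)) :
    ∃ h : ℝ, h₀ ≤ h ∧ ∃ s ∈ ({1, -1} : Finset ℝ),
      Lb w (tmOk S n 0 h) (hit S.o (tmEnd S n 0 h s)) (1 - η) := by
  obtain ⟨s, hs, F, h1, h2⟩ := Lb.sqrt hw ({1, -1} : Finset ℝ)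
    (fun s => {v | |S.X v| ≤ n + |S.D| ∧ n ≤ s * S.X v}) (a := a) (η := η) (by
      rintro v ⟨k1, b, hb, k2⟩
      obtain ⟨s, hs, k3⟩ := tm_sign (S.X v)
      exact ⟨s, hs, tm_step (tm_lipX S b v k2) hb, k3 ▸ not_lt.1 k1⟩) hη (by rwa [tm_card]) hL
  obtain ⟨B, hB⟩ := ((F.biUnion Sym2.toFinset).image fun v => |tmL S 0 v|).bddAbove
  have hB' : ∀ e ∈ F, ∀ v ∈ e, |tmL S 0 v| ≤ max h₀ |B| + |S.D| * (1 + |(0 : ℝ)|) :=
    fun e he v hv => (hB (Finset.mem_coe.2 (Finset.mem_image_of_mem _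
      (Finset.mem_biUnion.2 ⟨e, he, Sym2.mem_toFinset.2 hv⟩)))).trans ((le_abs_self B).trans
        ((le_max_right _ _).trans (le_add_of_nonneg_right (by positivity))))
  refine ⟨max h₀ |B|, le_max_left _ _, s, hs, F, fun e he => ⟨(h1 e he).1, fun v hv =>
    ⟨?_, hB' e he v hv⟩⟩, h2.trans (Ex_mono hw fun ω hω => ind_mono fun ⟨v, hv, h3⟩ =>
      ⟨v, ⟨⟨hv.1, ?_⟩, hv.2⟩, h3⟩)⟩
  · obtain ⟨⟨a, b, hb, rfl⟩, k1⟩ := h1 e he
    have k0 : ∀ u, |S.X u| < n → |S.X u| ≤ n + |S.D| := fun u hu =>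
      hu.le.trans (le_add_of_nonneg_right (abs_nonneg _))
    rcases touch_mk.1 k1 with k2 | k2 <;> rcases Sym2.mem_iff.1 hv with rfl | rfl
    exacts [k0 _ k2, tm_step (tm_lipX S _ _ hb) k2,
      tm_step (tm_lipX S _ _ (S.hnb.symm _ _ hb)) k2, k0 _ k2]
  · refine h3.symm.closed
      (P := fun v => |tmL S 0 v| ≤ max h₀ |B| + |S.D| * (1 + |(0 : ℝ)|)) ?_
      fun a b _ hab => hB' _ (hω hab) b (Sym2.mem_mk_right a b)
    rw [tm_L_o, abs_zero]
    exact add_nonneg ((abs_nonneg B).trans (le_max_right _ _)) (by positivity)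

end Regions

/-- The critical parallelogram. -/
theorem tm_critical (S : Setup V Γ) {p : ℝ} (hp0 : 0 < p) (hp1 : p < 1)
    (hs : Seeds S.nb S.o p) (hesc : Escape S) (hexit : ExitLemma S.nb p) (htop : TopLemma S.nb p)
    {η : ℝ} (hη : 0 < η) (hη1 : η ≤ 1) : ∃ r₀ : ℕ, ∀ h₀ : ℝ, 0 < h₀ → ∃ n σ h : ℝ, h₀ ≤ n ∧
      h₀ * (1 + |σ|) ≤ h ∧ (∃ s ∈ ({1, -1} : Finset ℝ), Lb (opn S.nb (fun _ => p) r₀ S.o)
        (tmOk S n σ h) (hit S.o (tmEnd S n σ h s)) (1 - η)) ∧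
      ∀ σ' : ℝ, Lb (opn S.nb (fun _ => p) r₀ S.o) (tmOk S n σ' (h / 4))
        (hit S.o (tmTop S n σ' (h / 4))) (1 - η) := by
  have h3 : 0 < η ^ 3 := by positivity
  have h32 : η ^ 3 ≤ η ^ 2 := pow_le_pow_of_le_one hη.le hη1 (by norm_num)
  have h31 : η ^ 3 ≤ η := pow_le_of_le_one hη.le hη1 (by norm_num)
  obtain ⟨r₀, hfar⟩ := hs (η ^ 3 / 4) (by positivity)
  refine ⟨r₀, fun h₀ hh₀ => ?_⟩
  set w := opn S.nb (fun _ => p) r₀ S.o with hwd
  have hw : Wt w := Wt.opn (fun _ => ⟨hp0.le, hp1.le⟩) _ _ _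
  obtain ⟨ρ, hρ⟩ := hesc h₀
  obtain ⟨n₀, hn₀⟩ := htop (η ^ 3 / 2) |S.D| r₀ ρ (by positivity) (abs_nonneg _)
  set n := max n₀ h₀ with hn
  have hn0 : 0 < n := hh₀.trans_le (le_max_right _ _)
  obtain ⟨ρ', hρ'⟩ := hesc n
  have hex : ∀ P : Set V, S.o ∈ P → (∀ v ∈ P, |S.X v| < n) →
      Lb w (okP S.nb P) (hit S.o (Bd S.nb P)) (1 - η ^ 3 / 2) := fun P ho hP => by
    refine (hexit S.o r₀ _ hfar P ρ' ho (fun u _ => ?_) (η ^ 3 / 4) (by positivity)).le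
      (by linarith)
    obtain ⟨v, hv, h1⟩ := hρ' 1 0 u
    refine ⟨v, hv, fun h2 => (hP v h2).not_ge ?_⟩
    simpa using h1
  set H : Set ℝ := {h | ∃ σ, h₀ * (1 + |σ|) ≤ h ∧ ∃ s ∈ ({1, -1} : Finset ℝ),
    Lb w (tmOk S n σ h) (hit S.o (tmEnd S n σ h s)) (1 - η)} with hH
  have hne : H.Nonempty := by
    obtain ⟨h, h1, h2⟩ := tm_strip S hw hη.le (a := η ^ 3 / 2) (by linarith) h₀
      (hex _ (by simpa [tm_X_o] using hn0) fun _ hv => hv)
    exact ⟨h, 0, by simpa using h1, h2⟩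
  have hlow : ∀ h ∈ H, h₀ ≤ h := fun h ⟨σ, h1, _⟩ =>
    (le_mul_of_one_le_right hh₀.le (le_add_of_nonneg_right (abs_nonneg _))).trans h1
  have hinf : h₀ ≤ sInf H := le_csInf hne hlow
  obtain ⟨h, hh, hlt⟩ := exists_lt_of_csInf_lt hne (show sInf H < 2 * sInf H by linarith)
  have hh0 := hh₀.trans_le (hlow h hh)
  have hnot : h / 4 ∉ H := notMem_of_lt_csInf (by linarith) ⟨h₀, hlow⟩
  obtain ⟨σ, h1, h2⟩ := hh
  refine ⟨n, σ, h, le_max_right _ _, h1, h2, fun σ' => ?_⟩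
  have ho : S.o ∈ {v | |tmL S σ' v| < h / 4} := by
    rw [Set.mem_ofPred_eq, tm_L_o, abs_zero]; positivity
  have h4 := hex (tmP S n σ' (h / 4)) ⟨ho, by rwa [tm_X_o, abs_zero]⟩ fun _ hv => hv.2
  by_cases hc : h₀ * (1 + |σ'|) ≤ h / 4
  · obtain ⟨i, -, h5⟩ := Lb.sqrt hw (Finset.univ : Finset (Fin 3))
      ![tmEnd S n σ' (h / 4) 1, tmEnd S n σ' (h / 4) (-1), tmTop S n σ' (h / 4)] (a := η ^ 3 / 2)
      (fun v hv => by
        rcases tm_Bd S hv with k | k | k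
        exacts [⟨0, Finset.mem_univ _, k⟩, ⟨1, Finset.mem_univ _, k⟩, ⟨2, Finset.mem_univ _, k⟩])
      hη.le (by rw [Finset.card_univ, Fintype.card_fin]; linarith) (h4.mono_ok (tmOk_of_okP S))
    fin_cases i
    · exact absurd ⟨σ', hc, 1, by simp, h5⟩ hnot
    · exact absurd ⟨σ', hc, -1, by simp, h5⟩ hnot
    · exact h5
  · have h5 := hn₀ n (le_max_left _ _) S.X S.o {v | |tmL S σ' v| < h / 4} _ (tm_lipX S)
      (tm_X_o S) ho (fun u => ?_) h4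
    · refine ((h5.mono_ok (tmOk_of_okP S)).hit_mono hw fun v hv => ?_).le (by linarith)
      obtain ⟨⟨-, a, ha, k1⟩, k2⟩ := hv
      exact ⟨tmP_nb S ha k1, not_lt.1 k2⟩
    · obtain ⟨v, hv, k1⟩ := hρ (-σ') 1 u
      refine ⟨v, hv, fun k2 => ?_⟩
      rw [abs_neg, abs_one, show -σ' * S.X v + 1 * S.Y v = tmL S σ' v by unfold tmL; ring] at k1
      have k3 : |tmL S σ' v| < h / 4 := k2
      linarith [not_le.1 hc]

theorem two_moves (S : Setup V Γ) {p : ℝ} (hp0 : 0 < p) (hp1 : p < 1) (hs : Seeds S.nb S.o p)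
    (hesc : Escape S) (hexit : ExitLemma S.nb p) (htop : TopLemma S.nb p) : TwoMoves S p := by
  intro δ₀ ε hδ₀ hε lam hlam
  set δ := min δ₀ 1 with hδd
  have hδ : 0 < δ := lt_min hδ₀ one_pos
  have hδ1 : δ ≤ 1 := min_le_right _ _
  have hδ2 : δ ≤ δ₀ := min_le_left _ _
  obtain ⟨N, hN⟩ := exists_nat_ge (max 100 (10 / ε))
  have hN1 : (100 : ℝ) ≤ N := (le_max_left _ _).trans hN
  have hN0 : (0 : ℝ) < N := by linarith
  have hNn : 0 < N := by exact_mod_cast hN0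
  have q1 : 1 / (N : ℝ) ≤ 1 / 100 := one_div_le_one_div_of_le (by norm_num) hN1
  have q2 : 10 * (1 / (N : ℝ)) ≤ ε := by
    have := (le_max_right _ _).trans hN
    rw [div_le_iff₀ hε] at this
    rw [mul_one_div, div_le_iff₀ hN0]
    linarith
  have d1 : 0 < δ ^ (2 * (N + 1)) := by positivity
  have d2 : δ ^ (2 * (N + 1)) ≤ δ ^ (N + 1) := pow_le_pow_of_le_one hδ.le hδ1 (by omega)
  have d3 : δ ^ (2 * (N + 1)) ≤ 1 := pow_le_one₀ hδ.le hδ1
  obtain ⟨r₀, hr₀⟩ := tm_critical S hp0 hp1 hs hesc hexit htop (η := δ ^ (2 * (N + 1)) / 2)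
    (by positivity) (by linarith)
  set w := opn S.nb (fun _ => p) r₀ S.o with hwd
  have hw : Wt w := Wt.opn (fun _ => ⟨hp0.le, hp1.le⟩) _ _ _
  set τ := min (lam r₀ / 10) (1 / N) with hτd
  have t0 : 0 < τ := lt_min (by linarith [hlam r₀]) (by positivity)
  have t1 : τ ≤ lam r₀ / 10 := min_le_left _ _
  have t2 : τ ≤ 1 / N := min_le_right _ _
  have hD := abs_nonneg S.D
  obtain ⟨n, σ, h, h1, h2, ⟨s, hs1, h3⟩, h4⟩ := hr₀ (|S.D| / τ + 1) (by positivity)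
  have e0 : |S.D| ≤ τ * (|S.D| / τ + 1) := by
    rw [mul_add, mul_div_cancel₀ _ t0.ne']; linarith
  have hn : 0 < n := lt_of_lt_of_le (by positivity) h1
  have hh : 0 < h := lt_of_lt_of_le (by positivity) h2
  have e1 : |S.D| ≤ τ * n := e0.trans (mul_le_mul_of_nonneg_left h1 t0.le)
  have e2 : |S.D| * (1 + |σ|) ≤ τ * h :=
    (mul_le_mul_of_nonneg_right e0 (by positivity)).trans
      (by rw [mul_assoc]; exact mul_le_mul_of_nonneg_left h2 t0.le)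
  have dv : ∀ {t c k : ℝ}, 0 < k → |t| ≤ c * k → |t / k| ≤ c := fun hk ht => by
    rwa [abs_div, abs_of_pos hk, div_le_iff₀ hk]
  have bA : ∀ σ h v, v ∈ tmB S n σ h → |S.X v / n| ≤ 1 + τ := fun σ h v hv =>
    dv hn (by linarith [hv.1])
  have bB : ∀ v, v ∈ tmB S n σ h → |tmL S σ v / h| ≤ 1 + τ := fun v hv =>
    dv hh (by linarith [hv.2])
  obtain ⟨i, hi, h5⟩ := Lb.sqrt hw (Finset.range (N + 1))
    (fun i => {v | v ∈ tmEnd S n σ h s ∧ |tmL S σ v / h - (-1 + 2 * (i : ℝ) / N)| ≤ 1 / N})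
    (η := δ) (fun v hv => by
      obtain ⟨i, hi, k⟩ := tm_piece hNn ((bB v hv.1).trans (by linarith))
      exact ⟨i, hi, hv, k⟩) hδ.le (by rw [Finset.card_range]; linarith) h3
  have x1 := tm_piece_le hNn hi
  generalize -1 + 2 * (i : ℝ) / N = ξ' at h5 x1
  have s1 := tm_abs_sign hs1
  have s1' : |s * ξ'| ≤ 1 := (tm_mul_le s1.le).trans x1
  set σ' := σ + s * ξ' * h / n with hσ'
  have e3 : |S.D| * (1 + |σ'|) ≤ 2 * τ * h := by
    have k1 : |σ'| ≤ |σ| + h / n := by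
      refine (abs_add_le _ _).trans (add_le_add_right ?_ _)
      rw [mul_div_assoc]
      exact (tm_mul_le s1').trans (abs_of_pos (by positivity)).le
    have k2 : |S.D| * (h / n) ≤ τ * h := by
      rw [← mul_div_assoc, div_le_iff₀ hn]
      nlinarith
    nlinarith [mul_le_mul_of_nonneg_left k1 hD]
  have e4 : ∀ v, tmL S σ' v / h = tmL S σ v / h - s * ξ' * (S.X v / n) := fun v => by
    simp only [tmL, hσ']
    field_simp
    ring
  have bB' : ∀ v, v ∈ tmB S n σ' (h / 4) → |tmL S σ' v / h| ≤ 1 / 4 + 2 * τ := fun v hv =>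
    dv hh (by linarith [hv.2])
  obtain ⟨⟨s₂, j⟩, hj, h6⟩ := Lb.sqrt hw (({1, -1} : Finset ℝ) ×ˢ Finset.range (N + 1))
    (fun q => {v | v ∈ tmB S n σ' (h / 4) ∧ h / 4 ≤ q.1 * tmL S σ' v ∧
      |S.X v / n - (-1 + 2 * (q.2 : ℝ) / N)| ≤ 1 / N})
    (η := δ) (fun v hv => by
      obtain ⟨j, hj, k⟩ := tm_piece hNn ((bA _ _ v hv.1).trans (by linarith))
      obtain ⟨s₂, k1, k2⟩ := tm_sign (tmL S σ' v)
      exact ⟨(s₂, j), Finset.mem_product.2 ⟨k1, hj⟩, hv.1, k2 ▸ hv.2, k⟩) hδ.le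
    (by rw [Finset.card_product, tm_card, Finset.card_range]; linarith) (h4 σ')
  have s2 := tm_abs_sign (Finset.mem_product.1 hj).1
  have x2 := tm_piece_le hNn (Finset.mem_product.1 hj).2
  dsimp only at h6 s2 x2
  generalize -1 + 2 * (j : ℝ) / N = ξ at h6 x2
  have f1 : (fun v => -(4 * s₂ * σ' / h) * S.X v + 4 * s₂ / h * S.Y v) =
      fun v => 4 * s₂ * (tmL S σ' v / h) := funext fun v => by unfold tmL; ring
  have f2 : (fun v => s * (1 / n + ξ * (4 * s₂ * σ' / h)) * S.X v + -(s * ξ * (4 * s₂ / h)) * S.Y v) =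
      fun v => s * (S.X v / n - ξ * (4 * s₂ * (tmL S σ' v / h))) :=
    funext fun v => by unfold tmL; ring
  refine ⟨r₀, s * (1 / n + ξ * (4 * s₂ * σ' / h)), -(s * ξ * (4 * s₂ / h)),
    -(4 * s₂ * σ' / h), 4 * s₂ / h, ?_⟩
  rw [f1, f2]
  have l1 : ∀ a, ∀ b ∈ S.nb a,
      |4 * s₂ * (tmL S σ' b / h) - 4 * s₂ * (tmL S σ' a / h)| ≤ 4 * (2 * τ) := fun a b hb => by
    rw [← mul_sub, ← sub_div]
    exact tm_four s2 (dv hh ((tm_lipL S σ' a b hb).trans e3))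
  refine ⟨fun a b hb => ?_, fun a b hb => (l1 a b hb).trans (by linarith), ?_, ?_⟩
  · have k := tm_coord s1 x2 (dv hn ((tm_lipX S a b hb).trans e1)) (l1 a b hb)
    refine le_trans (le_of_eq ?_) (k.trans (by linarith))
    congr 1
    ring
  · refine Lb.le (Lb.hit_mono (Lb.mono_ok h5 fun e he => ⟨he.1, fun v hv => ?_⟩) hw
      fun v hv => ?_) (by linarith)
    · have k0 := bA _ _ v (he.2 v hv)
      have k1 : |tmL S σ' v / h| ≤ (1 + τ) + (1 + τ) := by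
        rw [e4]
        exact (abs_sub _ _).trans (add_le_add (bB v (he.2 v hv)) ((tm_mul_le s1').trans k0))
      have k2 := tm_four s2 k1
      exact ⟨(tm_coord s1 x2 k0 k2).trans (by linarith), k2.trans (by linarith)⟩
    · obtain ⟨⟨k1, k2⟩, k3⟩ := hv
      have k4 : |s * (S.X v / n) - 1| ≤ τ := by
        have a1 : 1 ≤ s * (S.X v / n) := by rwa [← mul_div_assoc, one_le_div hn]
        have a2 := (le_abs_self _).trans ((tm_mul_le s1.le).trans (bA _ _ v k1))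
        rw [abs_le]
        constructor <;> linarith
      have k5 : |tmL S σ' v / h| ≤ 1 / N + τ := by
        rw [e4, show tmL S σ v / h - s * ξ' * (S.X v / n) =
          (tmL S σ v / h - ξ') - ξ' * (s * (S.X v / n) - 1) by ring]
        exact (abs_sub _ _).trans (add_le_add k3 ((tm_mul_le x1).trans k4))
      have k6 := tm_four s2 k5
      refine ⟨?_, k6.trans (by linarith)⟩
      dsimp only
      rw [show s * (S.X v / n - ξ * (4 * s₂ * (tmL S σ' v / h))) - 1 =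
        (s * (S.X v / n) - 1) - s * (ξ * (4 * s₂ * (tmL S σ' v / h))) by ring]
      exact (abs_sub _ _).trans ((add_le_add k4
        ((tm_mul_le s1.le).trans ((tm_mul_le x2).trans k6))).trans (by linarith))
  · refine Lb.le (Lb.hit_mono (Lb.mono_ok h6 fun e he => ⟨he.1, fun v hv => ?_⟩) hw
      fun v hv => ?_) (by linarith)
    · have k2 := tm_four s2 (bB' v (he.2 v hv))
      exact ⟨k2.trans (by linarith),
        (tm_coord s1 x2 (bA _ _ v (he.2 v hv)) k2).trans (by linarith)⟩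
    · obtain ⟨k1, k2, k3⟩ := hv
      have k4 : |4 * s₂ * (tmL S σ' v / h) - 1| ≤ 8 * τ := by
        have a1 : 1 ≤ 4 * s₂ * (tmL S σ' v / h) := by
          rw [← mul_div_assoc, one_le_div hh]; linarith
        have a2 := (le_abs_self _).trans (tm_four s2 (bB' v k1))
        rw [abs_le]
        constructor <;> linarith
      refine ⟨k4.trans (by linarith), ?_⟩
      dsimp only
      rw [show S.X v / n - ξ * (4 * s₂ * (tmL S σ' v / h)) =
        (S.X v / n - ξ) - ξ * (4 * s₂ * (tmL S σ' v / h) - 1) by ring]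
      exact (tm_coord s1 x2 k3 k4).trans (by linarith)

end Vale.Agent.P151
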