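import Vale.Agent.P151.Renorm
import Vale.Agent.P151.Extend
import Vale.Agent.P151.Coarse
import Vale.Agent.P151.Seeds
import Vale.Agent.P151.Exit
import Vale.Agent.P151.TwoMoves
import Vale.Agent.P151.Geometry
import Vale.Agent.P151.MovesOne

/-! The finite volume form of the theorem. -/

namespace Vale.Agent.P151

variable {V : Type*} [DecidableEq V]

theorem Move.shift {nb : V → Finset V} {p δ ε : ℝ} {r : ℕ} {α β : V → ℝ}
    (h : Move nb p r δ ε α β) (a b : ℝ) :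
    Move nb p r δ ε (fun v => α v - a) (fun v => β v - b) := by
  intro u
  have h1 : Dom nb (fun v => α v - a) (fun v => β v - b) u = Dom nb α β u := by
    funext e
    simp only [Dom, sub_sub_sub_cancel_right]
  simpa only [h1, sub_sub_sub_cancel_right] using h u

theorem RC.Co.shift {C : RC V} {α β : V → ℝ} (h : C.Co α β) (a b : ℝ) :
    C.Co (fun v => α v - a) (fun v => β v - b) :=
  ⟨fun x y hy => by simpa only [sub_sub_sub_cancel_right] using h.la x y hy,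
    fun x y hy => by simpa only [sub_sub_sub_cancel_right] using h.lb x y hy,
    h.m1.shift a b, h.m2.shift b a⟩

theorem RC.origin (C : RC V) {α β : V → ℝ} (hco : C.Co α β) {L t : ℝ} (hL : 460 ≤ L)
    (hN : L ≤ C.N) {o : V} (ha : α o = -200) (hb : β o = 0) (ht : t ≤ 1 - C.δ - C.N * C.η) :
    Inv C.nb C.p L α β o t (opn C.nb (fun _ => C.p) C.r o) ∅ ∅ := by
  have hwp : Wt (fun _ : Sym2 V => C.p) := fun _ => ⟨C.hp0, C.hp1.le⟩
  have hL' : 300 ≤ L := by linarith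
  have hε := C.hε
  refine ⟨hwp.opn _ _ _, fun x _ e _ ⟨v, h1, h2⟩ => opn_of_not_mem fun h3 => ?_,
    fun y _ hy => ?_⟩
  · have h4 := C.ballr hco.la (mem_of_mem_inE h3 h2)
    rw [abs_le, ha] at h4
    have h5 := lab_link hL' (i := -1) (t := α v) (by push_cast; linarith) (by push_cast; linarith)
    simp only [Star, At, Set.mem_union, Set.mem_ofPred_eq] at h1
    omega
  · obtain rfl : y = (0, 0) := hy.resolve_right (by simp)
    refine ⟨-1, 0, Or.inl ⟨by simp, by simp⟩, fun x _ => Set.disjoint_left.2 fun v h1 h2 => ?_, ?_⟩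
    · simp only [Star, At, Set.mem_union, Set.mem_ofPred_eq] at h1 h2
      omega
    have hz : ∀ v, -300 ≤ α v → α v ≤ 100 → |β v| ≤ 100 →
        v ∈ At L α β (-1) 0 ∪ At L α β (2 * ((0 : ℕ) : ℤ)) (2 * ((0 : ℕ) : ℤ)) := by
      intro v h1 h2 h3
      rw [abs_le] at h3
      have h5 := lab_box hL' (i := 0) (t := β v) (by push_cast; linarith) (by push_cast; linarith)
      have h6 := lab_link_box hL' (i := -1) (t := α v) (by push_cast; linarith)
        (by push_cast; linarith)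
      simp only [At, Set.mem_union, Set.mem_ofPred_eq]
      omega
    have h0 := (hco.m1 o).mono_ok (ok' := okR C.nb (opn C.nb (fun _ => C.p) C.r o)
      (At L α β (-1) 0 ∪ At L α β (2 * ((0 : ℕ) : ℤ)) (2 * ((0 : ℕ) : ℤ)))) fun e he =>
        ⟨he.1, Or.inl fun v hv => by
          obtain ⟨h1, h2⟩ := he.2 v hv
          rw [abs_le] at h1 h2
          exact hz v (by linarith) (by linarith) (abs_le.2 ⟨by linarith, by linarith⟩)⟩
    refine Lb.le (C.chain hco (hwp.opn _ _ _) (fun e he => he.1) (s₀ := -199) (s₁ := -195)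
      (d₀ := 10) (S := -2) (b₀ := 0) (G := 20) (by norm_num) (by norm_num) (by norm_num)
      (by linarith) (by norm_num) (fun e he hv => ⟨⟨he, Or.inl fun v h => ?_⟩, le_opn hwp e⟩)
      (fun a b _ h1 _ _ => (opn_of_not_mem fun h2 => ?_).le) (fun h => ?_) (fun v hv => ?_)
      (fun v h1 h2 h3 h4 => ?_) h0) ht
    · have h3 := C.ballr hco.la (mem_of_mem_inE h2 (Sym2.mem_mk_left _ _))
      have h4 := C.ballr hco.lb (mem_of_mem_inE h2 (Sym2.mem_mk_left _ _))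
      rw [abs_le] at h3 h4
      linarith
    · linarith [h.1]
    · obtain ⟨h1, h2⟩ := hv
      rw [abs_le] at h1 h2
      exact ⟨by linarith, by linarith, by linarith, by linarith, by linarith⟩
    · exact ⟨abs_le.2 ⟨by simp; linarith, by simp; linarith⟩,
        abs_le.2 ⟨by simp; linarith, by simp; linarith⟩⟩
    · obtain ⟨h1, h2, h3, h4⟩ := hv v h
      exact hz v (by linarith) (by linarith) (abs_le.2 ⟨by linarith, by linarith⟩)

theorem RC.far (C : RC V) {α β : V → ℝ} (hC : C.Co α β) {K : ℕ} {L e ε₀ : ℝ}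
    (hco : Coarse (Sym2 V → ℝ) ε₀) (hL : L = 210 * K + 460) (hN : L ≤ C.N) (he0 : 0 < e)
    (he1 : e ≤ 1) (he2 : e ≤ ε₀) (hK : (1 - e / 16) ^ K ≤ e / 8) (hη : C.N * C.η = e / 32)
    (hδ : C.δ ≤ e / 16) {o : V} (ha : α o = -200) (hb : β o = 0) :
    Far C.nb o (opn C.nb (fun _ => C.p) C.r o) (1 / 4) := by
  intro R
  have hK0 : (0 : ℝ) ≤ K := Nat.cast_nonneg K
  have htower : ∀ w E g, Wt w → (∀ ξ ⊆ E, Lb (rev w E ξ) (IsE C.nb)
      (hit o (↑(ball C.nb R o) : Set V)ᶜ) (g ξ)) →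
      Lb w (IsE C.nb) (hit o (↑(ball C.nb R o) : Set V)ᶜ) (Ex w E g) :=
    fun w E g hw h => Lb.tower hw (hit_mono _ _) E g h
  have hl := lab_link (L := L) (i := -1) (t := α o) (by linarith)
    (by push_cast; linarith) (by push_cast; linarith)
  refine Lb.le (hco (fun w c => Lb w (IsE C.nb) (hit o (↑(ball C.nb R o) : Set V)ᶜ) c)
    (Inv C.nb C.p L α β o (1 - e / 8)) R (1 - e / 8) (by linarith) (fun _ _ _ => Lb.le)
    (fun _ => Lb.of_le hit_nonneg) (fun w P c x h hx hc a b _ hab ha hb => ?_)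
    (fun w P c x h => h.skip x) (fun w P c x h hx hc hn => ?_) _
    (C.origin hC (by linarith) hN ha hb (by linarith))) (by linarith)
  · refine Lb.le (C.step hC hL hN (Or.inl (by omega))
      (fun w c => Lb w (IsE C.nb) (hit o (↑(ball C.nb R o) : Set V)ᶜ) c)
      (fun _ _ _ => Lb.le) htower (s := 1 - e / 16) (by linarith) (by linarith) h hx hc hab ha
      hb) ?_
    rw [hη]
    nlinarith [mul_nonneg (sub_nonneg.2 hab) (show 0 ≤ 2 * (1 - e / 8 - e / 32) - 1 -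
      2 * (1 - e / 16) ^ K - (1 - ε₀) by linarith)]
  · obtain ⟨m, n, _, _, h5⟩ := h.2.2 x hx hc
    refine (h5.mono_ok fun e he => he.1).hit_mono h.1 fun v hv h6 => ?_
    have h7 := ball_lip C.hlam hC.la h6
    have h8 := ball_lip C.hlam hC.lb h6
    have h9 : C.lam ≤ 1 / 8 := C.lam_le.trans C.hε
    obtain ⟨h10, h11⟩ := hv
    have h12 : (x.1 : ℝ) + x.2 = R := by exact_mod_cast hn
    have h13 : (0 : ℝ) ≤ R := Nat.cast_nonneg R
    rw [abs_le] at h7 h8 h10 h11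
    push_cast at h10 h11
    have h14 : L * x.1 + L * x.2 = 210 * (K * R) + 460 * R := by rw [← mul_add, h12, hL]; ring
    linarith [mul_nonneg hK0 h13, mul_le_mul_of_nonneg_left h9 h13]

theorem renorm (V : Type*) [DecidableEq V] : ∃ η δ₀ ε : ℝ, 0 < η ∧ 0 < δ₀ ∧ 0 < ε ∧
    ∀ (nb : V → Finset V) (Δ : ℕ) (lo hi δ : ℝ) (r J : ℕ) (p lam : ℝ), Nb nb Δ →
      Ext nb lo hi η δ r J → 0 ≤ δ → δ ≤ δ₀ → lo ≤ p → p ≤ hi → 0 ≤ p → p < 1 → 0 ≤ lam →
      (J + r + 1) * lam ≤ ε → Moves nb p r δ ε lam →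
      ∀ o, Far nb o (opn nb (fun _ => p) r o) (1 / 4) := by
  obtain ⟨ε₀, hε₀, hco⟩ := coarse
  obtain ⟨e, he0, he1, he2⟩ : ∃ e : ℝ, 0 < e ∧ e ≤ 1 ∧ e ≤ ε₀ :=
    ⟨min 1 ε₀, lt_min one_pos hε₀, min_le_left _ _, min_le_right _ _⟩
  obtain ⟨K, hK⟩ := exists_pow_lt_of_lt_one (show 0 < e / 8 by positivity)
    (show 1 - e / 16 < 1 by linarith)
  have hK0 : (0 : ℝ) ≤ K := Nat.cast_nonneg K
  have hη : 0 < e / (32 * (210 * K + 460)) := by positivity
  refine ⟨e / (32 * (210 * K + 460)), e / 16, 1 / (2 * (210 * K + 460)), hη,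
    by positivity, by positivity, ?_⟩
  rintro nb Δ lo hi δ r J p lam hnb hext hδ0 hδ hlo hhi hp0 hp1 hlam hJ ⟨α, β, h1, h2, h3, h4⟩ o
  have hε : (1 : ℝ) / (2 * (210 * K + 460)) ≤ 1 / 8 :=
    one_div_le_one_div_of_le (by norm_num) (by linarith)
  obtain ⟨N, hN0⟩ : ∃ N : ℕ, (N : ℝ) = 210 * K + 460 := ⟨210 * K + 460, by push_cast; rfl⟩
  have hN : 2 * ((1 : ℝ) / (2 * (210 * K + 460))) * N ≤ 1 := le_of_eq (by rw [hN0]; field_simp)
  have hη' : N * (e / (32 * (210 * K + 460))) = e / 32 := by rw [hN0]; field_simp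
  obtain ⟨C, rfl, rfl, rfl, rfl, h5, rfl, h6, rfl⟩ : ∃ C : RC V, C.nb = nb ∧ C.δ = δ ∧ C.r = r ∧
      C.p = p ∧ C.ε = 1 / (2 * (210 * K + 460)) ∧ C.lam = lam ∧
      C.η = e / (32 * (210 * K + 460)) ∧ C.N = N :=
    ⟨⟨nb, Δ, lo, hi, _, δ, r, J, p, lam, _, N, hnb, hext, hlo, hhi, hp0, hp1, hδ0, hη.le, hlam, hJ,
      hε, hN⟩, rfl, rfl, rfl, rfl, rfl, rfl, rfl, rfl⟩
  rw [← h5] at h3 h4
  rw [← h6] at hη'
  exact C.far (RC.Co.shift ⟨h1, h2, h3, h4⟩ (α o + 200) (β o)) (hco (Sym2 V → ℝ)) hN0 le_rfl he0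
    he1 he2 hK.le hη' hδ (by ring) (by ring)

theorem ext_zero (nb : V → Finset V) {η : ℝ} (hη : 0 ≤ η) : Ext nb 0 1 η η 0 0 := by
  rintro w ok o T₁ T₂ c hw _ _ _ hnear ⟨F₁, hF₁, hc⟩
  classical
  have h0 : ∀ u ∈ T₁, Lb w ok (hit u T₂) (1 - η) := by
    intro u hu
    obtain ⟨F, h1, h2⟩ := hnear u hu u mem_ball_self
    refine ⟨F.filter fun e => e ∉ inE nb (ball nb 0 u), fun e he => h1 e (Finset.mem_filter.1 he).1,
      h2.trans ?_⟩
    rw [← Ex_congr_w (w := opn nb w 0 u) fun e he => opn_of_not_mem (Finset.mem_filter.1 he).2,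
      ← Ex_filter]
    refine Ex_mono (hw.opn _ _ _) fun ω _ => ind_mono fun ⟨t, ht, h3⟩ => ⟨t, ht, ?_⟩
    refine h3.closed (P := fun v => Conn _ t v) (Conn.refl _ _) fun x y hx hxy => ?_
    by_cases h4 : s(x, y) ∈ inE nb (ball nb 0 u)
    · rw [mem_ball_zero.1 (mem_of_mem_inE h4 (Sym2.mem_mk_right _ _))]
      rwa [mem_ball_zero.1 (mem_of_mem_inE h4 (Sym2.mem_mk_left _ _))] at hx
    · exact hx.tail (Finset.mem_filter.2 ⟨hxy, h4⟩)
  obtain ⟨F₂, hF₂, h2⟩ := Lb.merge (ok := ok) (fin F₁ o T₁) (fun _ => w) (fun u => hit u T₂)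
    (fun _ => 1 - η) (fun _ _ => hw) (fun _ _ => hit_mono _ _) fun u hu => h0 u (fin_subset hu)
  refine ⟨F₁ ∪ F₂, fun e he => (Finset.mem_union.1 he).elim (hF₁ e) (hF₂ e), ?_⟩
  refine le_trans (sub_le_sub_right (hc.trans ((Ex_mono hw fun ω hω => ind_mono fun h => ?_).trans
    (Ex_le_of_subset hw Finset.subset_union_left (hit_mono o (fin F₁ o T₁ ∪ T₂))))) η)
    (glue_set hw hη fun a ha => ha.elim (h2 _ Finset.subset_union_right a) fun h =>
      le_Ex hw fun _ _ => by rw [hit_of_mem h]; linarith)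
  rw [Cl_union] at h ⊢
  exact h.imp_left (mem_Cl_fin hω)

theorem far_of_opn {nb : V → Finset V} {o : V} {p c : ℝ} {r : ℕ} (hp0 : 0 < p) (hp1 : p ≤ 1)
    (h : Far nb o (opn nb (fun _ => p) r o) c) :
    Far nb o (fun _ => p) (p ^ (inE nb (ball nb r o)).card * c) := by
  intro R
  have hw : Wt (fun _ : Sym2 V => p) := fun _ => ⟨hp0.le, hp1⟩
  obtain ⟨F, h1, h2⟩ := h R
  refine ⟨F ∪ inE nb (ball nb r o), fun e he => (Finset.mem_union.1 he).elim (h1 e)
    isE_of_mem_inE, ?_⟩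
  have h3 := Ex_all (Finset.subset_union_right (s₁ := F) (s₂ := inE nb (ball nb r o)))
    (fun _ => p) (hit o (↑(ball nb R o) : Set V)ᶜ)
  rw [Finset.prod_const] at h3
  refine (mul_le_mul_of_nonneg_left (h2.trans (Ex_le_of_subset (hw.opn _ _ _)
    Finset.subset_union_left (hit_mono _ _))) (by positivity)).trans (h3.ge.trans
      (Ex_mono hw fun ω _ => mul_le_of_le_one_left hit_nonneg (ind_le_one _)))

theorem core (V Γ : Type*) [DecidableEq V] [Group Γ] [MulAction Γ V] : Core V Γ := by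
  intro S
  obtain ⟨η, δ₀, ε, hη, hδ₀, hε, hren⟩ := renorm V
  refine ⟨fun p θ hp0 hp1 hθ hfar => ?_, ?_⟩
  · have hp : 0 < p := by
      refine lt_of_le_of_ne hp0 fun h => ?_
      obtain ⟨F, _, h2⟩ := hfar 0
      rw [Ex_det ∅ fun e _ => by simp [← h], Finset.empty_inter, hit, Cl_empty,
        ind_neg fun h3 => h3 (Finset.mem_coe.2 mem_ball_self)] at h2
      linarith
    obtain ⟨δ, hδ, hext⟩ := extAll V η hη
    choose J hJ using hext S.Δ (p / 2) p (by linarith) hp1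
    obtain ⟨r, p', h1, h2, h3⟩ := geometry S hp hp1 (two_moves S hp hp1
      (seeds S hp0 hp1.le hθ hfar) (escape S) (exit_lemma (extAll V) S.hnb hp hp1)
      (top_lemma (extAll V) S.hnb hp hp1)) (min δ δ₀) ε (lt_min hδ hδ₀) hε
      (fun r => ε / (J r + r + 1)) fun r => by positivity
    have hp' : 0 < p' := by linarith
    refine ⟨p', _, hp'.le, h2, ?_, far_of_opn hp' (by linarith) (hren S.nb S.Δ (p / 2) p
      (min δ δ₀) r (J r) p' _ S.hnb (fun w ok o T₁ T₂ c hw h4 h5 h6 h7 => hJ r S.nb S.hnb w ok o T₁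
        T₂ c hw h4 h5 h6 fun t ht u hu => (h7 t ht u hu).le (by linarith [min_le_left δ δ₀]))
      (lt_min hδ hδ₀).le (min_le_right _ _) h1 h2.le hp'.le (by linarith) (by positivity)
      (le_of_eq (by field_simp)) h3 S.o)⟩
    positivity
  · obtain ⟨p, h1, h2, h3⟩ := moves_one S (min η δ₀) ε ε (lt_min hη hδ₀) hε hε
    have hp : 0 < p := by linarith
    refine ⟨p, _, hp.le, h2, ?_, far_of_opn hp h2.le (hren S.nb S.Δ 0 1 (min η δ₀) 0 0 p ε S.hnb
      (fun w ok o T₁ T₂ c hw h4 h5 h6 h7 => ext_zero S.nb hη.le w ok o T₁ T₂ c hw h4 h5 h6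
        fun t ht u hu => (h7 t ht u hu).le (by linarith [min_le_left η δ₀]))
      (lt_min hη hδ₀).le (min_le_right _ _) hp.le h2.le hp.le h2 hε.le (by simp) h3 S.o)⟩
    positivity

end Vale.Agent.P151
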