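import Vale.Agent.P151.Ball

/-! A covariance inequality for the cluster of a vertex conditioned to avoid a set. -/

namespace Vale.Agent.P151

variable {V : Type*} [DecidableEq V]

/-- Mean of `f` of the cluster of `x` when the edges at `T` are deleted. -/
noncomputable def gm (w : Sym2 V → ℝ) (F : Finset (Sym2 V)) (x : V) (f : Set V → ℝ) (T : Set V) :
    ℝ := Ex w F fun ω => f (Cl (del ω T) {x})

/-- The centred observable. -/
noncomputable def gpsi (w : Sym2 V → ℝ) (F : Finset (Sym2 V)) (x : V) (Y : Set V)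
    (f : Set V → ℝ) (ω : Finset (Sym2 V)) : ℝ :=
  ind (x ∉ Cl ω Y) * (f (Cl ω {x}) - gm w F x f (Cl ω Y))

/-- One step of the Gibbs sampler. -/
noncomputable def gK (w : Sym2 V → ℝ) (F : Finset (Sym2 V)) (x : V) (Y : Set V) (f : Set V → ℝ)
    (S : Set V) : ℝ := Ex w F fun ω => gm w F x f (Cl (del ω S) Y)

variable {w : Sym2 V → ℝ} {F : Finset (Sym2 V)} {x d : V} {X Y Z S T : Set V} {f g : Set V → ℝ}
  {c : ℝ}

theorem ind_mul_congr {P : Prop} {a b : ℝ} (h : P → a = b) : ind P * a = ind P * b := by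
  by_cases hP : P
  · rw [h hP]
  · rw [ind_neg hP, zero_mul, zero_mul]

theorem ind_mul_nonneg {P : Prop} {a : ℝ} (h : P → 0 ≤ a) : 0 ≤ ind P * a := by
  by_cases hP : P
  · rw [ind_pos hP, one_mul]; exact h hP
  · rw [ind_neg hP, zero_mul]

theorem gm_anti (hw : Wt w) (hf : Monotone f) (h : S ⊆ T) : gm w F x f T ≤ gm w F x f S :=
  Ex_mono hw fun _ _ => hf (Cl_mono (del_mono subset_rfl h) subset_rfl)

theorem gm_mem (hw : Wt w) (hf : Monotone f) (T : Set V) :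
    f ∅ ≤ gm w F x f T ∧ gm w F x f T ≤ f Set.univ :=
  ⟨le_Ex hw fun _ _ => hf (Set.empty_subset _), Ex_le hw fun _ _ => hf (Set.subset_univ _)⟩

theorem gK_mono (hw : Wt w) (hf : Monotone f) : Monotone (gK w F x Y f) :=
  fun _ _ h => Ex_mono hw fun _ _ => gm_anti hw hf (Cl_mono (del_mono subset_rfl h) subset_rfl)

theorem gK_osc (hw : Wt w) (hf : Monotone f) :
    gK w F x Y f Set.univ - gK w F x Y f ∅ ≤
      (1 - ∏ e ∈ F, (1 - w e)) * (f Set.univ - f ∅) := by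
  have h := Ex_ge_empty (F := F) hw (f := fun ω => (f Set.univ - f ∅) -
    (gm w F x f (Cl (del ω Set.univ) Y) - gm w F x f (Cl (del ω ∅) Y))) fun ω _ => by
      linarith [(gm_mem (F := F) (x := x) hw hf (Cl (del ω Set.univ) Y)).2,
        (gm_mem (F := F) (x := x) hw hf (Cl (del ω ∅) Y)).1]
  rw [Ex_sub, Ex_const, Ex_sub, del_empty, del_empty, sub_self, sub_zero] at h
  unfold gK
  linarith

theorem centred_zero (τ : Finset (Sym2 V) → Set V)
    (hτ : ∀ ω ω' : Finset (Sym2 V), (∀ e, Touch (τ ω) e → (e ∈ ω ↔ e ∈ ω')) → τ ω' = τ ω)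
    (φ : Set V → ℝ) :
    Ex w F (fun ω => φ (τ ω) * (f (Cl (del ω (τ ω)) {x}) - gm w F x f (τ ω))) = 0 := by
  rw [Ex_stop_del τ hτ w F (fun T η => φ T * (f (Cl η {x}) - gm w F x f T)),
    ← Ex_const w F 0]
  refine Ex_congr fun ω _ => ?_
  rw [Ex_mul_left, Ex_sub, Ex_const]
  simp [gm]

theorem psi_orth (φ : Set V → ℝ) : Ex w F (fun ω => gpsi w F x Y f ω * φ (Cl ω Y)) = 0 := by
  rw [← centred_zero (w := w) (F := F) (x := x) (f := f) (fun ω => Cl ω Y) (fun _ _ => Cl_stop)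
    (fun T => ind (x ∉ T) * φ T)]
  refine Ex_congr fun ω _ => ?_
  rw [gpsi, mul_assoc, mul_assoc]
  exact ind_mul_congr fun h => by rw [Cl_del_of_disjoint (Cl_disjoint h), mul_comm]

/-- The integrand representing minus the mean of the centred observable after deleting `S`. -/
noncomputable def hint (x : V) (Y : Set V) (f : Set V → ℝ) (S : Set V) (ω : Finset (Sym2 V)) : ℝ :=
  ind (x ∉ Cl (del ω S) Y) * (f (Cl (del ω (Cl (del ω S) Y)) {x}) - f (Cl (del ω S) {x}))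

theorem psi_del : Ex w F (fun ω => gpsi w F x Y f (del ω S)) = - Ex w F (hint x Y f S) := by
  rw [eq_neg_iff_add_eq_zero, ← Ex_add,
    ← centred_zero (w := w) (F := F) (x := x) (f := f) (fun ω => Cl (del ω S) Y)
      (fun _ _ => Cl_del_stop) (fun T => ind (x ∉ T))]
  exact Ex_congr fun ω _ => by rw [gpsi, hint]; ring

omit [DecidableEq V] in
theorem hint_nonneg (hf : Monotone f) (ω : Finset (Sym2 V)) : 0 ≤ hint x Y f S ω := by
  refine ind_mul_nonneg fun h => sub_nonneg.2 (hf ?_)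
  rw [← Cl_del_of_disjoint (Cl_disjoint h)]
  exact Cl_mono (del_mono del_subset subset_rfl) subset_rfl

omit [DecidableEq V] in
theorem hint_mono (hf : Monotone f) (h : S ⊆ T) (ω : Finset (Sym2 V)) :
    hint x Y f S ω ≤ hint x Y f T ω := by
  by_cases h1 : x ∈ Cl (del ω S) Y
  · rw [hint, ind_neg (not_not.2 h1), zero_mul]
    exact hint_nonneg hf ω
  · have h2 : Cl (del ω T) Y ⊆ Cl (del ω S) Y := Cl_mono (del_mono subset_rfl h) subset_rfl
    rw [hint, hint, ind_pos h1, ind_pos fun h3 => h1 (h2 h3), one_mul, one_mul]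
    exact sub_le_sub (hf (Cl_mono (del_mono subset_rfl h2) subset_rfl))
      (hf (Cl_mono (del_mono subset_rfl h) subset_rfl))

/-- The bracket whose sign is the covariance inequality. -/
noncomputable def br (w : Sym2 V → ℝ) (F : Finset (Sym2 V)) (x : V) (Y : Set V) (g : Set V → ℝ)
    (c : ℝ) (f : Set V → ℝ) : ℝ :=
  Ex w F fun ω => ind (x ∉ Cl ω Y) * (f (Cl ω {x}) * (g (Cl ω {x}) - c))

theorem br_sub_gK :
    br w F x Y g c f - br w F x Y g c (gK w F x Y f) =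
      Ex w F (fun ω => gpsi w F x Y f ω * g (Cl ω {x})) := by
  have h1 : br w F x Y g c (gK w F x Y f) =
      Ex w F (fun ω => ind (x ∉ Cl ω Y) * (gm w F x f (Cl ω Y) * (g (Cl ω {x}) - c))) := by
    have h2 := Ex_stop_del (fun ω => Cl ω {x}) (fun _ _ => Cl_stop) w F
      (fun S η => ind (¬ ∃ y ∈ Y, y ∈ S) * (gm w F x f (Cl η Y) * (g S - c)))
    simp only [← mem_Cl_iff] at h2
    refine Eq.trans ?_ (h2.symm.trans (Ex_congr fun ω _ => ind_mul_congr fun h => ?_))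
    · refine Ex_congr fun ω _ => ?_
      rw [Ex_mul_left, Ex_mul_right]
      rfl
    · rw [Cl_del_of_disjoint (Cl_disjoint h).symm]
  have h3 := psi_orth (w := w) (F := F) (x := x) (Y := Y) (f := f) (fun _ => c)
  rw [h1, br, ← Ex_sub, ← sub_zero (Ex w F fun ω => gpsi w F x Y f ω * g (Cl ω {x})), ← h3,
    ← Ex_sub]
  exact Ex_congr fun ω _ => by rw [gpsi]; ring

theorem br_lower (hw : Wt w) (hf : Monotone f)
    (h0 : Ex w F (fun ω => ind (x ∉ Cl ω Y) * (g (Cl ω {x}) - c)) = 0) :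
    - ((f Set.univ - f ∅) * Ex w F (fun ω => |g (Cl ω {x}) - c|)) ≤ br w F x Y g c f := by
  have h1 : br w F x Y g c f = Ex w F fun ω =>
      ind (x ∉ Cl ω Y) * ((f (Cl ω {x}) - f ∅) * (g (Cl ω {x}) - c)) := by
    rw [br, ← sub_zero (Ex w F _), ← mul_zero (f ∅), ← h0, ← Ex_mul_left, ← Ex_sub]
    exact Ex_congr fun ω _ => by ring
  rw [h1, ← Ex_mul_left, ← Ex_neg]
  refine Ex_mono hw fun ω _ => ?_
  have h2 : 0 ≤ f (Cl ω {x}) - f ∅ := sub_nonneg.2 (hf (Set.empty_subset _))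
  have h3 : f (Cl ω {x}) - f ∅ ≤ f Set.univ - f ∅ := sub_le_sub_right (hf (Set.subset_univ _)) _
  have h4 := abs_nonneg (g (Cl ω {x}) - c)
  have h5 := neg_abs_le (g (Cl ω {x}) - c)
  by_cases h : x ∉ Cl ω Y
  · rw [ind_pos h]
    nlinarith [mul_le_mul_of_nonneg_left h5 h2, mul_le_mul_of_nonneg_right h3 h4]
  · rw [ind_neg h]
    nlinarith [mul_nonneg (h2.trans h3) h4]

omit [DecidableEq V] in
theorem kappa_pos (hw1 : ∀ e ∈ F, w e < 1) : 0 < ∏ e ∈ F, (1 - w e) :=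
  Finset.prod_pos fun e he => sub_pos.2 (hw1 e he)

/-- The covariance inequality from the one step inequality. -/
theorem br_nonneg (hw : Wt w) (hw1 : ∀ e ∈ F, w e < 1)
    (hΦ : ∀ f : Set V → ℝ, Monotone f → 0 ≤ Ex w F (fun ω => gpsi w F x Y f ω * g (Cl ω {x})))
    (h0 : Ex w F (fun ω => ind (x ∉ Cl ω Y) * (g (Cl ω {x}) - c)) = 0) (hf : Monotone f) :
    0 ≤ br w F x Y g c f := by
  set κ := ∏ e ∈ F, (1 - w e) with hκ
  set M := Ex w F (fun ω => |g (Cl ω {x}) - c|) with hM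
  have hM0 : 0 ≤ M := Ex_nonneg hw fun _ _ => abs_nonneg _
  have hκ0 : 0 < κ := kappa_pos hw1
  have hκ1 : κ ≤ 1 := Finset.prod_le_one (fun e _ => sub_nonneg.2 (hw e).2)
    fun e _ => sub_le_self _ (hw e).1
  have key : ∀ n : ℕ, ∀ f : Set V → ℝ, Monotone f →
      - ((1 - κ) ^ n * ((f Set.univ - f ∅) * M)) ≤ br w F x Y g c f := by
    intro n
    induction n with
    | zero => intro f hf; simpa using br_lower hw hf h0
    | succ n ih =>
      intro f hf
      have h1 := ih _ (gK_mono (F := F) (x := x) (Y := Y) hw hf)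
      have h2 := br_sub_gK (w := w) (F := F) (x := x) (Y := Y) (g := g) (c := c) (f := f)
      have h3 := hΦ f hf
      have h4 := mul_le_mul_of_nonneg_left
        (mul_le_mul_of_nonneg_right (gK_osc (F := F) (x := x) (Y := Y) hw hf) hM0)
        (pow_nonneg (sub_nonneg.2 hκ1) n)
      rw [pow_succ]
      nlinarith
  have h5 : Filter.Tendsto (fun n : ℕ => - ((1 - κ) ^ n * ((f Set.univ - f ∅) * M)))
      Filter.atTop (nhds (- (0 * ((f Set.univ - f ∅) * M)))) :=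
    ((tendsto_pow_atTop_nhds_zero_of_lt_one (sub_nonneg.2 hκ1) (by linarith)).mul_const _).neg
  simpa using le_of_tendsto' h5 fun n => key n f hf

theorem notMem_pos (hw : Wt w) (hw1 : ∀ e ∈ F, w e < 1) (hd : d ∉ Y) :
    0 < Ex w F (fun ω => ind (d ∉ Cl ω Y)) := by
  have h := Ex_ge_empty (F := F) hw (f := fun ω => ind (d ∉ Cl ω Y)) fun _ _ => ind_nonneg _
  rw [Cl_empty, ind_pos hd, mul_one] at h
  exact (kappa_pos hw1).trans_le h

theorem exists_centre (hw : Wt w) (hw1 : ∀ e ∈ F, w e < 1) (hd : d ∉ Y) (g : Set V → ℝ) :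
    ∃ c, Ex w F (fun ω => ind (d ∉ Cl ω Y) * (g (Cl ω {d}) - c)) = 0 := by
  refine ⟨Ex w F (fun ω => ind (d ∉ Cl ω Y) * g (Cl ω {d})) /
    Ex w F (fun ω => ind (d ∉ Cl ω Y)), ?_⟩
  simp only [mul_sub, Ex_sub, Ex_mul_right]
  rw [mul_div_cancel₀ _ (notMem_pos hw hw1 hd).ne', sub_self]

/-- The covariance inequality with a smaller avoided set and the old centring constant. -/
theorem br_nonneg_subset (hw : Wt w) (hw1 : ∀ e ∈ F, w e < 1) (hd : d ∉ Z) (hY : Y ⊆ Z)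
    (hΦ : ∀ f : Set V → ℝ, Monotone f → 0 ≤ Ex w F (fun ω => gpsi w F d Y f ω * g (Cl ω {d})))
    (h0 : Ex w F (fun ω => ind (d ∉ Cl ω Z) * (g (Cl ω {d}) - c)) = 0) (hf : Monotone f)
    (hf0 : 0 ≤ f ∅) : 0 ≤ br w F d Y g c f := by
  obtain ⟨c', hc'⟩ := exists_centre hw hw1 (fun h => hd (hY h)) g
  have h1 := br_nonneg hw hw1 hΦ hc' (f := fun S => ind (∃ z ∈ Z, z ∈ S))
    fun S T h => ind_mono fun ⟨z, hz, hS⟩ => ⟨z, hz, h hS⟩
  have h2 : br w F d Y g c' (fun S => ind (∃ z ∈ Z, z ∈ S)) =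
      (c' - c) * Ex w F (fun ω => ind (d ∉ Cl ω Z)) := by
    have h6 : (c' - c) * Ex w F (fun ω => ind (d ∉ Cl ω Z)) =
        Ex w F (fun ω => ind (d ∉ Cl ω Y) * (g (Cl ω {d}) - c') -
          ind (d ∉ Cl ω Z) * (g (Cl ω {d}) - c) + (c' - c) * ind (d ∉ Cl ω Z)) := by
      rw [Ex_add, Ex_sub, hc', h0, Ex_mul_left]; ring
    rw [h6]
    refine Ex_congr fun ω _ => ?_
    beta_reduce
    rw [← mem_Cl_iff]
    by_cases h3 : d ∈ Cl ω Z
    · rw [ind_pos h3, ind_neg (not_not.2 h3)]; ring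
    · rw [ind_neg h3, ind_pos h3, ind_pos fun h => h3 (Cl_mono subset_rfl hY h)]; ring
  have h4 : 0 ≤ c' - c := by
    rw [h2] at h1
    exact nonneg_of_mul_nonneg_left h1 (notMem_pos hw hw1 hd)
  have h5 : br w F d Y g c f = br w F d Y g c' f +
      (c' - c) * Ex w F (fun ω => ind (d ∉ Cl ω Y) * f (Cl ω {d})) := by
    rw [br, br, ← Ex_mul_left, ← Ex_add]
    exact Ex_congr fun ω _ => by ring
  rw [h5]
  exact add_nonneg (br_nonneg hw hw1 hΦ hc' hf) (mul_nonneg h4 (Ex_nonneg hw fun ω _ =>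
    mul_nonneg (ind_nonneg _) (hf0.trans (hf (Set.empty_subset _)))))

end Vale.Agent.P151
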