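import Vale.Agent.P151.Defs

/-! Interfaces for the geometric part. -/

namespace Vale.Agent.P151

variable {V Γ : Type*} [DecidableEq V] [Group Γ] [MulAction Γ V]

/-- Edges with an end in `P`. -/
def okP (nb : V → Finset V) (P : Set V) (e : Sym2 V) : Prop := IsE nb e ∧ Touch P e

/-- The outer vertex boundary. -/
def Bd (nb : V → Finset V) (P : Set V) : Set V := {v | v ∉ P ∧ ∃ a ∈ P, v ∈ nb a}

/-- Every linear coordinate becomes large at a uniformly bounded distance. -/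
def Escape (S : Setup V Γ) : Prop :=
  ∀ M : ℝ, ∃ ρ : ℕ, ∀ a b : ℝ, ∀ u, ∃ v ∈ ball S.nb ρ u,
    M * (|a| + |b|) ≤ |a * S.X v + b * S.Y v|

/-- A seed joined to infinity leaves every region that can be left from each of its points by a
path of bounded length. -/
def ExitLemma (nb : V → Finset V) (p : ℝ) : Prop :=
  ∀ (o : V) (r₀ : ℕ) (c : ℝ), Far nb o (opn nb (fun _ => p) r₀ o) c →
    ∀ (P : Set V) (ρ : ℕ), o ∈ P → (∀ u ∈ P, ∃ v ∈ ball nb ρ u, v ∉ P) → ∀ η : ℝ, 0 < η →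
      Lb (opn nb (fun _ => p) r₀ o) (okP nb P) (hit o (Bd nb P)) (c - η)

/-- A long thin region is left through its long sides. -/
def TopLemma (nb : V → Finset V) (p : ℝ) : Prop :=
  ∀ (η D : ℝ) (r₀ ρ : ℕ), 0 < η → 0 ≤ D → ∃ n₀ : ℝ, ∀ n : ℝ, n₀ ≤ n →
    ∀ (x : V → ℝ) (o : V) (Q : Set V) (c : ℝ), Lip nb x D → x o = 0 → o ∈ Q →
      (∀ u, ∃ v ∈ ball nb ρ u, v ∉ Q) →
      Lb (opn nb (fun _ => p) r₀ o) (okP nb {v | v ∈ Q ∧ |x v| < n})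
        (hit o (Bd nb {v | v ∈ Q ∧ |x v| < n})) c →
      Lb (opn nb (fun _ => p) r₀ o) (okP nb {v | v ∈ Q ∧ |x v| < n})
        (hit o (Bd nb {v | v ∈ Q ∧ |x v| < n} \ Q)) (c - η)

/-- From the seed at `o` one can move by about `(1, 0)`. -/
def MoveAt (nb : V → Finset V) (w : Sym2 V → ℝ) (o : V) (δ ε : ℝ) (μ ν : V → ℝ) : Prop :=
  Lb w (fun e => IsE nb e ∧ ∀ v ∈ e, |μ v| ≤ 19 / 2 ∧ |ν v| ≤ 19 / 2)
    (hit o {v | |μ v - 1| ≤ ε ∧ |ν v| ≤ ε}) (1 - δ)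

/-- Two independent moves from a seed at the base vertex. -/
def TwoMoves (S : Setup V Γ) (p : ℝ) : Prop :=
  ∀ δ ε : ℝ, 0 < δ → 0 < ε → ∀ lam : ℕ → ℝ, (∀ r, 0 < lam r) → ∃ (r₀ : ℕ) (a b c d : ℝ),
    Lip S.nb (fun v => a * S.X v + b * S.Y v) (lam r₀) ∧
    Lip S.nb (fun v => c * S.X v + d * S.Y v) (lam r₀) ∧
    MoveAt S.nb (opn S.nb (fun _ => p) r₀ S.o) S.o δ ε
      (fun v => a * S.X v + b * S.Y v) (fun v => c * S.X v + d * S.Y v) ∧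
    MoveAt S.nb (opn S.nb (fun _ => p) r₀ S.o) S.o δ ε
      (fun v => c * S.X v + d * S.Y v) (fun v => a * S.X v + b * S.Y v)

/-- Two good moves from every vertex at a strictly smaller parameter. -/
def Geometry (S : Setup V Γ) (p : ℝ) : Prop :=
  ∀ δ ε : ℝ, 0 < δ → 0 < ε → ∀ lam : ℕ → ℝ, (∀ r, 0 < lam r) →
    ∃ (r : ℕ) (p' : ℝ), p / 2 ≤ p' ∧ p' < p ∧ Moves S.nb p' r δ ε (lam r)

/-- The square root trick for certified bounds. -/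
theorem Lb.sqrt {w : Sym2 V → ℝ} {ok : Sym2 V → Prop} {o : V} {κ : Type*} (hw : Wt w)
    (I : Finset κ) (T : κ → Set V) {U : Set V} (hU : ∀ v ∈ U, ∃ i ∈ I, v ∈ T i) {a η : ℝ}
    (hη : 0 ≤ η) (ha : a < η ^ I.card) (h : Lb w ok (hit o U) (1 - a)) :
    ∃ i ∈ I, Lb w ok (hit o (T i)) (1 - η) := by
  obtain ⟨F, h1, h2⟩ := h
  by_contra hcon
  have h3 := Ex_sqrt_trick (F := F) hw I (fun i ω => o ∈ Cl ω (T i))
    (fun i a b hab h => Cl_mono hab subset_rfl h) hη fun i hi =>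
      le_of_not_ge fun h => hcon ⟨i, hi, F, h1, h⟩
  have h4 : Ex w F (hit o U) ≤ Ex w F (fun ω => ind (∃ i ∈ I, o ∈ Cl ω (T i))) :=
    Ex_mono hw fun ω _ => ind_mono fun ⟨v, hv, h⟩ =>
      let ⟨i, hi, h5⟩ := hU v hv; ⟨i, hi, v, h5, h⟩
  linarith

end Vale.Agent.P151
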