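import Mathlib

/-! Expectation over finitely many independent bits. -/

namespace Vale.Agent.P151

open Finset

variable {ι : Type*} [DecidableEq ι]

open Classical in
/-- Indicator of a proposition. -/
noncomputable def ind (P : Prop) : ℝ := if P then 1 else 0

theorem ind_pos {P : Prop} (h : P) : ind P = 1 := if_pos h
theorem ind_neg {P : Prop} (h : ¬ P) : ind P = 0 := if_neg h
theorem ind_nonneg (P : Prop) : 0 ≤ ind P := by unfold ind; split_ifs <;> norm_num
theorem ind_le_one (P : Prop) : ind P ≤ 1 := by unfold ind; split_ifs <;> norm_num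
theorem ind_mono {P Q : Prop} (h : P → Q) : ind P ≤ ind Q := by
  by_cases hP : P
  · rw [ind_pos hP, ind_pos (h hP)]
  · rw [ind_neg hP]; exact ind_nonneg _
theorem ind_congr {P Q : Prop} (h : P ↔ Q) : ind P = ind Q := by rw [propext h]
theorem ind_not (P : Prop) : ind (¬ P) = 1 - ind P := by
  by_cases hP : P
  · rw [ind_pos hP, ind_neg (not_not.2 hP)]; ring
  · rw [ind_neg hP, ind_pos hP]; ring
theorem ind_and (P Q : Prop) : ind (P ∧ Q) = ind P * ind Q := by
  by_cases hP : P <;> by_cases hQ : Q <;> simp [ind, hP, hQ]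

/-- Expectation of `f` when each index of `F` is chosen independently with probability `w`. -/
noncomputable def Ex (w : ι → ℝ) (F : Finset ι) (f : Finset ι → ℝ) : ℝ :=
  ∑ ω ∈ F.powerset, ((∏ e ∈ ω, w e) * ∏ e ∈ F \ ω, (1 - w e)) * f ω

/-- Weights are probabilities. -/
def Wt (w : ι → ℝ) : Prop := ∀ e, 0 ≤ w e ∧ w e ≤ 1

variable {w w' : ι → ℝ} {F F' A B : Finset ι} {f g : Finset ι → ℝ}

@[simp] theorem Ex_empty (w : ι → ℝ) (f : Finset ι → ℝ) : Ex w ∅ f = f ∅ := by simp [Ex]

theorem Ex_insert {e : ι} (he : e ∉ F) (w : ι → ℝ) (f : Finset ι → ℝ) :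
    Ex w (insert e F) f = w e * Ex w F (fun ω => f (insert e ω)) + (1 - w e) * Ex w F f := by
  unfold Ex
  rw [Finset.sum_powerset_insert he, Finset.mul_sum, Finset.mul_sum, add_comm]
  congr 1
  · refine Finset.sum_congr rfl fun ω hω => ?_
    have h1 : e ∉ ω := fun h => he (Finset.mem_powerset.1 hω h)
    rw [Finset.prod_insert h1, Finset.insert_sdiff_insert, Finset.sdiff_insert_of_notMem he]
    ring
  · refine Finset.sum_congr rfl fun ω hω => ?_
    have h1 : e ∉ ω := fun h => he (Finset.mem_powerset.1 hω h)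
    rw [Finset.insert_sdiff_of_notMem _ h1,
      Finset.prod_insert (fun h => he (Finset.mem_sdiff.1 h).1)]
    ring

theorem Ex_congr (h : ∀ ω ⊆ F, f ω = g ω) : Ex w F f = Ex w F g :=
  Finset.sum_congr rfl fun ω hω => by rw [h ω (Finset.mem_powerset.1 hω)]

theorem Ex_congr_w (h : ∀ e ∈ F, w e = w' e) : Ex w F f = Ex w' F f := by
  refine Finset.sum_congr rfl fun ω hω => ?_
  rw [Finset.prod_congr rfl fun e he => h e (Finset.mem_powerset.1 hω he),
    Finset.prod_congr (s₁ := F \ ω) rfl fun e he => by rw [h e (Finset.mem_sdiff.1 he).1]]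

theorem Ex_add : Ex w F (fun ω => f ω + g ω) = Ex w F f + Ex w F g := by
  simp only [Ex, mul_add, Finset.sum_add_distrib]

theorem Ex_sub : Ex w F (fun ω => f ω - g ω) = Ex w F f - Ex w F g := by
  simp only [Ex, mul_sub, Finset.sum_sub_distrib]

theorem Ex_neg : Ex w F (fun ω => - f ω) = - Ex w F f := by
  simp only [Ex, mul_neg, Finset.sum_neg_distrib]

theorem Ex_mul_left (c : ℝ) : Ex w F (fun ω => c * f ω) = c * Ex w F f := by
  simp only [Ex, Finset.mul_sum]
  exact Finset.sum_congr rfl fun _ _ => by ring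

theorem Ex_mul_right (c : ℝ) : Ex w F (fun ω => f ω * c) = Ex w F f * c := by
  simp only [Ex, Finset.sum_mul]
  exact Finset.sum_congr rfl fun _ _ => by ring

theorem Ex_sum {κ : Type*} (I : Finset κ) (f : κ → Finset ι → ℝ) :
    Ex w F (fun ω => ∑ i ∈ I, f i ω) = ∑ i ∈ I, Ex w F (f i) := by
  simp only [Ex, Finset.mul_sum]
  exact Finset.sum_comm

@[simp] theorem Ex_const (w : ι → ℝ) (F : Finset ι) (c : ℝ) : Ex w F (fun _ => c) = c := by
  induction F using Finset.induction_on with
  | empty => simp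
  | insert e F he ih => rw [Ex_insert he, ih]; ring

theorem Ex_nonneg (hw : Wt w) (h : ∀ ω ⊆ F, 0 ≤ f ω) : 0 ≤ Ex w F f :=
  Finset.sum_nonneg fun ω hω => mul_nonneg (mul_nonneg (Finset.prod_nonneg fun e _ => (hw e).1)
    (Finset.prod_nonneg fun e _ => sub_nonneg.2 (hw e).2)) (h ω (Finset.mem_powerset.1 hω))

theorem Ex_mono (hw : Wt w) (h : ∀ ω ⊆ F, f ω ≤ g ω) : Ex w F f ≤ Ex w F g := by
  have := Ex_nonneg (F := F) (f := fun ω => g ω - f ω) hw fun ω hω => sub_nonneg.2 (h ω hω)
  rw [Ex_sub] at this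
  linarith

theorem Ex_le (hw : Wt w) {c : ℝ} (h : ∀ ω ⊆ F, f ω ≤ c) : Ex w F f ≤ c :=
  (Ex_mono hw h).trans (Ex_const w F c).le

theorem le_Ex (hw : Wt w) {c : ℝ} (h : ∀ ω ⊆ F, c ≤ f ω) : c ≤ Ex w F f :=
  (Ex_const w F c).ge.trans (Ex_mono hw h)

theorem Ex_ind_nonneg (hw : Wt w) (P : Finset ι → Prop) : 0 ≤ Ex w F (fun ω => ind (P ω)) :=
  Ex_nonneg hw fun _ _ => ind_nonneg _

theorem Ex_ind_le_one (hw : Wt w) (P : Finset ι → Prop) : Ex w F (fun ω => ind (P ω)) ≤ 1 :=
  Ex_le hw fun _ _ => ind_le_one _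

theorem Ex_ind_not (P : Finset ι → Prop) :
    Ex w F (fun ω => ind (¬ P ω)) = 1 - Ex w F (fun ω => ind (P ω)) := by
  simp only [ind_not, Ex_sub, Ex_const]

theorem Ex_union (h : Disjoint A B) (w : ι → ℝ) (f : Finset ι → ℝ) :
    Ex w (A ∪ B) f = Ex w A (fun a => Ex w B (fun b => f (a ∪ b))) := by
  induction A using Finset.induction_on generalizing f with
  | empty => simp
  | insert e A he ih =>
    rw [Finset.disjoint_insert_left] at h
    rw [Finset.insert_union, Ex_insert (by simp [he, h.1]), Ex_insert he, ih h.2, ih h.2]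
    simp only [Finset.insert_union]

theorem Ex_split (P : ι → Prop) [DecidablePred P] (w : ι → ℝ) (F : Finset ι) (f : Finset ι → ℝ) :
    Ex w F f = Ex w (F.filter P) (fun a => Ex w (F.filter (fun e => ¬ P e)) (fun b => f (a ∪ b))) := by
  rw [← Ex_union (Finset.disjoint_filter_filter_not F F P), Finset.filter_union_filter_not_eq]

theorem Ex_filter (P : ι → Prop) [DecidablePred P] (w : ι → ℝ) (F : Finset ι) (f : Finset ι → ℝ) :
    Ex w F (fun ω => f (ω.filter P)) = Ex w (F.filter P) f := by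
  rw [Ex_split P]
  refine Ex_congr fun a ha => ?_
  rw [← Ex_const w (F.filter (fun e => ¬ P e)) (f a)]
  refine Ex_congr fun b hb => ?_
  congr 1
  rw [Finset.filter_union, Finset.filter_true_of_mem fun e he => (Finset.mem_filter.1 (ha he)).2,
    Finset.filter_false_of_mem fun e he => (Finset.mem_filter.1 (hb he)).2, Finset.union_empty]

theorem Ex_inter (h : A ⊆ F) (w : ι → ℝ) (f : Finset ι → ℝ) :
    Ex w F (fun ω => f (ω ∩ A)) = Ex w A f := by
  have := Ex_filter (fun e => e ∈ A) w F f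
  simp only [Finset.filter_mem_eq_inter] at this
  rwa [Finset.inter_eq_right.2 h] at this

theorem Ex_le_of_subset (hw : Wt w) (h : A ⊆ F) (hf : Monotone f) : Ex w A f ≤ Ex w F f := by
  rw [← Ex_inter h]
  exact Ex_mono hw fun ω _ => hf Finset.inter_subset_left

theorem Ex_mono_w (hw : Wt w) (hw' : Wt w') (h : ∀ e ∈ F, w e ≤ w' e) (hf : Monotone f) :
    Ex w F f ≤ Ex w' F f := by
  induction F using Finset.induction_on generalizing f with
  | empty => simp
  | insert e F he ih =>
    have h' : ∀ e ∈ F, w e ≤ w' e := fun x hx => h x (Finset.mem_insert_of_mem hx)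
    have h1 := ih h' (f := fun ω => f (insert e ω)) fun a b hab =>
      hf (Finset.insert_subset_insert e hab)
    have h2 := ih h' hf
    have h3 : Ex w' F f ≤ Ex w' F (fun ω => f (insert e ω)) :=
      Ex_mono hw' fun ω _ => hf (Finset.subset_insert _ _)
    have h4 := h e (Finset.mem_insert_self _ _)
    have h5 := hw e
    rw [Ex_insert he, Ex_insert he]
    nlinarith [mul_le_mul_of_nonneg_left h1 h5.1, mul_le_mul_of_nonneg_left h2 (sub_nonneg.2 h5.2),
      mul_nonneg (sub_nonneg.2 h4) (sub_nonneg.2 h3)]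

/-- The Harris inequality. -/
theorem Ex_fkg (hw : Wt w) (hf : Monotone f) (hg : Monotone g) :
    Ex w F f * Ex w F g ≤ Ex w F (fun ω => f ω * g ω) := by
  induction F using Finset.induction_on generalizing f g with
  | empty => simp
  | insert e F he ih =>
    have h1 := ih (f := fun ω => f (insert e ω)) (g := fun ω => g (insert e ω))
      (fun a b hab => hf (Finset.insert_subset_insert e hab))
      (fun a b hab => hg (Finset.insert_subset_insert e hab))
    have h2 := ih hf hg
    have h3 : Ex w F f ≤ Ex w F (fun ω => f (insert e ω)) :=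
      Ex_mono hw fun ω _ => hf (Finset.subset_insert _ _)
    have h4 : Ex w F g ≤ Ex w F (fun ω => g (insert e ω)) :=
      Ex_mono hw fun ω _ => hg (Finset.subset_insert _ _)
    have h5 := hw e
    rw [Ex_insert he, Ex_insert he, Ex_insert he]
    nlinarith [mul_le_mul_of_nonneg_left h1 h5.1, mul_le_mul_of_nonneg_left h2 (sub_nonneg.2 h5.2),
      mul_nonneg (mul_nonneg h5.1 (sub_nonneg.2 h5.2))
        (mul_nonneg (sub_nonneg.2 h3) (sub_nonneg.2 h4))]

theorem Ex_indep (P : ι → Prop) [DecidablePred P] (w : ι → ℝ) (F : Finset ι)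
    (f g : Finset ι → ℝ) :
    Ex w F (fun ω => f (ω.filter P) * g (ω.filter (fun e => ¬ P e))) =
      Ex w F (fun ω => f (ω.filter P)) * Ex w F (fun ω => g (ω.filter (fun e => ¬ P e))) := by
  rw [Ex_filter, Ex_filter, Ex_split P, ← Ex_mul_right]
  refine Ex_congr fun a ha => ?_
  rw [← Ex_mul_left]
  refine Ex_congr fun b hb => ?_
  have ha' : ∀ e ∈ a, P e := fun e he => (Finset.mem_filter.1 (ha he)).2
  have hb' : ∀ e ∈ b, ¬ P e := fun e he => (Finset.mem_filter.1 (hb he)).2
  rw [Finset.filter_union, Finset.filter_union, Finset.filter_true_of_mem ha',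
    Finset.filter_false_of_mem hb', Finset.filter_true_of_mem hb',
    Finset.filter_false_of_mem fun e he => not_not.2 (ha' e he), Finset.union_empty,
    Finset.empty_union]

open Classical in
/-- The spatial Markov property for a stopping set. -/
theorem Ex_stop {σ : Type*} (τ : Finset ι → σ) (D : σ → ι → Prop)
    (hτ : ∀ ω ω' : Finset ι, (∀ e, D (τ ω) e → (e ∈ ω ↔ e ∈ ω')) → τ ω' = τ ω)
    (w : ι → ℝ) (F : Finset ι) (g : σ → Finset ι → ℝ) :
    Ex w F (fun ω => g (τ ω) (ω.filter (fun e => ¬ D (τ ω) e))) =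
      Ex w F (fun ω => Ex w F (fun ω' => g (τ ω) (ω'.filter (fun e => ¬ D (τ ω) e)))) := by
  have key : ∀ (G : σ → Finset ι → ℝ), Ex w F (fun ω => G (τ ω) ω) =
      ∑ s ∈ F.powerset.image τ, Ex w F (fun ω => ind (τ (ω.filter (D s)) = s) * G s ω) := by
    intro G
    rw [← Ex_sum]
    refine Ex_congr fun ω hω => ?_
    rw [Finset.sum_eq_single_of_mem (τ ω)
      (Finset.mem_image_of_mem _ (Finset.mem_powerset.2 hω)), ind_pos, one_mul]
    · exact hτ _ _ fun e he => by simp [he]
    · intro s _ hs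
      rw [ind_neg, zero_mul]
      intro h
      refine hs (h.symm.trans (hτ _ _ fun e he => ?_).symm)
      rw [h] at he
      simp [he]
  rw [key (fun s ω => g s (ω.filter (fun e => ¬ D s e))),
    key (fun s _ => Ex w F (fun ω' => g s (ω'.filter (fun e => ¬ D s e))))]
  refine Finset.sum_congr rfl fun s _ => ?_
  rw [Ex_indep (D s) w F (fun ω => ind (τ ω = s)) (g s), Ex_mul_right]

/-- Weights after revealing the indices of `E` to be in state `ω`. -/
noncomputable def rev (w : ι → ℝ) (E ω : Finset ι) : ι → ℝ :=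
  fun e => if e ∈ E then (if e ∈ ω then 1 else 0) else w e

theorem Wt.rev (hw : Wt w) (E ω : Finset ι) : Wt (rev w E ω) := by
  intro e
  unfold Vale.Agent.P151.rev
  split_ifs
  · norm_num
  · norm_num
  · exact hw e

theorem Ex_det (ω : Finset ι) (h : ∀ e ∈ A, w e = if e ∈ ω then 1 else 0) :
    Ex w A f = f (ω ∩ A) := by
  induction A using Finset.induction_on generalizing f with
  | empty => simp
  | insert e A he ih =>
    have h' := fun g => @ih g fun x hx => h x (Finset.mem_insert_of_mem hx)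
    rw [Ex_insert he, h', h', h e (Finset.mem_insert_self _ _)]
    by_cases hω : e ∈ ω
    · simp [hω, Finset.inter_insert_of_mem hω]
    · simp [hω, Finset.inter_insert_of_notMem hω]

theorem Ex_rev_eq (E ω : Finset ι) :
    Ex (rev w E ω) F f = Ex w (F \ E) (fun b => f (ω ∩ (F ∩ E) ∪ b)) := by
  conv_lhs => rw [← Finset.sdiff_union_inter F E, Finset.union_comm]
  rw [Ex_union (Finset.disjoint_sdiff_inter F E).symm,
    Ex_det (w := rev w E ω) (A := F ∩ E) ω fun e he => if_pos (Finset.mem_inter.1 he).2]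
  exact Ex_congr_w fun e he => if_neg (Finset.mem_sdiff.1 he).2

/-- The tower property. -/
theorem Ex_tower (E : Finset ι) : Ex w F f = Ex w E (fun ω => Ex (rev w E ω) F f) := by
  simp only [Ex_rev_eq]
  rw [Ex_inter (A := F ∩ E) Finset.inter_subset_right w
    (fun a => Ex w (F \ E) (fun b => f (a ∪ b))), ← Ex_union (Finset.disjoint_sdiff_inter F E).symm,
    Finset.union_comm, Finset.sdiff_union_inter]

theorem Ex_all (h : A ⊆ F) (w : ι → ℝ) (f : Finset ι → ℝ) :
    Ex w F (fun ω => ind (A ⊆ ω) * f ω) = (∏ e ∈ A, w e) * Ex (rev w A A) F f := by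
  rw [Ex_tower A]
  have : ∀ ω ⊆ A, Ex (rev w A ω) F (fun ω => ind (A ⊆ ω) * f ω) =
      if ω = A then Ex (rev w A A) F f else 0 := by
    intro ω hω
    rw [Ex_rev_eq, Ex_rev_eq, Finset.inter_eq_right.2 h, Finset.inter_eq_left.2 hω,
      Finset.inter_self]
    split_ifs with h1
    · subst h1
      exact Ex_congr fun b _ => by rw [ind_pos Finset.subset_union_left, one_mul]
    · rw [← Ex_const w (F \ A) 0]
      refine Ex_congr fun b hb => ?_
      rw [ind_neg, zero_mul]
      intro h2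
      refine h1 (Finset.Subset.antisymm hω fun e he => ?_)
      exact (Finset.mem_union.1 (h2 he)).resolve_right fun h3 => (Finset.mem_sdiff.1 (hb h3)).2 he
  rw [Ex_congr this]
  unfold Ex
  rw [Finset.sum_eq_single_of_mem A (Finset.mem_powerset_self A)]
  · simp
  · intro ω _ hω; simp [hω]

theorem Ex_ge_empty (hw : Wt w) (h : ∀ ω ⊆ F, 0 ≤ f ω) :
    (∏ e ∈ F, (1 - w e)) * f ∅ ≤ Ex w F f := by
  have := Finset.single_le_sum (s := F.powerset)
    (f := fun ω => ((∏ e ∈ ω, w e) * ∏ e ∈ F \ ω, (1 - w e)) * f ω)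
    (fun ω hω => mul_nonneg (mul_nonneg (Finset.prod_nonneg fun e _ => (hw e).1)
      (Finset.prod_nonneg fun e _ => sub_nonneg.2 (hw e).2)) (h ω (Finset.mem_powerset.1 hω)))
    (Finset.empty_mem_powerset F)
  unfold Ex
  simpa using this

theorem Ex_lip (hw : Wt w) (hw' : Wt w') {t : ℝ} (h : ∀ e ∈ F, |w e - w' e| ≤ t)
    (hf : ∀ ω, 0 ≤ f ω ∧ f ω ≤ 1) : Ex w F f ≤ Ex w' F f + F.card * t := by
  induction F using Finset.induction_on generalizing f with
  | empty => simp
  | insert e F he ih =>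
    have h' : ∀ e ∈ F, |w e - w' e| ≤ t := fun x hx => h x (Finset.mem_insert_of_mem hx)
    have h1 := ih h' (f := fun ω => f (insert e ω)) fun _ => hf _
    have h2 := ih h' hf
    have h3 : 0 ≤ Ex w' F f ∧ Ex w' F f ≤ 1 :=
      ⟨Ex_nonneg hw' fun _ _ => (hf _).1, Ex_le hw' fun _ _ => (hf _).2⟩
    have h4 : 0 ≤ Ex w' F (fun ω => f (insert e ω)) ∧ Ex w' F (fun ω => f (insert e ω)) ≤ 1 :=
      ⟨Ex_nonneg hw' fun _ _ => (hf _).1, Ex_le hw' fun _ _ => (hf _).2⟩
    have h5 := hw e
    have h6 := h e (Finset.mem_insert_self _ _)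
    have h7 : (w e - w' e) * (Ex w' F (fun ω => f (insert e ω)) - Ex w' F f) ≤ t := by
      refine (le_abs_self _).trans ?_
      rw [abs_mul]
      refine (mul_le_of_le_one_right (abs_nonneg _) (abs_le.2 ⟨by linarith, by linarith⟩)).trans h6
    rw [Ex_insert he, Ex_insert he, Finset.card_insert_of_notMem he]
    push_cast
    nlinarith [mul_le_mul_of_nonneg_left h1 h5.1, mul_le_mul_of_nonneg_left h2 (sub_nonneg.2 h5.2)]

theorem Ex_image {κ : Type*} [DecidableEq κ] (φ : ι → κ) (hφ : Function.Injective φ)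
    (w : κ → ℝ) (F : Finset ι) (f : Finset κ → ℝ) :
    Ex w (F.image φ) f = Ex (fun e => w (φ e)) F (fun ω => f (ω.image φ)) := by
  induction F using Finset.induction_on generalizing f with
  | empty => simp
  | insert e F he ih =>
    rw [Finset.image_insert, Ex_insert (by simpa [hφ.eq_iff] using he), Ex_insert he, ih, ih]
    simp only [Finset.image_insert]

/-- Markov inequality for a function bounded by one. -/
theorem Ex_markov (hw : Wt w) {a b : ℝ} (hb : 0 < b) (hf : ∀ ω ⊆ F, f ω ≤ 1)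
    (h : 1 - a ≤ Ex w F f) : Ex w F (fun ω => ind (f ω < 1 - b)) ≤ a / b := by
  rw [le_div_iff₀ hb, ← Ex_mul_right]
  have : Ex w F (fun ω => ind (f ω < 1 - b) * b) ≤ Ex w F (fun ω => 1 - f ω) := by
    refine Ex_mono hw fun ω hω => ?_
    by_cases h1 : f ω < 1 - b
    · rw [ind_pos h1]; linarith
    · rw [ind_neg h1]; linarith [hf ω hω]
  rw [Ex_sub, Ex_const] at this
  linarith

/-- The square root trick. -/
theorem Ex_sqrt_trick (hw : Wt w) {κ : Type*} (I : Finset κ) (P : κ → Finset ι → Prop)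
    (hP : ∀ i, ∀ a b, a ⊆ b → P i a → P i b) {η : ℝ} (hη : 0 ≤ η)
    (h : ∀ i ∈ I, Ex w F (fun ω => ind (P i ω)) ≤ 1 - η) :
    Ex w F (fun ω => ind (∃ i ∈ I, P i ω)) ≤ 1 - η ^ I.card := by
  classical
  induction I using Finset.induction_on with
  | empty => simp [ind]
  | insert i I hi ih =>
    have h1 := ih fun j hj => h j (Finset.mem_insert_of_mem hj)
    have h2 := h i (Finset.mem_insert_self _ _)
    have h3 := Ex_fkg (F := F) hw (f := fun ω => ind (P i ω) - 1)
      (g := fun ω => ind (∃ i ∈ I, P i ω) - 1)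
      (fun a b hab => sub_le_sub_right (ind_mono (hP i a b hab)) _)
      (fun a b hab => sub_le_sub_right (ind_mono fun ⟨j, hj, h⟩ => ⟨j, hj, hP j a b hab h⟩) _)
    have h4 : Ex w F (fun ω => (ind (P i ω) - 1) * (ind (∃ i ∈ I, P i ω) - 1)) =
        1 - Ex w F (fun ω => ind (∃ j ∈ insert i I, P j ω)) := by
      rw [← Ex_ind_not]
      refine Ex_congr fun ω _ => ?_
      simp only [Finset.mem_insert, exists_eq_or_imp, not_or]
      rw [ind_and, ind_not, ind_not]; ring
    rw [h4, Ex_sub, Ex_sub, Ex_const] at h3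
    rw [Finset.card_insert_of_notMem hi, pow_succ]
    have h5 := pow_nonneg hη I.card
    nlinarith [mul_le_mul (show η ^ I.card ≤ 1 - Ex w F (fun ω => ind (∃ i ∈ I, P i ω)) by linarith)
      (show η ≤ 1 - Ex w F (fun ω => ind (P i ω)) by linarith) hη (by linarith)]

end Vale.Agent.P151
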