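import Vale.Agent.P151.Glue

/-! Auxiliary estimates for the extension lemma. -/

namespace Vale.Agent.P151

section
variable {ι : Type*} [DecidableEq ι] {w : ι → ℝ} {A B E G : Finset ι}

theorem Ex_comm (w w' : ι → ℝ) (f : Finset ι → Finset ι → ℝ) :
    Ex w A (fun a => Ex w' B (fun b => f a b)) = Ex w' B (fun b => Ex w A (fun a => f a b)) := by
  simp only [Ex, Finset.mul_sum]
  rw [Finset.sum_comm]
  exact Finset.sum_congr rfl fun _ _ => Finset.sum_congr rfl fun _ _ => by ring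

theorem Ex_sub_split (h : E ⊆ A) (f : Finset ι → ℝ) :
    Ex w A f = Ex w E (fun ξ => Ex w (A \ E) (fun a => f (ξ ∪ a))) := by
  rw [← Ex_union Finset.disjoint_sdiff, Finset.union_sdiff_of_subset h]

theorem Ex_rev_sub (h : E ⊆ A) {ξ : Finset ι} (hξ : ξ ⊆ E) (f : Finset ι → ℝ) :
    Ex (rev w E ξ) A f = Ex w (A \ E) (fun a => f (ξ ∪ a)) := by
  rw [Ex_rev_eq, Finset.inter_eq_right.2 h, Finset.inter_eq_left.2 hξ]

theorem closed_prob (hw : Wt w) (h : G ⊆ E) :
    ∏ e ∈ G, (1 - w e) ≤ Ex w E (fun b => ind (Disjoint b G)) := by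
  have h1 := Ex_inter h w (fun b => ind (b = ∅))
  have h2 := Ex_ge_empty (F := G) hw (f := fun b => ind (b = ∅)) fun _ _ => ind_nonneg _
  rw [ind_pos rfl, mul_one, ← h1] at h2
  simpa only [Finset.disjoint_iff_inter_eq_empty] using h2

theorem none_open {κ : Type*} [DecidableEq κ] (I : Finset κ) (s : κ → Finset ι)
    (hs : ∀ i ∈ I, s i ⊆ E) (hd : ∀ i ∈ I, ∀ j ∈ I, i ≠ j → Disjoint (s i) (s j)) :
    Ex w E (fun ξ => ind (∀ i ∈ I, ¬ s i ⊆ ξ)) = ∏ i ∈ I, (1 - ∏ e ∈ s i, w e) := by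
  induction I using Finset.induction_on generalizing w with
  | empty => simp [ind]
  | insert i I hi ih =>
    have ih' := fun w => @ih w (fun j hj => hs j (Finset.mem_insert_of_mem hj))
      fun j hj k hk => hd j (Finset.mem_insert_of_mem hj) k (Finset.mem_insert_of_mem hk)
    have h1 : Ex w E (fun ξ => ind (∀ j ∈ insert i I, ¬ s j ⊆ ξ)) =
        Ex w E (fun ξ => ind (∀ j ∈ I, ¬ s j ⊆ ξ) - ind (s i ⊆ ξ) * ind (∀ j ∈ I, ¬ s j ⊆ ξ)) := by
      refine Ex_congr fun ξ _ => ?_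
      rw [Finset.forall_mem_insert, ind_and, ind_not]; ring
    have h2 : ∏ j ∈ I, (1 - ∏ e ∈ s j, rev w (s i) (s i) e) = ∏ j ∈ I, (1 - ∏ e ∈ s j, w e) := by
      refine Finset.prod_congr rfl fun j hj => ?_
      congr 1
      refine Finset.prod_congr rfl fun e he => if_neg fun h => ?_
      exact Finset.disjoint_left.1 (hd i (Finset.mem_insert_self _ _) j
        (Finset.mem_insert_of_mem hj) fun h => hi (h ▸ hj)) h he
    rw [h1, Ex_sub, Ex_all (hs i (Finset.mem_insert_self _ _)), ih', ih', Finset.prod_insert hi, h2]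
    ring

theorem prod_one_sub_le {κ : Type*} (I : Finset κ) (c : κ → ℝ) (h : ∀ i ∈ I, 0 ≤ c i ∧ c i ≤ 1) :
    (∏ i ∈ I, (1 - c i)) * (1 + ∑ i ∈ I, c i) ≤ 1 := by
  classical
  induction I using Finset.induction_on with
  | empty => simp
  | insert i I hi ih =>
    have h1 := ih fun j hj => h j (Finset.mem_insert_of_mem hj)
    have h2 := h i (Finset.mem_insert_self _ _)
    have h3 : 0 ≤ ∏ i ∈ I, (1 - c i) :=
      Finset.prod_nonneg fun j hj => sub_nonneg.2 (h j (Finset.mem_insert_of_mem hj)).2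
    have h4 : 0 ≤ ∑ i ∈ I, c i :=
      Finset.sum_nonneg fun j hj => (h j (Finset.mem_insert_of_mem hj)).1
    rw [Finset.prod_insert hi, Finset.sum_insert hi]
    nlinarith [mul_nonneg h3 (mul_nonneg h2.1 h2.1), mul_nonneg h3 (mul_nonneg h2.1 h4)]

theorem greedy {κ : Type*} [DecidableEq κ] (N : κ → Finset κ) (c : κ → ℝ) (B : ℕ) (q : ℝ)
    (hB0 : 0 < B) (hN : ∀ v, v ∈ N v) (hB : ∀ v, (N v).card ≤ B)
    (hsym : ∀ u v, u ∈ N v → v ∈ N u) (k : ℕ) :
    ∀ (s : ℝ) (R : Finset κ), 0 ≤ s → s ≤ k * q → k * B ≤ R.card →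
      (∀ v ∈ R, q ≤ c v ∧ c v ≤ 1) → ∃ I ⊆ R, (∀ u ∈ I, ∀ v ∈ I, u ≠ v → u ∉ N v) ∧
        s ≤ ∑ v ∈ I, c v ∧ ∑ v ∈ I, c v ≤ s + 1 := by
  induction k with
  | zero => intro s R h0 h1 _ _; exact ⟨∅, by simp, by simp, by simpa using h1, by simp; linarith⟩
  | succ k ih =>
    intro s R h0 h1 h2 h3
    rcases R.eq_empty_or_nonempty with rfl | ⟨v, hv⟩
    · simp at h2; omega
    · by_cases h4 : s ≤ c v
      · exact ⟨{v}, by simpa using hv, by simp, by simpa using h4,
          by simp; linarith [(h3 v hv).2]⟩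
      · obtain ⟨I, hI, h5, h6, h7⟩ := ih (s - c v) (R \ N v) (by linarith)
          (by push_cast at h1; linarith [(h3 v hv).1])
          (by have := Finset.le_card_sdiff (N v) R; have := hB v; rw [add_mul] at h2; omega)
          fun x hx => h3 x (Finset.mem_sdiff.1 hx).1
        have hvI : v ∉ I := fun h => (Finset.mem_sdiff.1 (hI h)).2 (hN v)
        refine ⟨insert v I, Finset.insert_subset hv (hI.trans Finset.sdiff_subset), ?_,
          by rw [Finset.sum_insert hvI]; linarith, by rw [Finset.sum_insert hvI]; linarith⟩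
        intro x hx y hy hxy
        rcases Finset.mem_insert.1 hx with rfl | hx' <;> rcases Finset.mem_insert.1 hy with rfl | hy'
        · exact (hxy rfl).elim
        · exact fun h => (Finset.mem_sdiff.1 (hI hy')).2 (hsym _ _ h)
        · exact (Finset.mem_sdiff.1 (hI hx')).2
        · exact h5 x hx' y hy' hxy

end

variable {V : Type*} [DecidableEq V] {w : Sym2 V → ℝ} {F ω : Finset (Sym2 V)} {o : V}
  {A T : Set V}

open Classical in
/-- The points of `A` that can be reached from `o` by edges of `F`. -/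
noncomputable def fin (F : Finset (Sym2 V)) (o : V) (A : Set V) : Finset V :=
  (insert o (F.biUnion Sym2.toFinset)).filter (fun v => v ∈ A)

theorem fin_subset : (fin F o A : Set V) ⊆ A := fun v hv => by
  classical
  exact (Finset.mem_filter.1 hv).2

theorem mem_Cl_fin (hω : ω ⊆ F) (h : o ∈ Cl ω A) : o ∈ Cl ω (fin F o A) := by
  classical
  obtain ⟨a, ha, h1⟩ := h
  refine ⟨a, Finset.mem_filter.2 ⟨?_, ha⟩, h1⟩
  exact h1.symm.closed (P := fun v => v ∈ insert o (F.biUnion Sym2.toFinset))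
    (Finset.mem_insert_self _ _) fun x y _ h2 => Finset.mem_insert_of_mem
      (Finset.mem_biUnion.2 ⟨_, hω h2, by simp⟩)

theorem glue_set (hw : Wt w) {b : ℝ} (hb : 0 ≤ b)
    (hA : ∀ a ∈ A, 1 - b ≤ Ex w F (hit a T)) : Ex w F (hit o A) - b ≤ Ex w F (hit o T) :=
  (sub_le_sub_right (Ex_mono hw fun _ hω => ind_mono (mem_Cl_fin hω)) b).trans
    (glue hw hb (fin F o A) fun a ha => hA a (fin_subset ha))

end Vale.Agent.P151
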