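import Mathlib

/-! Bernoulli bond percolation: the definitions used in the statements. -/

namespace Vale.Agent.P151

/-- The open cluster of `x` when `ω` is the set of open edges. -/
def cluster {V : Type*} (ω : Set (Sym2 V)) (x : V) : Set V :=
  {y | (SimpleGraph.fromEdgeSet ω).Reachable x y}

/-- The event that some open cluster is infinite. -/
def HasInfiniteCluster (V : Type*) : Set (Set (Sym2 V)) := {ω | ∃ x, (cluster ω x).Infinite}

/-- The critical parameter of Bernoulli bond percolation on `G`. -/
noncomputable def pc {V : Type*} (G : SimpleGraph V) : unitInterval :=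
  sInf {p : unitInterval | 0 < ProbabilityTheory.setBernoulli G.edgeSet p (HasInfiniteCluster V)}

/-- The nearest-neighbour graph on the lattice of dimension `d`. -/
def Zd (d : ℕ) : SimpleGraph (Fin d → ℤ) :=
  SimpleGraph.fromRel (fun x y => ∃ i, y = x + Pi.single i 1)

end Vale.Agent.P151
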