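import Vale.Agent.P151.Defs
import Vale.Agent.P151.Stmt

/-! From the finite sums to the product measure, and the final statements. -/

namespace Vale.Agent.P151

open MeasureTheory ProbabilityTheory

section Bridge

variable {ι : Type*} [DecidableEq ι]

open Classical in
/-- The trace of a configuration on a finite set. -/
noncomputable def fnTr (F : Finset ι) (ω : Set ι) : Finset ι := F.filter (fun e => e ∈ ω)

omit [DecidableEq ι] in
theorem mem_fnTr {F : Finset ι} {ω : Set ι} {e : ι} : e ∈ fnTr F ω ↔ e ∈ F ∧ e ∈ ω := by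
  classical
  simp [fnTr]

omit [DecidableEq ι] in
theorem fnTr_eq_iff {F ξ : Finset ι} (hξ : ξ ⊆ F) {ω : Set ι} :
    fnTr F ω = ξ ↔ ∀ e ∈ F, (e ∈ ω ↔ e ∈ ξ) := by
  constructor
  · rintro rfl e he
    simp [mem_fnTr, he]
  · intro h
    ext e
    rw [mem_fnTr]
    exact ⟨fun h1 => (h e h1.1).1 h1.2, fun h1 => ⟨hξ h1, (h e (hξ h1)).2 h1⟩⟩

omit [DecidableEq ι] in
theorem fn_meas_atom {F ξ : Finset ι} (hξ : ξ ⊆ F) :
    MeasurableSet {ω : Set ι | fnTr F ω = ξ} := by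
  have : {ω : Set ι | fnTr F ω = ξ} = ⋂ e ∈ F, {ω : Set ι | e ∈ ω ↔ e ∈ ξ} := by
    ext ω
    simp [fnTr_eq_iff hξ]
  rw [this]
  refine Finset.measurableSet_biInter _ fun e _ => ?_
  by_cases he : e ∈ ξ
  · simpa [he] using measurableSet_mem e
  · simpa [he] using measurableSet_notMem e

theorem fn_real_atom {F ξ : Finset ι} (hξ : ξ ⊆ F) {s : Set ι} (hF : ∀ e ∈ F, e ∈ s)
    (p : unitInterval) :
    (setBernoulli s p).real {ω : Set ι | fnTr F ω = ξ} =
      (∏ _e ∈ ξ, (p : ℝ)) * ∏ _e ∈ F \ ξ, (1 - (p : ℝ)) := by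
  have h1 : (fun q : ι → Prop => {i | q i}) ⁻¹' {ω : Set ι | fnTr F ω = ξ} =
      Set.pi (↑F) (fun e => ({e ∈ ξ} : Set Prop)) := by
    ext q
    simp [fnTr_eq_iff hξ]
  rw [measureReal_def, setBernoulli_apply', h1,
    Measure.infinitePi_pi _ (fun _ _ => MeasurableSet.of_discrete), ENNReal.toReal_prod,
    ← Finset.prod_sdiff hξ, mul_comm]
  congr 1
  · refine Finset.prod_congr rfl fun e he => ?_
    simp [he, hF e (hξ he)]
  · refine Finset.prod_congr rfl fun e he => ?_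
    have h2 := Finset.mem_sdiff.1 he
    simp [h2.2, hF e h2.1]

omit [DecidableEq ι] in
theorem fn_event_eq (F : Finset ι) (P : Finset ι → Prop) [DecidablePred P] :
    {ω : Set ι | P (fnTr F ω)} = ⋃ ξ ∈ F.powerset.filter P, {ω : Set ι | fnTr F ω = ξ} := by
  ext ω
  simp only [Set.mem_ofPred_eq, Finset.mem_filter, Finset.mem_powerset, Set.mem_iUnion]
  exact ⟨fun h => ⟨_, ⟨fun e he => (mem_fnTr.1 he).1, h⟩, rfl⟩, fun ⟨ξ, h, h'⟩ => h' ▸ h.2⟩

omit [DecidableEq ι] in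
theorem fn_meas (F : Finset ι) (P : Finset ι → Prop) :
    MeasurableSet {ω : Set ι | P (fnTr F ω)} := by
  classical
  rw [fn_event_eq]
  exact Finset.measurableSet_biUnion _ fun ξ hξ =>
    fn_meas_atom (Finset.mem_powerset.1 (Finset.mem_filter.1 hξ).1)

theorem fn_bridge {F : Finset ι} {s : Set ι} (hF : ∀ e ∈ F, e ∈ s) (p : unitInterval)
    (P : Finset ι → Prop) :
    (setBernoulli s p).real {ω : Set ι | P (fnTr F ω)} =
      Ex (fun _ => (p : ℝ)) F (fun ω => ind (P ω)) := by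
  classical
  rw [fn_event_eq, measureReal_biUnion_finset, Finset.sum_filter, Ex]
  · refine Finset.sum_congr rfl fun ξ hξ => ?_
    by_cases h : P ξ
    · rw [if_pos h, ind_pos h, mul_one, fn_real_atom (Finset.mem_powerset.1 hξ) hF]
    · rw [if_neg h, ind_neg h, mul_zero]
  · intro a _ b _ hab
    exact Set.disjoint_left.2 fun ω h1 h2 => hab (h1.symm.trans h2)
  · exact fun ξ hξ => fn_meas_atom (Finset.mem_powerset.1 (Finset.mem_filter.1 hξ).1)

end Bridge

section Exit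

variable {V : Type*} [DecidableEq V] {nb : V → Finset V} {Δ R : ℕ} {o : V}

/-- The event that `o` is joined to the outside of the ball of radius `R`. -/
def fnOut (nb : V → Finset V) (o : V) (R : ℕ) : Set (Set (Sym2 V)) :=
  {ω | o ∈ Cl (fnTr (inE nb (ball nb (R + 1) o)) ω) (↑(ball nb R o) : Set V)ᶜ}

theorem fn_exit (h : Nb nb Δ) {ω ω' : Set (Sym2 V)} (hω : ∀ e ∈ ω, IsE nb e) (hs : ω ⊆ ω') {v : V}
    (hv : Relation.ReflTransGen (fun x y => s(x, y) ∈ ω) o v) (hR : v ∉ ball nb R o) :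
    ω' ∈ fnOut nb o R := by
  by_contra hc
  have key : v ∈ ball nb R o ∧ Conn (fnTr (inE nb (ball nb (R + 1) o)) ω') o v := by
    clear hR
    induction hv with
    | refl => exact ⟨mem_ball_self, Conn.refl _ _⟩
    | @tail x y _ h2 ih =>
      have h3 : y ∈ nb x := (isE_mk h).1 (hω _ h2)
      have h4 : Conn (fnTr (inE nb (ball nb (R + 1) o)) ω') o y :=
        ih.2.tail (mem_fnTr.2 ⟨mem_inE.2
          ⟨x, ball_le (Nat.le_succ R) ih.1, y, ball_step ih.1 h3, h3, rfl⟩, hs h2⟩)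
      refine ⟨by_contra fun h5 => hc ⟨y, h5, h4.symm⟩, h4⟩
  exact hR key.1

theorem fn_exit_tr (h : Nb nb Δ) {F : Finset (Sym2 V)} (hF : ∀ e ∈ F, IsE nb e)
    {ω : Set (Sym2 V)} (hω : o ∈ Cl (fnTr F ω) (↑(ball nb R o) : Set V)ᶜ) : ω ∈ fnOut nb o R := by
  obtain ⟨v, hv, h1⟩ := hω
  exact fn_exit h (ω := ↑(fnTr F ω)) (fun e he => hF e (mem_fnTr.1 he).1)
    (fun e he => (mem_fnTr.1 he).2) h1.symm hv

theorem fnOut_anti (h : Nb nb Δ) : Antitone (fnOut nb o) :=
  antitone_nat_of_succ_le fun R _ hω => fn_exit_tr h (fun _ he => isE_of_mem_inE he)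
    (Cl_mono subset_rfl (Set.compl_subset_compl.2 (ball_le (Nat.le_succ R))) hω)

omit [DecidableEq V] in
theorem fn_reach {F : Finset (Sym2 V)} {ω : Set (Sym2 V)} {a b : V} (h : Conn (fnTr F ω) a b) :
    (SimpleGraph.fromEdgeSet ω).Reachable a b := by
  induction h with
  | refl => rfl
  | @tail x y _ h2 ih =>
    by_cases hxy : x = y
    · exact hxy ▸ ih
    · exact ih.trans (SimpleGraph.Adj.reachable
        ((SimpleGraph.fromEdgeSet_adj _).2 ⟨(mem_fnTr.1 h2).2, hxy⟩))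

theorem fn_infinite (hc : ∀ u, ∃ n, u ∈ ball nb n o) {ω : Set (Sym2 V)}
    (hω : ∀ R, ω ∈ fnOut nb o R) : (cluster ω o).Infinite := by
  intro hf
  choose n hn using hc
  obtain ⟨R, hR⟩ := (hf.image n).bddAbove
  obtain ⟨v, hv, h1⟩ := hω R
  exact hv (ball_le (hR ⟨v, fn_reach h1.symm, rfl⟩) (hn v))

theorem fn_out_of_infinite (h : Nb nb Δ) {ω : Set (Sym2 V)} (hω : ∀ e ∈ ω, IsE nb e)
    (hi : (cluster ω o).Infinite) : ω ∈ fnOut nb o R := by
  obtain ⟨v, hv, h1⟩ := hi.exists_notMem_finset (ball nb R o)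
  refine fn_exit h hω subset_rfl ?_ h1
  exact Relation.ReflTransGen.mono (fun a b hab => ((SimpleGraph.fromEdgeSet_adj ω).1 hab).1)
    _ _ ((SimpleGraph.reachable_iff_reflTransGen _ _).1 hv)

variable {s : Set (Sym2 V)}

theorem fn_far [Countable V] (h : Nb nb Δ) (hs : ∀ e, e ∈ s ↔ IsE nb e) (p : unitInterval) :
    Far nb o (fun _ => (p : ℝ)) ((setBernoulli s p).real {ω | (cluster ω o).Infinite}) := by
  intro R
  refine ⟨inE nb (ball nb (R + 1) o), fun _ he => isE_of_mem_inE he, ?_⟩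
  have h1 := fn_bridge (F := inE nb (ball nb (R + 1) o)) (s := s)
    (fun _ he => (hs _).2 (isE_of_mem_inE he)) p (fun ξ => o ∈ Cl ξ (↑(ball nb R o) : Set V)ᶜ)
  refine le_trans ?_ h1.le
  refine ENNReal.toReal_mono (measure_ne_top _ _) (measure_mono_ae ?_)
  filter_upwards [setBernoulli_ae_subset (u := s) (p := p)] with ω hω hi
  exact fn_out_of_infinite h (fun e he => (hs e).1 (hω he)) hi

theorem fn_pos (h : Nb nb Δ) (hs : ∀ e, e ∈ s ↔ IsE nb e) (hc : ∀ u, ∃ n, u ∈ ball nb n o)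
    (p : unitInterval) {c : ℝ} (hc0 : 0 < c) (hf : Far nb o (fun _ => (p : ℝ)) c) :
    0 < setBernoulli s p (HasInfiniteCluster V) := by
  have h1 : ∀ R, ENNReal.ofReal c ≤ setBernoulli s p (fnOut nb o R) := by
    intro R
    obtain ⟨F, hF, h2⟩ := hf R
    have h3 := fn_bridge (F := F) (s := s) (fun e he => (hs _).2 (hF e he)) p
      (fun ξ => o ∈ Cl ξ (↑(ball nb R o) : Set V)ᶜ)
    refine ENNReal.ofReal_le_of_le_toReal (h2.trans (h3.ge.trans ?_))
    exact measureReal_mono (fun ω hω => fn_exit_tr h hF hω)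
  have h2 := tendsto_measure_iInter_atTop (μ := setBernoulli s p) (s := fnOut nb o)
    (fun R => (fn_meas (inE nb (ball nb (R + 1) o))
      (fun ξ => o ∈ Cl ξ (↑(ball nb R o) : Set V)ᶜ)).nullMeasurableSet)
    (fnOut_anti h) ⟨0, measure_ne_top _ _⟩
  refine (ENNReal.ofReal_pos.2 hc0).trans_le ((ge_of_tendsto' h2 h1).trans (measure_mono ?_))
  exact fun ω hω => ⟨o, fn_infinite hc (Set.mem_iInter.1 hω)⟩

end Exit

section Build

variable {V Γ : Type*} [Group Γ] [MulAction Γ V]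

theorem fn_bdd (hqt : Finite (MulAction.orbitRel.Quotient Γ V)) (Q : ℕ → V → Prop)
    (hm : ∀ m n v, m ≤ n → Q m v → Q n v) (hQ : ∀ v, ∃ n, Q n v)
    (hs : ∀ (γ : Γ) n v, Q n v → Q n (γ • v)) : ∃ n, ∀ v, Q n v := by
  choose n hn using hQ
  obtain ⟨N, hN⟩ := (Set.finite_range
    (fun q : MulAction.orbitRel.Quotient Γ V => n (Quotient.out q))).bddAbove
  refine ⟨N, fun v => ?_⟩
  obtain ⟨γ, hγ⟩ : v ∈ MulAction.orbit Γ
      (Quotient.out (Quotient.mk (MulAction.orbitRel Γ V) v)) :=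
    MulAction.orbitRel_apply.1 (Quotient.exact (Quotient.out_eq _).symm)
  rw [← hγ]
  exact hs γ _ _ (hm _ _ _ (hN ⟨_, rfl⟩) (hn _))

theorem fn_ball_smul [DecidableEq V] {nb : V → Finset V}
    (act : ∀ (γ : Γ) a b, b ∈ nb a → γ • b ∈ nb (γ • a)) (γ : Γ) {n : ℕ} {u v : V}
    (h : v ∈ ball nb n u) : γ • v ∈ ball nb n (γ • u) := by
  induction n generalizing v with
  | zero => rw [mem_ball_zero.1 h]; exact mem_ball_self
  | succ n ih =>
    rcases mem_ball_succ.1 h with h1 | ⟨a, ha, h1⟩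
    · exact ball_le (Nat.le_succ n) (ih h1)
    · exact ball_step (ih ha) (act γ _ _ h1)

theorem fn_conn [DecidableEq V] (G : SimpleGraph V) [G.LocallyFinite] (hG : G.Connected)
    (o u : V) : ∃ n, u ∈ ball (fun v => G.neighborFinset v) n o := by
  have h := (SimpleGraph.reachable_iff_reflTransGen _ _).1 (hG.preconnected o u)
  induction h with
  | refl => exact ⟨0, mem_ball_self⟩
  | tail _ h2 ih =>
    obtain ⟨n, hn⟩ := ih
    exact ⟨n + 1, ball_step hn ((G.mem_neighborFinset _ _).2 h2)⟩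

theorem fn_setup [DecidableEq V] (G : SimpleGraph V) [G.LocallyFinite] (hG : G.Connected)
    (hact : ∀ (γ : Γ) a b, G.Adj a b → G.Adj (γ • a) (γ • b))
    (hqt : Finite (MulAction.orbitRel.Quotient Γ V)) (π : V → ℝ × ℝ) (τ : Γ → ℝ × ℝ)
    (hπ : ∀ γ v, π (γ • v) = π v + τ γ) (hrank : ∃ γ₁ γ₂, LinearIndependent ℝ ![τ γ₁, τ γ₂])
    (o : V) : ∃ S : Setup V Γ, S.nb = (fun v => G.neighborFinset v) ∧ S.o = o := by
  set nb : V → Finset V := fun v => G.neighborFinset v with hnb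
  have act : ∀ (γ : Γ) a b, b ∈ nb a → γ • b ∈ nb (γ • a) := fun γ a b h =>
    (G.mem_neighborFinset _ _).2 (hact γ a b ((G.mem_neighborFinset _ _).1 h))
  have act' : ∀ (γ : Γ) a b, b ∈ nb (γ • a) → γ⁻¹ • b ∈ nb a := fun γ a b h => by
    simpa using act γ⁻¹ _ _ h
  obtain ⟨Δ, hΔ⟩ := fn_bdd hqt (fun n v => (nb v).card ≤ n) (fun _ _ _ h h' => h'.trans h)
    (fun v => ⟨_, le_rfl⟩) (fun γ n v h => le_trans (Finset.card_le_card_of_injOn (fun b => γ⁻¹ • b)
      (fun b hb => act' γ v b hb) (MulAction.injective _).injOn) h)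
  obtain ⟨D₀, hD₀⟩ := fn_bdd hqt (fun n v => ∃ γ : Γ, v ∈ ball nb n (γ • o))
    (fun _ _ _ h ⟨γ, h'⟩ => ⟨γ, ball_le h h'⟩)
    (fun v => let ⟨n, hn⟩ := fn_conn G hG o v; ⟨n, 1, by rwa [one_smul]⟩)
    (fun γ n v ⟨γ', h⟩ => ⟨γ * γ', by rw [mul_smul]; exact fn_ball_smul act γ h⟩)
  obtain ⟨D, hD⟩ := fn_bdd hqt (fun n v => ∀ b ∈ nb v, ‖π b - π v‖ ≤ n)
    (fun _ _ _ h h' b hb => (h' b hb).trans (Nat.cast_le.2 h))
    (fun v => by
      obtain ⟨c, hc⟩ := ((nb v).finite_toSet.image (fun b => ‖π b - π v‖)).bddAbove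
      exact ⟨⌈c⌉₊, fun b hb => (hc ⟨b, hb, rfl⟩).trans (Nat.le_ceil c)⟩)
    (fun γ n v h b hb => by
      have h1 := hπ γ (γ⁻¹ • b)
      rw [smul_inv_smul] at h1
      rw [h1, hπ γ v, add_sub_add_right_eq_sub]
      exact h _ (act' γ v b hb))
  obtain ⟨γ₁, γ₂, hγ⟩ := hrank
  refine ⟨{ nb := nb, Δ := Δ, hnb := ⟨fun a b h => ?_, hΔ⟩, act := act, o := o, D₀ := D₀,
            near := hD₀, conn := fn_conn G hG o, X := fun v => (π v).1 - (π o).1,
            Y := fun v => (π v).2 - (π o).2, hX := fun γ v => ?_, hY := fun γ v => ?_, D := D,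
            lipX := fun a b h => ?_, lipY := fun a b h => ?_, γ₁ := γ₁, γ₂ := γ₂, rank := ?_ },
          rfl, rfl⟩
  · exact (G.mem_neighborFinset _ _).2 ((G.mem_neighborFinset _ _).1 h).symm
  · simp only [hπ, Prod.fst_add]; ring
  · simp only [hπ, Prod.snd_add]; ring
  · rw [sub_sub_sub_cancel_right]
    exact (norm_fst_le (π b - π a)).trans (hD a b h)
  · rw [sub_sub_sub_cancel_right]
    exact (norm_snd_le (π b - π a)).trans (hD a b h)
  · simp only [hπ, Prod.fst_add, Prod.snd_add, add_sub_cancel_left]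
    intro h0
    rw [LinearIndependent.pair_iff] at hγ
    have h1 := hγ (τ γ₂).2 (-(τ γ₁).2) (Prod.ext (by simp; linarith) (by simp; ring))
    have h2 := hγ (τ γ₂).1 (-(τ γ₁).1) (Prod.ext (by simp; ring) (by simp; linarith))
    have h3 := hγ 1 0 (Prod.ext (by simpa using h2.2) (by simpa using h1.2))
    exact one_ne_zero h3.1

theorem final_of_core (hcore : ∀ [DecidableEq V], Core V Γ) (G : SimpleGraph V) [G.LocallyFinite]
    (hG : G.Connected) (hact : ∀ (γ : Γ) a b, G.Adj a b → G.Adj (γ • a) (γ • b))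
    (hqt : Finite (MulAction.orbitRel.Quotient Γ V)) (π : V → ℝ × ℝ) (τ : Γ → ℝ × ℝ)
    (hπ : ∀ γ v, π (γ • v) = π v + τ γ) (hrank : ∃ γ₁ γ₂, LinearIndependent ℝ ![τ γ₁, τ γ₂]) :
    pc G < 1 ∧ setBernoulli G.edgeSet (pc G) (HasInfiniteCluster V) = 0 := by
  classical
  obtain ⟨o₀⟩ := hG.nonempty
  have hs : ∀ e, e ∈ G.edgeSet ↔ IsE (fun v => G.neighborFinset v) e := by
    intro e
    induction e using Sym2.ind with
    | h a b =>
      refine ⟨fun h => ⟨a, b, (G.mem_neighborFinset _ _).2 h, rfl⟩, fun ⟨x, y, h, h'⟩ => ?_⟩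
      rw [h']
      exact (G.mem_neighborFinset _ _).1 h
  have hV : Countable V := by
    refine Set.countable_univ_iff.1 ((Set.countable_iUnion fun n : ℕ =>
      (ball (fun v => G.neighborFinset v) n o₀).countable_toSet).mono fun u _ => ?_)
    exact Set.mem_iUnion.2 (fn_conn G hG o₀ u)
  have hle : ∀ (S : Setup V Γ), S.nb = (fun v => G.neighborFinset v) → ∀ (p c : ℝ) (h0 : 0 ≤ p)
      (h1 : p ≤ 1), 0 < c → Far S.nb S.o (fun _ => p) c → (pc G : ℝ) ≤ p := by
    intro S hS p c h0 h1 hc hf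
    have : pc G ≤ ⟨p, h0, h1⟩ :=
      sInf_le (fn_pos S.hnb (by rw [hS]; exact hs) S.conn ⟨p, h0, h1⟩ hc hf)
    exact this
  have hlt : (pc G : ℝ) < 1 := by
    obtain ⟨S, hS, -⟩ := fn_setup G hG hact hqt π τ hπ hrank o₀
    obtain ⟨p, c, h0, h1, hc, hf⟩ := (hcore S).2
    exact (hle S hS p c h0 h1.le hc hf).trans_lt h1
  refine ⟨hlt, ?_⟩
  have hU : HasInfiniteCluster V = ⋃ o, {ω | (cluster ω o).Infinite} := by
    ext ω
    simp [HasInfiniteCluster]
  rw [hU, measure_iUnion_null_iff]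
  intro o
  by_contra h0
  obtain ⟨S, hS, rfl⟩ := fn_setup G hG hact hqt π τ hπ hrank o
  obtain ⟨p, c, h1, h2, hc, hf⟩ := (hcore S).1 (pc G) _ (pc G).2.1 hlt
    (ENNReal.toReal_pos h0 (measure_ne_top _ _)) (fn_far S.hnb (by rw [hS]; exact hs) (pc G))
  exact (hle S hS p c h1 (h2.le.trans hlt.le) hc hf).not_gt h2

/-- The version with a homomorphism to the plane which is trivial on the vertex stabilisers. -/
theorem final_of_hom (hcore : ∀ [DecidableEq V], Core V Γ) (G : SimpleGraph V) [G.LocallyFinite]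
    (hG : G.Connected) (hact : ∀ (γ : Γ) a b, G.Adj a b → G.Adj (γ • a) (γ • b))
    (hqt : Finite (MulAction.orbitRel.Quotient Γ V)) (φ : Γ →* Multiplicative (ℝ × ℝ))
    (hφ : ∀ (γ : Γ) (v : V), γ • v = v → φ γ = 1)
    (hrank : ∃ γ₁ γ₂, LinearIndependent ℝ ![(φ γ₁).toAdd, (φ γ₂).toAdd]) :
    pc G < 1 ∧ setBernoulli G.edgeSet (pc G) (HasInfiniteCluster V) = 0 := by
  have h : ∀ v : V, ∃ γ : Γ, γ • Quotient.out (Quotient.mk (MulAction.orbitRel Γ V) v) = v :=
    fun v => MulAction.orbitRel_apply.1 (Quotient.exact (Quotient.out_eq _).symm)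
  choose g hg using h
  refine final_of_core hcore G hG hact hqt (fun v => (φ (g v)).toAdd) (fun γ => (φ γ).toAdd)
    (fun γ v => ?_) hrank
  have h1 : Quotient.mk (MulAction.orbitRel Γ V) (γ • v) = Quotient.mk (MulAction.orbitRel Γ V) v :=
    Quotient.sound (MulAction.orbitRel_apply.2 ⟨γ, rfl⟩)
  have h2 := hg (γ • v)
  rw [h1] at h2
  have h3 := hφ ((γ * g v)⁻¹ * g (γ • v)) (Quotient.out (Quotient.mk (MulAction.orbitRel Γ V) v))
    (by rw [mul_smul, h2, inv_smul_eq_iff, mul_smul, hg])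
  rw [map_mul, map_inv, inv_mul_eq_one, map_mul] at h3
  rw [← h3, toAdd_mul, add_comm]

/-- The elements moving `o` inside its component form a subgroup. -/
def fnComp (G : SimpleGraph V) (hact : ∀ (γ : Γ) a b, G.Adj a b → G.Adj (γ • a) (γ • b))
    (o : V) : Subgroup Γ where
  carrier := {γ | G.Reachable o (γ • o)}
  one_mem' := by simp
  mul_mem' := fun {a b} ha hb => by
    have h := SimpleGraph.Reachable.map (G := G) (G' := G) ⟨fun v => a • v, hact a _ _⟩ hb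
    exact SimpleGraph.Reachable.trans ha (by rw [mul_smul]; exact h)
  inv_mem' := fun {a} ha => by
    have h : G.Reachable (a⁻¹ • o) (a⁻¹ • a • o) :=
      SimpleGraph.Reachable.map (G := G) (G' := G) ⟨fun v => a⁻¹ • v, hact a⁻¹ _ _⟩ ha
    rw [inv_smul_smul] at h
    exact h.symm

end Build

theorem fn_cayley_lf {Γ : Type*} [Group Γ] {S : Set Γ} (hS : S.Finite) (v : Γ) :
    ((SimpleGraph.mulCayley S).neighborSet v).Finite := by
  refine ((hS.image (fun g => v * g)).union (hS.image (fun g => v * g⁻¹))).subset ?_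
  rintro u hu
  obtain ⟨-, g, hg, h | h⟩ := (SimpleGraph.mulCayley_adj' S v u).1 hu
  · exact Or.inl ⟨g, hg, h⟩
  · exact Or.inr ⟨g, hg, by simp [h]⟩

theorem fn_cayley_conn {Γ : Type*} [Group Γ] {S : Set Γ} (hgen : Subgroup.closure S = ⊤) :
    (SimpleGraph.mulCayley S).Connected := by
  have hact : ∀ (γ a b : Γ), (SimpleGraph.mulCayley S).Adj a b →
      (SimpleGraph.mulCayley S).Adj (γ • a) (γ • b) := fun γ a b h =>
    SimpleGraph.mulCayley_adj_mul_iff_right.2 h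
  have hre : ∀ γ : Γ, (SimpleGraph.mulCayley S).Reachable 1 γ := by
    intro γ
    have h : Subgroup.closure S ≤ fnComp _ hact 1 := by
      rw [Subgroup.closure_le]
      intro g hg
      change (SimpleGraph.mulCayley S).Reachable 1 (g * 1)
      rw [mul_one]
      by_cases h1 : (1 : Γ) = g
      · rw [← h1]
      · exact SimpleGraph.Adj.reachable
          ((SimpleGraph.mulCayley_adj' S 1 g).2 ⟨h1, g, hg, Or.inl (one_mul g)⟩)
    have h2 : (SimpleGraph.mulCayley S).Reachable 1 (γ * 1) := h (hgen ▸ Subgroup.mem_top γ)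
    rwa [mul_one] at h2
  exact ⟨fun a b => (hre a).symm.trans (hre b)⟩

theorem final_cayley {Γ : Type*} [Group Γ] (hcore : ∀ [DecidableEq Γ], Core Γ Γ) (S : Set Γ)
    (hS : S.Finite) (hgen : Subgroup.closure S = ⊤) (φ : Γ →* Multiplicative (ℤ × ℤ))
    (hφ : Function.Surjective φ) :
    pc (SimpleGraph.mulCayley S) < 1 ∧
      setBernoulli (SimpleGraph.mulCayley S).edgeSet (pc (SimpleGraph.mulCayley S))
        (HasInfiniteCluster Γ) = 0 := by
  have : (SimpleGraph.mulCayley S).LocallyFinite := fun v => (fn_cayley_lf hS v).fintype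
  obtain ⟨γ₁, h₁⟩ := hφ (Multiplicative.ofAdd (1, 0))
  obtain ⟨γ₂, h₂⟩ := hφ (Multiplicative.ofAdd (0, 1))
  refine final_of_core (Γ := Γ) hcore _ (fn_cayley_conn hgen)
    (fun γ a b h => SimpleGraph.mulCayley_adj_mul_iff_right.2 h) ?_
    (fun v => (((φ v).toAdd.1 : ℝ), ((φ v).toAdd.2 : ℝ)))
    (fun v => (((φ v).toAdd.1 : ℝ), ((φ v).toAdd.2 : ℝ))) (fun γ v => ?_) ⟨γ₁, γ₂, ?_⟩
  · have := (MulAction.pretransitive_iff_subsingleton_quotient Γ Γ).1 inferInstance
    infer_instance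
  · simp [add_comm]
  · rw [LinearIndependent.pair_iff]
    intro s t h
    simpa [h₁, h₂, Prod.ext_iff] using h

/-- Cayley graphs of groups with a finite index subgroup mapping onto the plane lattice. -/
theorem final_virt {Γ : Type*} [Group Γ] (H : Subgroup Γ) [H.FiniteIndex]
    (hcore : ∀ [DecidableEq Γ], Core Γ H) (S : Set Γ)
    (hS : S.Finite) (hgen : Subgroup.closure S = ⊤) (φ : H →* Multiplicative (ℤ × ℤ))
    (hφ : Function.Surjective φ) :
    pc (SimpleGraph.mulCayley S) < 1 ∧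
      setBernoulli (SimpleGraph.mulCayley S).edgeSet (pc (SimpleGraph.mulCayley S))
        (HasInfiniteCluster Γ) = 0 := by
  have : (SimpleGraph.mulCayley S).LocallyFinite := fun v => (fn_cayley_lf hS v).fintype
  obtain ⟨γ₁, h₁⟩ := hφ (Multiplicative.ofAdd (1, 0))
  obtain ⟨γ₂, h₂⟩ := hφ (Multiplicative.ofAdd (0, 1))
  let ψ : Multiplicative (ℤ × ℤ) →* Multiplicative (ℝ × ℝ) :=
    AddMonoidHom.toMultiplicative ((Int.castAddHom ℝ).prodMap (Int.castAddHom ℝ))
  refine final_of_hom (Γ := H) hcore _ (fn_cayley_conn hgen)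
    (fun γ a b h => SimpleGraph.mulCayley_adj_mul_iff_right.2 h) ?_ (ψ.comp φ)
    (fun γ v h => ?_) ⟨γ₁, γ₂, ?_⟩
  · exact Finite.of_equiv _ (QuotientGroup.quotientRightRelEquivQuotientLeftRel H).symm
  · have h1 : γ = 1 := Subtype.ext (mul_eq_right.1 h)
    rw [h1, map_one]
  · rw [LinearIndependent.pair_iff]
    intro s t h
    simpa [h₁, h₂, ψ, Prod.ext_iff] using h

theorem final_Zd (d : ℕ) (hd : 2 ≤ d)
    (hcore : ∀ [DecidableEq (Fin d → ℤ)], Core (Fin d → ℤ) (Multiplicative (Fin d → ℤ))) :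
    pc (Zd d) < 1 ∧
      setBernoulli (Zd d).edgeSet (pc (Zd d)) (HasInfiniteCluster (Fin d → ℤ)) = 0 := by
  have hsm : ∀ (γ : Multiplicative (Fin d → ℤ)) (a : Fin d → ℤ), γ • a = γ.toAdd + a :=
    fun _ _ => rfl
  have hact : ∀ (γ : Multiplicative (Fin d → ℤ)) (a b : Fin d → ℤ), (Zd d).Adj a b →
      (Zd d).Adj (γ • a) (γ • b) := by
    intro γ a b h
    simp only [Zd, SimpleGraph.fromRel_adj, hsm] at h ⊢
    refine ⟨fun h' => h.1 (add_left_cancel h'), ?_⟩
    rcases h.2 with ⟨i, h1⟩ | ⟨i, h1⟩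
    · exact Or.inl ⟨i, by rw [h1, add_assoc]⟩
    · exact Or.inr ⟨i, by rw [h1, add_assoc]⟩
  have : (Zd d).LocallyFinite := fun v => Set.Finite.fintype (by
    refine ((Set.finite_range (fun i => v + Pi.single i 1)).union
      (Set.finite_range (fun i => v - Pi.single i 1))).subset ?_
    rintro u hu
    simp only [Zd, SimpleGraph.mem_neighborSet, SimpleGraph.fromRel_adj] at hu
    obtain ⟨-, ⟨i, h⟩ | ⟨i, h⟩⟩ := hu
    · exact Or.inl ⟨i, h.symm⟩
    · exact Or.inr ⟨i, by simp [h]⟩)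
  have hre : ∀ x : Fin d → ℤ, (Zd d).Reachable 0 x := by
    intro x
    have h1 : ∀ i, Multiplicative.ofAdd (Pi.single i 1 : Fin d → ℤ) ∈ fnComp _ hact 0 := by
      intro i
      change (Zd d).Reachable 0 (Pi.single i 1 + 0)
      refine SimpleGraph.Adj.reachable ((SimpleGraph.fromRel_adj _ _ _).2
        ⟨fun h => ?_, Or.inl ⟨i, add_comm _ _⟩⟩)
      simpa using congrFun h i
    have h2 : Multiplicative.ofAdd x =
        ∏ i, Multiplicative.ofAdd (Pi.single i 1 : Fin d → ℤ) ^ x i := by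
      simp only [← ofAdd_zsmul, ← ofAdd_sum]
      congr 1
      ext j
      simp [Finset.sum_apply, Pi.single_apply]
    have h3 : Multiplicative.ofAdd x ∈ fnComp _ hact 0 := by
      rw [h2]
      exact Subgroup.prod_mem _ fun i _ => Subgroup.zpow_mem _ (h1 i) _
    have h4 : (Zd d).Reachable 0 (x + 0) := h3
    rwa [add_zero] at h4
  let i₀ : Fin d := ⟨0, by omega⟩
  let i₁ : Fin d := ⟨1, by omega⟩
  have hi : i₀ ≠ i₁ := by simp [i₀, i₁]
  refine final_of_core (Γ := Multiplicative (Fin d → ℤ)) hcore _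
    ⟨fun a b => (hre a).symm.trans (hre b)⟩ hact ?_
    (fun v => ((v i₀ : ℝ), (v i₁ : ℝ))) (fun v => ((v.toAdd i₀ : ℝ), (v.toAdd i₁ : ℝ)))
    (fun γ v => ?_) ⟨Multiplicative.ofAdd (Pi.single i₀ 1), Multiplicative.ofAdd (Pi.single i₁ 1), ?_⟩
  · have : MulAction.IsPretransitive (Multiplicative (Fin d → ℤ)) (Fin d → ℤ) :=
      ⟨fun a b => ⟨Multiplicative.ofAdd (b - a), by simp [hsm]⟩⟩
    have := (MulAction.pretransitive_iff_subsingleton_quotient _ _).1 this
    infer_instance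
  · simp [hsm, add_comm]
  · rw [LinearIndependent.pair_iff]
    intro s t h
    simpa [hi, hi.symm, Prod.ext_iff] using h

end Vale.Agent.P151
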