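import Vale.Agent.P151.Cov

/-! The gluing inequality. -/

namespace Vale.Agent.P151

variable {V : Type*} [DecidableEq V]

/-- Admissible additive set functions: the indicator of `o` with decoys removed. -/
inductive Adm (w : Sym2 V → ℝ) (F : Finset (Sym2 V)) (o : V) : (Set V → ℝ) → Set V → Prop
  | base (Z : Set V) : Adm w F o (fun S => ind (o ∈ S)) Z
  | step (g : Set V → ℝ) (Z : Set V) (d : V) (c : ℝ) : Adm w F o g (insert d Z) → d ∉ Z →
      Ex w F (fun ω => ind (d ∉ Cl ω Z) * (g (Cl ω {d}) - c)) = 0 →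
      Adm w F o (fun S => g S - c * ind (d ∈ S)) Z

variable {w : Sym2 V → ℝ} {F : Finset (Sym2 V)} {o x d : V} {X Y Z S T : Set V}
  {f g : Set V → ℝ} {c : ℝ}

omit [DecidableEq V] in
theorem ind_union (h : Disjoint S T) : ind (d ∈ S ∪ T) = ind (d ∈ S) + ind (d ∈ T) := by
  by_cases h1 : d ∈ S
  · rw [ind_pos h1, ind_pos (Set.mem_union_left _ h1), ind_neg (Set.disjoint_left.1 h h1), add_zero]
  · rw [ind_neg h1, zero_add]
    exact ind_congr ⟨fun h => h.resolve_left h1, Or.inr⟩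

theorem Adm.add (h : Adm w F o g Z) : ∀ S T, Disjoint S T → g (S ∪ T) = g S + g T := by
  induction h with
  | base Z => exact fun S T h => ind_union h
  | step g Z d c _ _ _ ih => intro S T h; beta_reduce; rw [ih S T h, ind_union h]; ring

theorem Adm.empty (h : Adm w F o g Z) : g ∅ = 0 := by
  have := h.add ∅ ∅ (by simp)
  rw [Set.union_empty] at this
  linarith

omit [DecidableEq V] in
theorem split_right (hg : ∀ S T, Disjoint S T → g (S ∪ T) = g S + g T) (ω : Finset (Sym2 V)) :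
    g (Cl ω X \ Cl ω Y) = g (Cl ω X \ Cl ω (insert d Y)) +
      ind (d ∈ Cl ω X \ Cl ω Y) * g (Cl ω {d}) := by
  rw [Cl_insert]
  by_cases h : d ∈ Cl ω X \ Cl ω Y
  · rw [ind_pos h, one_mul, ← hg _ _ (Set.disjoint_left.2 fun v h1 h2 => h1.2 (Or.inl h2))]
    congr 1
    ext v
    have h1 : v ∈ Cl ω {d} → v ∈ Cl ω X := fun h2 => Cl_singleton_subset h.1 h2
    have h2 : v ∈ Cl ω {d} → v ∉ Cl ω Y := fun h2 => Set.disjoint_left.1 (Cl_disjoint h.2) h2
    simp only [Set.mem_sdiff, Set.mem_union]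
    tauto
  · rw [ind_neg h, zero_mul, add_zero]
    congr 1
    ext v
    have h1 : v ∈ Cl ω {d} → v ∈ Cl ω X → v ∈ Cl ω Y := fun h2 h3 => by
      by_contra h4
      have h5 := (mem_Cl_singleton.1 h2).symm
      exact h ⟨Cl_trans h3 h5, fun h6 => h4 (Cl_trans h6 h5.symm)⟩
    simp only [Set.mem_sdiff, Set.mem_union]
    tauto

omit [DecidableEq V] in
theorem split_left (hg : ∀ S T, Disjoint S T → g (S ∪ T) = g S + g T) (ω : Finset (Sym2 V)) :
    g (Cl ω (insert d X) \ Cl ω Y) = g (Cl ω X \ Cl ω Y) +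
      ind (d ∉ Cl ω (X ∪ Y)) * g (Cl ω {d}) := by
  rw [Cl_insert]
  by_cases h : d ∈ Cl ω (X ∪ Y)
  · rw [ind_neg (not_not.2 h), zero_mul, add_zero]
    congr 1
    ext v
    have h1 : v ∈ Cl ω {d} → v ∈ Cl ω X ∪ Cl ω Y := fun h2 =>
      Cl_union (V := V) ▸ Cl_singleton_subset h h2
    simp only [Set.mem_sdiff, Set.mem_union] at h1 ⊢
    tauto
  · have h1 := Cl_disjoint h
    rw [Cl_union, Set.disjoint_union_right] at h1
    rw [ind_pos h, one_mul, ← hg _ _ (h1.1.symm.mono_left Set.sdiff_subset)]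
    congr 1
    ext v
    have h2 : v ∈ Cl ω {d} → v ∉ Cl ω Y := fun h2 => Set.disjoint_left.1 h1.2 h2
    simp only [Set.mem_sdiff, Set.mem_union]
    tauto

theorem base_psi (hw : Wt w) (hf : Monotone f) :
    0 ≤ Ex w F (fun ω => gpsi w F x Y f ω * ind (o ∈ Cl ω X \ Cl ω Y)) := by
  have h1 := Ex_stop_del (fun ω => Cl ω Y) (fun _ _ => Cl_stop) w F
    (fun T η => ind (x ∉ T) * ((f (Cl η {x}) - gm w F x f T) * ind (o ∈ Cl η (X \ T))))
  have h2 : Ex w F (fun ω => gpsi w F x Y f ω * ind (o ∈ Cl ω X \ Cl ω Y)) =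
      Ex w F (fun ω => ind (x ∉ Cl ω Y) * ((f (Cl (del ω (Cl ω Y)) {x}) - gm w F x f (Cl ω Y)) *
        ind (o ∈ Cl (del ω (Cl ω Y)) (X \ Cl ω Y)))) := by
    refine Ex_congr fun ω _ => ?_
    rw [gpsi, mul_assoc]
    exact ind_mul_congr fun h => by rw [Cl_del_of_disjoint (Cl_disjoint h), ← Cl_diff]
  rw [h2, h1]
  refine Ex_nonneg hw fun ω _ => ?_
  rw [Ex_mul_left]
  refine mul_nonneg (ind_nonneg _) ?_
  simp only [sub_mul, Ex_sub, Ex_mul_left]
  exact sub_nonneg.2 (Ex_fkg hw (f := fun η => f (Cl (del η (Cl ω Y)) {x}))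
    (g := fun η => ind (o ∈ Cl (del η (Cl ω Y)) (X \ Cl ω Y)))
    (fun _ _ h => hf (Cl_mono (del_mono h subset_rfl) subset_rfl))
    fun _ _ h => ind_mono fun h3 => Cl_mono (del_mono h subset_rfl) subset_rfl h3)

theorem psi_outside (hx : x ∈ X) :
    Ex w F (fun ω => ind (d ∉ Cl ω (X ∪ Y)) * (gpsi w F x Y f ω * (g (Cl ω {d}) - c))) =
      - br w F d (X ∪ Y) g c (fun S => Ex w F (hint x Y f S)) := by
  have h1 := Ex_stop_del (fun ω => Cl ω {d}) (fun _ _ => Cl_stop) w F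
    (fun S η => ind (¬ ∃ y ∈ X ∪ Y, y ∈ S) * (gpsi w F x Y f η * (g S - c)))
  simp only [← mem_Cl_iff] at h1
  refine Eq.trans (Ex_congr fun ω _ => ind_mul_congr fun h => ?_) (h1.trans ?_)
  · have h2 := (Cl_disjoint h).symm
    rw [gpsi, gpsi, Cl_del_of_disjoint (h2.mono_left (Cl_mono subset_rfl Set.subset_union_right)),
      Cl_del_of_disjoint (h2.mono_left (Cl_mono subset_rfl
        (Set.singleton_subset_iff.2 (Set.mem_union_left _ hx))))]
  · rw [br, ← Ex_neg]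
    refine Ex_congr fun ω _ => ?_
    rw [Ex_mul_left, Ex_mul_right, psi_del]
    ring

theorem Adm.main (hw : Wt w) (hw1 : ∀ e ∈ F, w e < 1) (h : Adm w F o g Z) :
    ∀ X Y, X ⊆ Z → Y ⊆ Z → 0 ≤ Ex w F (fun ω => g (Cl ω X \ Cl ω Y)) ∧
      ∀ x ∈ X, ∀ f : Set V → ℝ, Monotone f →
        0 ≤ Ex w F (fun ω => gpsi w F x Y f ω * g (Cl ω X \ Cl ω Y)) := by
  induction h with
  | base Z => exact fun X Y _ _ => ⟨Ex_nonneg hw fun _ _ => ind_nonneg _,
      fun x _ f hf => base_psi hw hf⟩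
  | step g Z d c hg hd h0 ih =>
    have star : ∀ Y ⊆ Z, ∀ f : Set V → ℝ, Monotone f → 0 ≤ f ∅ → 0 ≤ br w F d Y g c f := by
      intro Y hY f hf hf0
      refine br_nonneg_subset hw hw1 hd hY (fun f hf => ?_) h0 hf hf0
      refine ((ih {d} Y (by simp) (hY.trans (Set.subset_insert _ _))).2 d rfl f hf).trans_eq
        (Ex_congr fun ω _ => ?_)
      rw [gpsi, mul_assoc, mul_assoc]
      exact ind_mul_congr fun h => by rw [(Cl_disjoint h).sdiff_eq_left]
    intro X Y hX hY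
    constructor
    · have h1 := (ih X (insert d Y) (hX.trans (Set.subset_insert _ _))
        (Set.insert_subset_insert hY)).1
      have h2 := star Y hY (fun S => ind (∃ y ∈ X, y ∈ S))
        (fun S T h => ind_mono fun ⟨z, hz, hS⟩ => ⟨z, hz, h hS⟩) (ind_nonneg _)
      refine (add_nonneg h1 h2).trans_eq ?_
      rw [br, ← Ex_add]
      refine Ex_congr fun ω _ => ?_
      beta_reduce
      rw [split_right (X := X) (Y := Y) (d := d) hg.add ω, ← mem_Cl_iff, Set.mem_sdiff, ind_and]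
      ring
    · intro x hx f hf
      have h1 := (ih (insert d X) Y (Set.insert_subset_insert hX)
        (hY.trans (Set.subset_insert _ _))).2 x (Or.inr hx) f hf
      have h2 := star (X ∪ Y) (Set.union_subset hX hY) (fun S => Ex w F (hint x Y f S))
        (fun S T h => Ex_mono hw fun ω _ => hint_mono hf h ω)
        (Ex_nonneg hw fun ω _ => hint_nonneg hf ω)
      have h3 := psi_outside (w := w) (F := F) (d := d) (Y := Y) (f := f) (g := g) (c := c) hx
      have h4 := psi_orth (w := w) (F := F) (x := x) (Y := Y) (f := f) (fun T => c * ind (d ∉ T))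
      have h5 : Ex w F (fun ω => gpsi w F x Y f ω * (g (Cl ω X \ Cl ω Y) -
          c * ind (d ∈ Cl ω X \ Cl ω Y))) =
          Ex w F (fun ω => gpsi w F x Y f ω * g (Cl ω (insert d X) \ Cl ω Y) -
            ind (d ∉ Cl ω (X ∪ Y)) * (gpsi w F x Y f ω * (g (Cl ω {d}) - c)) -
            gpsi w F x Y f ω * (c * ind (d ∉ Cl ω Y))) := by
        refine Ex_congr fun ω _ => ?_
        have h6 : ind (d ∈ Cl ω X \ Cl ω Y) = ind (d ∉ Cl ω Y) - ind (d ∉ Cl ω (X ∪ Y)) := by
          rw [Cl_union]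
          by_cases h7 : d ∈ Cl ω X <;> by_cases h8 : d ∈ Cl ω Y <;> simp [ind, h7, h8]
        rw [split_left hg.add ω, h6]
        ring
      rw [h5, Ex_sub, Ex_sub, h3, h4]
      linarith

theorem peel (hw : Wt w) (hw1 : ∀ e ∈ F, w e < 1) {m : ℝ} (A : Finset V)
    (hA : ∀ a ∈ A, m ≤ Ex w F (hit a T)) (h : Adm w F o g A) :
    0 ≤ Ex w F (fun ω => g (Cl ω A ∩ Cl ω T) - m * g (Cl ω A)) := by
  induction A using Finset.induction_on generalizing g with
  | empty => simp [Cl_empty_set, h.empty]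
  | insert k A hk ih =>
    rw [Finset.coe_insert] at h ⊢
    have hk' : k ∉ (A : Set V) := hk
    obtain ⟨c, h0⟩ := exists_centre (F := F) hw hw1 hk' g
    have h1 := ih (fun a ha => hA a (Finset.mem_insert_of_mem ha)) (Adm.step g A k c h hk' h0)
    have hm := h.main hw hw1 {k} A (by simp) (Set.subset_insert _ _)
    have h2 : 0 ≤ c := by
      have h3 : Ex w F (fun ω => g (Cl ω {k} \ Cl ω A)) =
          Ex w F (fun ω => ind (k ∉ Cl ω A) * (g (Cl ω {k}) - c) + c * ind (k ∉ Cl ω A)) := by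
        refine Ex_congr fun ω _ => ?_
        by_cases h4 : k ∈ Cl ω A
        · rw [ind_neg (not_not.2 h4), Set.sdiff_eq_empty.2 (Cl_singleton_subset h4), h.empty]
          ring
        · rw [ind_pos h4, (Cl_disjoint h4).sdiff_eq_left]; ring
      have h5 := hm.1
      rw [h3, Ex_add, h0, zero_add, Ex_mul_left] at h5
      exact nonneg_of_mul_nonneg_left h5 (notMem_pos hw hw1 hk')
    have h3 := br_nonneg hw hw1 (x := k) (Y := A) (g := g) (c := c) (fun f hf =>
      (hm.2 k rfl f hf).trans_eq (Ex_congr fun ω _ => by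
        rw [gpsi, mul_assoc, mul_assoc]
        exact ind_mul_congr fun h => by rw [(Cl_disjoint h).sdiff_eq_left])) h0
      (f := fun S => ind (∃ t ∈ T, t ∈ S))
      fun S T h => ind_mono fun ⟨z, hz, hS⟩ => ⟨z, hz, h hS⟩
    have h4 := mul_nonneg h2 (sub_nonneg.2 (hA k (Finset.mem_insert_self _ _)))
    have h5 : Ex w F (fun ω => g (Cl ω (insert k A) ∩ Cl ω T) - m * g (Cl ω (insert k A))) =
        Ex w F (fun ω => ((g (Cl ω A ∩ Cl ω T) - c * ind (k ∈ Cl ω A ∩ Cl ω T)) -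
            m * (g (Cl ω A) - c * ind (k ∈ Cl ω A))) +
          ind (k ∉ Cl ω A) * (ind (∃ t ∈ T, t ∈ Cl ω {k}) * (g (Cl ω {k}) - c)) -
          m * (ind (k ∉ Cl ω A) * (g (Cl ω {k}) - c)) + c * (hit k T ω - m)) := by
      refine Ex_congr fun ω _ => ?_
      rw [← mem_Cl_iff, hit, Cl_insert, Set.mem_inter_iff, ind_and]
      by_cases h6 : k ∈ Cl ω A
      · rw [ind_neg (not_not.2 h6), ind_pos h6,
          Set.union_eq_self_of_subset_left (Cl_singleton_subset h6)]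
        ring
      · rw [ind_pos h6, ind_neg h6, h.add _ _ (Cl_disjoint h6), Set.union_inter_distrib_right,
          h.add _ _ ((Cl_disjoint h6).mono Set.inter_subset_left Set.inter_subset_left)]
        by_cases h7 : k ∈ Cl ω T
        · rw [ind_pos h7, Set.inter_eq_left.2 (Cl_singleton_subset h7)]; ring
        · rw [ind_neg h7, (Cl_disjoint h7).inter_eq, h.empty]; ring
    rw [h5, Ex_add, Ex_sub, Ex_add, Ex_mul_left, h0, Ex_mul_left,
      Ex_sub (f := hit k T), Ex_const]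
    unfold br at h3
    linarith

theorem glue_lt (hw : Wt w) (hw1 : ∀ e ∈ F, w e < 1) {m : ℝ} (A : Finset V)
    (hA : ∀ a ∈ A, m ≤ Ex w F (hit a T)) :
    m * Ex w F (hit o A) ≤ Ex w F (fun ω => ind (o ∈ Cl ω A ∩ Cl ω T)) := by
  have h := peel hw hw1 A hA (Adm.base (o := o) A)
  rw [Ex_sub, Ex_mul_left] at h
  exact sub_nonneg.1 h

/-- The gluing inequality. -/
theorem glue_mul (hw : Wt w) {m : ℝ} (A : Finset V) (hA : ∀ a ∈ A, m ≤ Ex w F (hit a T)) :
    m * Ex w F (hit o A) ≤ Ex w F (fun ω => ind (o ∈ Cl ω A ∩ Cl ω T)) := by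
  refine le_of_forall_pos_le_add fun ε hε => ?_
  obtain ⟨t, ht0, ht1, ht⟩ : ∃ t : ℝ, 0 < t ∧ t ≤ 1 ∧ (|m| + 2) * (F.card * t) ≤ ε := by
    refine ⟨min 1 (ε / ((|m| + 2) * (F.card + 1))), by positivity, min_le_left _ _, ?_⟩
    have h1 := (le_div_iff₀ (by positivity)).1
      (min_le_right 1 (ε / ((|m| + 2) * (F.card + 1))))
    have h2 : 0 ≤ min 1 (ε / ((|m| + 2) * (F.card + 1))) := by positivity
    nlinarith [abs_nonneg m]
  have hw' : Wt (fun e => (1 - t) * w e) := fun e =>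
    ⟨mul_nonneg (by linarith) (hw e).1, by nlinarith [hw e]⟩
  have hd : ∀ e ∈ F, |w e - (1 - t) * w e| ≤ t := fun e _ =>
    abs_le.2 ⟨by nlinarith [hw e], by nlinarith [hw e]⟩
  have hd' : ∀ e ∈ F, |(1 - t) * w e - w e| ≤ t := fun e he => by
    rw [abs_sub_comm]; exact hd e he
  have h1 := glue_lt (F := F) (o := o) (T := T) hw' (fun e _ => by nlinarith [hw e])
    (m := m - F.card * t) A fun a ha => by
      linarith [hA a ha, Ex_lip hw hw' hd (f := hit a T) fun _ => ⟨hit_nonneg, hit_le_one⟩]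
  have h2 := Ex_lip hw' hw hd' (f := fun ω => ind (o ∈ Cl ω A ∩ Cl ω T))
    fun _ => ⟨ind_nonneg _, ind_le_one _⟩
  have h3 := Ex_lip hw hw' hd (f := hit o A) fun _ => ⟨hit_nonneg, hit_le_one⟩
  have h4 := Ex_lip hw' hw hd' (f := hit o A) fun _ => ⟨hit_nonneg, hit_le_one⟩
  have h5 : Ex (fun e => (1 - t) * w e) F (hit o A) ≤ 1 := Ex_le hw' fun _ _ => hit_le_one
  have h6 : (0 : ℝ) ≤ F.card * t := by positivity
  have h7 : m * (Ex w F (hit o A) - Ex (fun e => (1 - t) * w e) F (hit o A)) ≤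
      |m| * (F.card * t) := by
    refine (le_abs_self _).trans ?_
    rw [abs_mul]
    exact mul_le_mul_of_nonneg_left (abs_le.2 ⟨by linarith, by linarith⟩) (abs_nonneg _)
  nlinarith [mul_le_mul_of_nonneg_left h5 h6]

/-- The additive form of the gluing inequality. -/
theorem glue (hw : Wt w) {b : ℝ} (hb : 0 ≤ b) (A : Finset V)
    (hA : ∀ a ∈ A, 1 - b ≤ Ex w F (hit a T)) : Ex w F (hit o A) - b ≤ Ex w F (hit o T) := by
  have h1 := glue_mul (o := o) hw A hA
  have h2 : Ex w F (fun ω => ind (o ∈ Cl ω A ∩ Cl ω T)) ≤ Ex w F (hit o T) :=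
    Ex_mono hw fun _ _ => ind_mono fun h => h.2
  have h3 : Ex w F (hit o A) ≤ 1 := Ex_le hw fun _ _ => hit_le_one
  nlinarith [mul_le_mul_of_nonneg_left h3 hb]

end Vale.Agent.P151
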