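import Vale.Agent.P151.Chain

/-! Crossing many levels, and the labels of boxes and links. -/

namespace Vale.Agent.P151

section
variable {ι : Type*} [DecidableEq ι]

theorem klevel (Val : (ι → ℝ) → ℝ → Prop) (hdown : ∀ w a b, Val w a → b ≤ a → Val w b)
    (htower : ∀ w E g, Wt w → (∀ ξ ⊆ E, Val (rev w E ξ) (g ξ)) → Val w (Ex w E g))
    (F : Finset ι) (f : ℕ → Finset ι → ℝ) (g : Finset ι → ℝ) (I : ℕ → (ι → ℝ) → Prop) (K : ℕ)
    {t a b : ℝ} (ht0 : 0 ≤ t) (hab : b ≤ a) (hg : ∀ ω, g ω ≤ 1) (hf : ∀ k ω, 0 ≤ f k ω)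
    (hW : ∀ k w, I k w → Wt w) (hfail : ∀ k w, I k w → Val w b)
    (hsucc : ∀ k < K, ∀ w, I k w → t ≤ Ex w F (f k) → Val w a)
    (hrev : ∀ k < K, ∀ w, I k w → ∃ E, ∀ ξ ⊆ E, I (k + 1) (rev w E ξ) ∧
      (1 ≤ Ex (rev w E ξ) F (f k) ∨ Ex (rev w E ξ) F g ≤ 0)) :
    ∀ w, I 0 w → Val w (b + (a - b) * (Ex w F g - t ^ K)) := by
  have hab' := sub_nonneg.2 hab
  have key : ∀ m k, k + m = K → ∀ w, I k w → Val w (b + (a - b) * (Ex w F g - t ^ m)) := by
    intro m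
    induction m with
    | zero =>
      intro k _ w hw
      have h1 : Ex w F g ≤ 1 := Ex_le (hW k w hw) fun ω _ => hg ω
      exact hdown _ _ _ (hfail k w hw) (by rw [pow_zero]; nlinarith)
    | succ m ih =>
      intro k hk w hw
      have h1 : Ex w F g ≤ 1 := Ex_le (hW k w hw) fun ω _ => hg ω
      have h2 := pow_nonneg ht0 m
      rcases le_total t (Ex w F (f k)) with h | h
      · refine hdown _ _ _ (hsucc k (by omega) w hw h) ?_
        nlinarith [mul_nonneg hab' (pow_nonneg ht0 (m + 1))]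
      · obtain ⟨E, hE⟩ := hrev k (by omega) w hw
        have h3 := htower w E (fun ξ => b + (a - b) *
          (Ex (rev w E ξ) F g - Ex (rev w E ξ) F (f k) * t ^ m)) (hW k w hw) fun ξ hξ => by
            obtain ⟨h4, h5 | h5⟩ := hE ξ hξ
            · refine hdown _ _ _ (ih (k + 1) (by omega) _ h4) ?_
              nlinarith [mul_nonneg hab' (mul_nonneg (sub_nonneg.2 h5) h2)]
            · refine hdown _ _ _ (hfail _ _ h4) ?_
              have h6 : 0 ≤ Ex (rev w E ξ) F (f k) := Ex_nonneg (hW _ _ h4) fun ω _ => hf k ω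
              nlinarith [mul_nonneg hab' (mul_nonneg h6 h2), mul_nonneg hab' (neg_nonneg.2 h5)]
        rw [Ex_add, Ex_const, Ex_mul_left, Ex_sub, Ex_mul_right, ← Ex_tower, ← Ex_tower] at h3
        refine hdown _ _ _ h3 ?_
        rw [pow_succ]
        nlinarith [mul_nonneg hab' (mul_nonneg (sub_nonneg.2 h) h2)]
  exact key K 0 (zero_add K)

/-- Edges of weight zero may be assumed closed. -/
theorem Ex_mono_zero {w : ι → ℝ} (hw : Wt w) {F : Finset ι} {f f' : Finset ι → ℝ}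
    (h : ∀ ω ⊆ F, (∀ e ∈ ω, w e ≠ 0) → f ω ≤ f' ω) : Ex w F f ≤ Ex w F f' := by
  refine Finset.sum_le_sum fun ω hω => ?_
  by_cases h1 : ∀ e ∈ ω, w e ≠ 0
  · exact mul_le_mul_of_nonneg_left (h ω (Finset.mem_powerset.1 hω) h1)
      (mul_nonneg (Finset.prod_nonneg fun e _ => (hw e).1)
        (Finset.prod_nonneg fun e _ => sub_nonneg.2 (hw e).2))
  · push Not at h1
    obtain ⟨e, he, h2⟩ := h1
    rw [Finset.prod_eq_zero he h2]
    simp

theorem rev_of_mem {w : ι → ℝ} {E ξ : Finset ι} {e : ι} (h : e ∈ E) :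
    rev w E ξ e = 0 ∨ rev w E ξ e = 1 := by
  by_cases h1 : e ∈ ξ <;> simp [rev, h, h1]

theorem rev_of_not_mem {w : ι → ℝ} {E ξ : Finset ι} {e : ι} (h : e ∉ E) : rev w E ξ e = w e :=
  if_neg h

end

variable {V : Type*} [DecidableEq V]

theorem det_hit {w : Sym2 V → ℝ} (hw : Wt w) {F : Finset (Sym2 V)} {o : V} {A : Set V}
    (ho : o ∉ A) (h : ∀ e ∈ F, ¬ (∀ v ∈ e, v ∈ A) → w e = 0 ∨ w e = 1) :
    1 ≤ Ex w F (hit o A) ∨ Ex w F (hit o A) ≤ 0 := by
  classical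
  by_cases h1 : o ∈ Cl (F.filter fun e => w e = 1) A
  · refine Or.inl ((Ex_const w F 1).ge.trans (Ex_mono_one hw fun ω _ hω => (ind_pos ?_).ge))
    exact Cl_mono (fun e he => hω e (Finset.mem_filter.1 he).1 (Finset.mem_filter.1 he).2)
      subset_rfl h1
  · refine Or.inr ((Ex_mono_zero hw fun ω hω h0 => (ind_neg ?_).le).trans (Ex_const w F 0).le)
    rintro ⟨a, ha, h2⟩
    refine (h2.symm.closed (P := fun v => v ∉ A ∧ Conn (F.filter fun e => w e = 1) o v)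
      ⟨ho, Conn.refl _ _⟩ fun x y hx hxy => ?_).1 ha
    have h3 := hx.2.tail (Finset.mem_filter.2 ⟨hω hxy, (h _ (hω hxy) fun h4 =>
      hx.1 (h4 x (Sym2.mem_mk_left _ _))).resolve_left (h0 _ hxy)⟩)
    exact ⟨fun h4 => h1 ⟨y, h4, h3.symm⟩, h3⟩

theorem Lb.of_support {w : Sym2 V → ℝ} (hw : Wt w) {F : Finset (Sym2 V)} {ok : Sym2 V → Prop}
    {f : Finset (Sym2 V) → ℝ} {c : ℝ} (hF : ∀ e ∈ F, w e ≠ 0 → ok e) (h : c ≤ Ex w F f) :
    Lb w ok f c := by
  classical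
  refine ⟨F.filter fun e => w e ≠ 0, fun e he => hF e (Finset.mem_filter.1 he).1
    (Finset.mem_filter.1 he).2, h.trans ?_⟩
  rw [← Ex_filter]
  exact Ex_mono_zero hw fun ω _ h0 => by rw [Finset.filter_true_of_mem h0]

/-- The label of a coordinate: even on boxes, odd on links. -/
noncomputable def lab (L t : ℝ) : ℤ := ⌊(t + 150) / L⌋ + ⌊(t - 150) / L⌋ + 1

variable {L t : ℝ} {i : ℤ}

theorem lab_box (hL : 300 ≤ L) (h1 : L * i - 150 ≤ t) (h2 : t < L * i + 150) :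
    lab L t = 2 * i := by
  have hL' : 0 < L := by linarith
  have h3 : ⌊(t + 150) / L⌋ = i := Int.floor_eq_iff.2
    ⟨by rw [le_div_iff₀ hL']; linarith, by rw [div_lt_iff₀ hL']; linarith⟩
  have h4 : ⌊(t - 150) / L⌋ = i - 1 := Int.floor_eq_iff.2
    ⟨by rw [le_div_iff₀ hL']; push_cast; linarith, by rw [div_lt_iff₀ hL']; push_cast; linarith⟩
  rw [lab, h3, h4]; ring

theorem lab_link (hL : 300 ≤ L) (h1 : L * i + 150 ≤ t) (h2 : t < L * i + L - 150) :
    lab L t = 2 * i + 1 := by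
  have hL' : 0 < L := by linarith
  have h3 : ⌊(t + 150) / L⌋ = i := Int.floor_eq_iff.2
    ⟨by rw [le_div_iff₀ hL']; linarith, by rw [div_lt_iff₀ hL']; linarith⟩
  have h4 : ⌊(t - 150) / L⌋ = i := Int.floor_eq_iff.2
    ⟨by rw [le_div_iff₀ hL']; linarith, by rw [div_lt_iff₀ hL']; linarith⟩
  rw [lab, h3, h4]; ring

theorem lab_ge (hL : 300 ≤ L) (h1 : L * i + 150 ≤ t) : 2 * i + 1 ≤ lab L t := by
  have hL' : 0 < L := by linarith
  have h3 : i ≤ ⌊(t + 150) / L⌋ := Int.le_floor.2 (by rw [le_div_iff₀ hL']; linarith)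
  have h4 : i ≤ ⌊(t - 150) / L⌋ := Int.le_floor.2 (by rw [le_div_iff₀ hL']; linarith)
  rw [lab]; omega

theorem lab_box_link (hL : 300 ≤ L) (h1 : L * i - 150 ≤ t) (h2 : t < L * i + L - 150) :
    lab L t = 2 * i ∨ lab L t = 2 * i + 1 :=
  (lt_or_ge t (L * i + 150)).imp (lab_box hL h1) fun h => lab_link hL h h2

theorem lab_link_box (hL : 300 ≤ L) (h1 : L * i + 150 ≤ t) (h2 : t < L * i + L + 150) :
    lab L t = 2 * i + 1 ∨ lab L t = 2 * (i + 1) :=
  (lt_or_ge t (L * i + L - 150)).imp (lab_link hL h1) fun h =>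
    lab_box hL (by push_cast; linarith) (by push_cast; linarith)

end Vale.Agent.P151
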