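import Vale.Agent.P151.Child

/-! The renormalised exploration. -/

namespace Vale.Agent.P151

variable {V : Type*}

/-- A box with its two outgoing links. -/
def Star (L : ℝ) (α β : V → ℝ) (x : ℕ × ℕ) : Set V :=
  At L α β (2 * x.1) (2 * x.2) ∪ At L α β (2 * x.1 + 1) (2 * x.2) ∪ At L α β (2 * x.1) (2 * x.2 + 1)

variable [DecidableEq V]

/-- The origin is likely to be joined to the target of `y` through one incoming link. -/
def Claim (nb : V → Finset V) (L : ℝ) (α β : V → ℝ) (o : V) (t : ℝ) (w : Sym2 V → ℝ)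
    (P : Finset (ℕ × ℕ)) (y : ℕ × ℕ) : Prop :=
  ∃ m n : ℤ, ((m = 2 * y.1 - 1 ∧ n = 2 * y.2) ∨ (m = 2 * y.1 ∧ n = 2 * y.2 - 1)) ∧
    (∀ x ∉ P, Disjoint (At L α β m n) (Star L α β x)) ∧
    Lb w (okR nb w (At L α β m n ∪ At L α β (2 * y.1) (2 * y.2))) (hit o (Tx L α β y.1 y.2)) t

/-- The invariant of the exploration. -/
def Inv (nb : V → Finset V) (p L : ℝ) (α β : V → ℝ) (o : V) (t : ℝ) (w : Sym2 V → ℝ)
    (P c : Finset (ℕ × ℕ)) : Prop :=
  Wt w ∧ (∀ x ∉ P, ∀ e, IsE nb e → Touch (Star L α β x) e → w e = p) ∧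
    ∀ y ∉ P, Par c y → Claim nb L α β o t w P y

variable {nb : V → Finset V} {p L t : ℝ} {α β : V → ℝ} {o : V} {w w' : Sym2 V → ℝ}
  {P c : Finset (ℕ × ℕ)} {x : ℕ × ℕ} {m n i j : ℤ} {K : ℕ}

theorem Inv.skip (h : Inv nb p L α β o t w P c) (x : ℕ × ℕ) :
    Inv nb p L α β o t w (insert x P) c :=
  ⟨h.1, fun y hy => h.2.1 y fun h1 => hy (Finset.mem_insert_of_mem h1), fun y hy hc =>
    let ⟨m, n, h1, h2, h3⟩ := h.2.2 y (fun h1 => hy (Finset.mem_insert_of_mem h1)) hc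
    ⟨m, n, h1, fun z hz => h2 z fun h1 => hz (Finset.mem_insert_of_mem h1), h3⟩⟩

theorem Inv.refine (h : Inv nb p L α β o t w P c) (hx : x ∉ P)
    (hmn : (m = 2 * x.1 - 1 ∧ n = 2 * x.2) ∨ (m = 2 * x.1 ∧ n = 2 * x.2 - 1))
    (hd : ∀ y ∉ P, Disjoint (At L α β m n) (Star L α β y))
    (hr : Rf (At L α β m n ∪ Star L α β x) w w') : Inv nb p L α β o t w' (insert x P) c := by
  have hne : ∀ y ∉ insert x P, y ∉ P ∧ ((y.1 : ℤ) ≠ x.1 ∨ (y.2 : ℤ) ≠ x.2) := by
    intro y hy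
    rw [Finset.mem_insert, not_or, Prod.ext_iff] at hy
    exact ⟨hy.2, by omega⟩
  refine ⟨hr.1, fun y hy e he h1 => ?_, fun y hy hc => ?_⟩
  · obtain ⟨h2, h3⟩ := hne y hy
    rw [hr.eq_of_touch (Set.disjoint_union_right.2 ⟨(hd y h2).symm,
      Set.disjoint_left.2 fun v h4 h5 => ?_⟩) h1]
    · exact h.2.1 y h2 e he h1
    · simp only [Star, At, Set.mem_union, Set.mem_ofPred_eq] at h4 h5
      omega
  · obtain ⟨h2, h3⟩ := hne y hy
    obtain ⟨m', n', h4, h5, h6⟩ := h.2.2 y h2 hc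
    refine ⟨m', n', h4, fun z hz => h5 z (hne z hz).1, hr.claim (Set.disjoint_left.2
      fun v h7 h8 => ?_) h6⟩
    have h9 : v ∈ At L α β m' n' → v ∉ Star L α β x := fun h => Set.disjoint_left.1 (h5 x hx) h
    simp only [Star, At, Set.mem_union, Set.mem_ofPred_eq] at h7 h8 h9
    omega

theorem Inv.grow (h : Inv nb p L α β o t w (insert x P) c)
    (h1 : (x.1 + 1, x.2) ∉ insert x P → Lb w (okR nb w (At L α β (2 * x.1 + 1) (2 * x.2) ∪
      At L α β (2 * (x.1 + 1)) (2 * x.2))) (hit o (Tx L α β (x.1 + 1) x.2)) t)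
    (h2 : (x.1, x.2 + 1) ∉ insert x P → Lb w (okR nb w (At L β α (2 * x.2 + 1) (2 * x.1) ∪
      At L β α (2 * (x.2 + 1)) (2 * x.1))) (hit o (Tx L β α (x.2 + 1) x.1)) t) :
    Inv nb p L α β o t w (insert x P) (insert x c) := by
  have hne : ∀ y ∉ insert x P, (y.1 : ℤ) ≠ x.1 ∨ (y.2 : ℤ) ≠ x.2 := by
    intro y hy
    rw [Finset.mem_insert, not_or, Prod.ext_iff] at hy
    omega
  refine ⟨h.1, h.2.1, fun y hy hc => ?_⟩
  rcases hc with hc | ⟨z, hz, hc⟩
  · exact h.2.2 y hy (Or.inl hc)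
  rcases Finset.mem_insert.1 hz with rfl | hz
  swap
  · exact h.2.2 y hy (Or.inr ⟨z, hz, hc⟩)
  rcases hc with rfl | rfl
  · refine ⟨2 * z.1 + 1, 2 * z.2, Or.inl ⟨by push_cast; ring, rfl⟩, fun u hu =>
      Set.disjoint_left.2 fun v h4 h5 => ?_, by simpa using h1 hy⟩
    have := hne u hu
    simp only [Star, At, Set.mem_union, Set.mem_ofPred_eq] at h4 h5
    omega
  · refine ⟨2 * z.1, 2 * z.2 + 1, Or.inr ⟨rfl, by push_cast; ring⟩, fun u hu =>
      Set.disjoint_left.2 fun v h4 h5 => ?_, by simpa [At_swap (α := α), Tx_swap (α := α)] using h2 hy⟩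
    have := hne u hu
    simp only [Star, At, Set.mem_union, Set.mem_ofPred_eq] at h4 h5
    omega

theorem prep {F E ξ : Finset (Sym2 V)} {R A A' B Z : Set V} (hF : ∀ e ∈ F, okR nb w R e)
    (hE : ∀ e ∈ F, e ∉ E → w e = 1 ∨ (∀ v ∈ e, v ∈ A) ∨ ∀ v ∈ e, v ∈ A')
    (hE' : ∀ e ∈ E, (¬ ∀ v ∈ e, v ∈ A) ∧ ∀ v ∈ e, v ∈ Z) (hA' : Disjoint R A')
    (hB : Disjoint B Z) :
    (∀ e ∈ F, ¬ (∀ v ∈ e, v ∈ A) → rev w E ξ e = 0 ∨ rev w E ξ e = 1) ∧
      ∀ e : Sym2 V, (∀ v ∈ e, v ∈ A ∪ B) → rev w E ξ e = w e := by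
  refine ⟨fun e he h1 => ?_, fun e he => rev_of_not_mem fun h1 => (hE' e h1).1 fun v hv =>
    (he v hv).resolve_right fun h2 => Set.disjoint_left.1 hB h2 ((hE' e h1).2 v hv)⟩
  by_cases h2 : e ∈ E
  · exact rev_of_mem h2
  · rw [rev_of_not_mem h2]
    refine Or.inr ((hE e he h2).elim id fun h3 => (hF e he).2.resolve_left fun h4 => ?_)
    obtain ⟨v, hv, hve⟩ := touch_of_forall h4
    exact Set.disjoint_left.1 hA' hv (h3.resolve_left h1 v hve)

theorem RC.step (C : RC V) (hco : C.Co α β) (hL : L = 210 * K + 460) (hN : L ≤ C.N)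
    (ho : lab L (α o) < 0 ∨ lab L (β o) < 0)
    (Val : (Sym2 V → ℝ) → ℝ → Prop) (hdown : ∀ w a b, Val w a → b ≤ a → Val w b)
    (htower : ∀ w E g, Wt w → (∀ ξ ⊆ E, Val (rev w E ξ) (g ξ)) → Val w (Ex w E g))
    {s : ℝ} (hs0 : 0 ≤ s) (hs : t ≤ s - C.N * C.η)
    (h : Inv C.nb C.p L α β o t w P c) (hx : x ∉ P) (hc : Par c x) {a b : ℝ} (hab : b ≤ a)
    (ha : ∀ w', Inv C.nb C.p L α β o t w' (insert x P) (insert x c) → Val w' a)
    (hb : ∀ w', Inv C.nb C.p L α β o t w' (insert x P) c → Val w' b) :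
    Val w (b + (a - b) * (2 * (t - C.N * C.η) - 1 - 2 * s ^ K)) := by
  classical
  have hL' : 300 ≤ L := by linarith [Nat.cast_nonneg (α := ℝ) K]
  obtain ⟨m, n, hmn, hd, hcl⟩ := h.2.2 x hx hc
  have hi : (0 : ℤ) ≤ x.1 := Nat.cast_nonneg _
  have hj : (0 : ℤ) ≤ x.2 := Nat.cast_nonneg _
  have hfx := h.2.1 x hx
  obtain ⟨F₁, hF₁, hq₁⟩ := C.phase1 hco hL hN hi hj h.1 ho (At L α β m n)
    (fun e he hv => hfx e he ((touch_of_forall hv).mono Set.subset_union_left)) hcl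
  obtain ⟨F₂, hF₂, hq₂⟩ := C.phase1 hco.swap hL hN hj hi h.1 ho.symm (At L α β m n) (c := t)
    (fun e he hv => hfx e he ((touch_of_forall hv).mono fun v hv => by
      simp only [Star, At, Set.mem_union, Set.mem_ofPred_eq] at hv ⊢; omega))
    (by rwa [At_swap (α := α), Tx_swap (α := α)])
  set E := (F₁ ∪ F₂).filter fun e => w e ≠ 1 ∧ (¬ ∀ v ∈ e, v ∈ Ah L α β x.1 x.2 0) ∧
    ¬ ∀ v ∈ e, v ∈ Ah L β α x.2 x.1 0 with hE
  have hEZ : ∀ e ∈ E, ∀ v ∈ e, v ∈ At L α β m n ∪ Star L α β x := by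
    intro e he v hv
    obtain ⟨h1, h2, _⟩ := Finset.mem_filter.1 he
    rcases Finset.mem_union.1 h1 with h1 | h1
    · have := (hF₁ e h1).2.resolve_right h2 v hv
      simp only [Star, At, Nar, Set.mem_union, Set.mem_ofPred_eq] at this ⊢
      omega
    · have := (hF₂ e h1).2.resolve_right h2 v hv
      simp only [Star, At, Nar, Set.mem_union, Set.mem_ofPred_eq] at this ⊢
      omega
  have hnE : ∀ e ∈ F₁ ∪ F₂, e ∉ E → w e = 1 ∨ (∀ v ∈ e, v ∈ Ah L α β x.1 x.2 0) ∨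
      ∀ v ∈ e, v ∈ Ah L β α x.2 x.1 0 := by
    intro e he h1
    by_contra h2
    rw [not_or, not_or] at h2
    exact h1 (Finset.mem_filter.2 ⟨he, h2⟩)
  have hab' := sub_nonneg.2 hab
  have key := htower w E (fun ξ => b + (a - b) * (Ex (rev w E ξ) F₁ (hit o (Ah L α β x.1 x.2 K)) +
      Ex (rev w E ξ) F₂ (hit o (Ah L β α x.2 x.1 K)) - 1 - 2 * s ^ K)) h.1 fun ξ _ => by
    have hw₁ : Wt (rev w E ξ) := h.1.rev _ _
    have hr₁ : Rf (At L α β m n ∪ Star L α β x) w (rev w E ξ) := ⟨hw₁, fun e => by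
      by_cases h1 : e ∈ E
      · exact Or.inr ⟨(Finset.mem_filter.1 h1).2.1, hEZ e h1⟩
      · exact Or.inl (rev_of_not_mem h1)⟩
    obtain ⟨p1, p2⟩ := prep (ξ := ξ) (B := At L α β (2 * (x.1 + 1)) (2 * x.2)) hF₁
      (fun e he => hnE e (Finset.mem_union_left _ he))
      (fun e he => ⟨(Finset.mem_filter.1 he).2.2.1, hEZ e he⟩)
      (Set.disjoint_left.2 fun v h1 h2 => by
        simp only [At, Nar, Ah, Set.mem_union, Set.mem_ofPred_eq] at h1 h2; omega)
      (Set.disjoint_left.2 fun v h1 h2 => by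
        simp only [At, Star, Set.mem_union, Set.mem_ofPred_eq] at h1 h2; omega)
    obtain ⟨p3, p4⟩ := prep (ξ := ξ) (B := At L β α (2 * (x.2 + 1)) (2 * x.1)) hF₂
      (fun e he h1 => (hnE e (Finset.mem_union_right _ he) h1).imp_right Or.symm)
      (fun e he => ⟨(Finset.mem_filter.1 he).2.2.2, hEZ e he⟩)
      (Set.disjoint_left.2 fun v h1 h2 => by
        simp only [At, Nar, Ah, Set.mem_union, Set.mem_ofPred_eq] at h1 h2; omega)
      (Set.disjoint_left.2 fun v h1 h2 => by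
        simp only [At, Star, Set.mem_union, Set.mem_ofPred_eq] at h1 h2; omega)
    have hZ₁ : At L α β (2 * x.1 + 1) (2 * x.2) ⊆ At L α β m n ∪ Star L α β x :=
      fun v hv => Or.inr (Or.inl (Or.inr hv))
    have hZ₂ : At L β α (2 * x.2 + 1) (2 * x.1) ⊆ At L α β m n ∪ Star L α β x :=
      fun v hv => Or.inr (Or.inr hv.symm)
    set q₂ := Ex (rev w E ξ) F₂ (hit o (Ah L β α x.2 x.1 K)) with hq
    have h1 := C.child hco hL hN hi hj ho Val hdown htower (hy := (x.1 + 1, x.2) ∉ insert x P) hw₁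
      (fun e he => (hF₁ e he).1) p1 (fun ω hω k => C.entry hco hL'
        (fun v hv => by have := hv.1; omega) (fun h1 => by obtain ⟨_, _⟩ := h1; omega)
        (fun e he h1 => (hfx e he (h1.mono fun v hv => Or.inl (Or.inr hv))).trans_ne C.hp1.ne)
        fun e he => hF₁ e (hω he))
      (fun hy e he hv => (p2 e hv).trans (by
        obtain ⟨v, h1 | h1, h2⟩ := touch_of_forall hv
        · exact hfx e he ⟨v, Or.inl (Or.inr h1.1), h2⟩
        · exact h.2.1 _ (fun h3 => hy (Finset.mem_insert_of_mem h3)) e he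
            ⟨v, Or.inl (Or.inl (by simpa using h1)), h2⟩))
      (a := b + (a - b) * max 0 (q₂ - s ^ K)) (b := b) hs0
      (le_add_of_nonneg_right (mul_nonneg hab' (le_max_left _ _)))
      (fun w₂ hr₂ hc₁ => by
        have hr₂' := hr₁.trans (hr₂.mono hZ₁)
        have h2 : ∀ e ∈ F₂, w₂ e = rev w E ξ e := fun e he => hr₂.eq_of_okR (nb := C.nb)
          (Set.disjoint_left.2 fun v h1 h2 => by
            simp only [At, Nar, Set.mem_union, Set.mem_ofPred_eq] at h1 h2; omega)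
          ⟨(hF₂ e he).1, (hF₂ e he).2.imp_right fun h1 =>
            ((hr₁.2 e).resolve_right fun h3 => h3.1 h1).trans h1⟩
        have h3 := C.child hco.swap hL hN hj hi ho.symm Val hdown htower
          (hy := (x.1, x.2 + 1) ∉ insert x P) hr₂.1 (fun e he => (hF₂ e he).1)
          (fun e he h3 => by rw [h2 e he]; exact p3 e he h3) (fun ω hω k => C.entry hco.swap hL'
            (fun v hv => by have := hv.2; omega) (fun h1 => by obtain ⟨_, _⟩ := h1; omega)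
            (fun e he h1 => (hfx e he (h1.mono fun v hv => Or.inr hv.symm)).trans_ne C.hp1.ne)
            fun e he => hF₂ e (hω he))
          (fun hy e he hv => (hr₂.eq_of_touch (Set.disjoint_left.2 fun v h1 h2 => by
              simp only [At, Ah, Set.mem_union, Set.mem_ofPred_eq] at h1 h2; omega)
              (touch_of_forall hv)).trans ((p4 e hv).trans (by
            obtain ⟨v, h1 | h1, h2⟩ := touch_of_forall hv
            · exact hfx e he ⟨v, Or.inr h1.1.symm, h2⟩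
            · exact h.2.1 _ (fun h3 => hy (Finset.mem_insert_of_mem h3)) e he
                ⟨v, Or.inl (Or.inl (by simpa [At_swap (α := α)] using h1)), h2⟩)))
          hs0 hab (fun w₃ hr₃ hc₂ => ha w₃ ((h.refine hx hmn hd (hr₂'.trans (hr₃.mono hZ₂))).grow
            (fun hy => (hr₃.claim (Set.disjoint_left.2 fun v h1 h2 => by
              simp only [At, Set.mem_union, Set.mem_ofPred_eq] at h1 h2; omega) (hc₁ hy)).le hs)
            fun hy => (hc₂ hy).le hs))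
          fun w₃ hr₃ => hb w₃ (h.refine hx hmn hd (hr₂'.trans (hr₃.mono hZ₂)))
        rw [Ex_congr_w h2] at h3
        rcases le_total 0 (q₂ - s ^ K) with h4 | h4
        · rwa [max_eq_right h4]
        · rw [max_eq_left h4, mul_zero, add_zero]
          exact hb w₂ (h.refine hx hmn hd hr₂'))
      fun w₂ hr₂ => hb w₂ (h.refine hx hmn hd (hr₁.trans (hr₂.mono hZ₁)))
    refine hdown _ _ _ h1 ?_
    have h2 : Ex (rev w E ξ) F₁ (hit o (Ah L α β x.1 x.2 K)) ≤ 1 := Ex_le hw₁ fun _ _ => hit_le_one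
    have h3 : q₂ ≤ 1 := Ex_le hw₁ fun _ _ => hit_le_one
    have h4 := pow_nonneg hs0 K
    rw [add_sub_cancel_left, mul_assoc]
    refine add_le_add_right (mul_le_mul_of_nonneg_left ?_ hab') _
    rcases le_total 0 (q₂ - s ^ K) with h5 | h5
    · rw [max_eq_right h5]
      nlinarith [mul_nonneg (sub_nonneg.2 (show q₂ - s ^ K ≤ 1 by linarith)) (sub_nonneg.2
        (show Ex (rev w E ξ) F₁ (hit o (Ah L α β x.1 x.2 K)) - s ^ K ≤ 1 by linarith))]
    · rw [max_eq_left h5]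
      linarith
  rw [Ex_add, Ex_const, Ex_mul_left, Ex_sub, Ex_sub, Ex_add, Ex_const, Ex_const, ← Ex_tower,
    ← Ex_tower] at key
  exact hdown _ _ _ key (add_le_add_right (mul_le_mul_of_nonneg_left (by linarith) hab') _)

end Vale.Agent.P151
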