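import Vale.Agent.P151.Defs

/-! Transport along the group action. -/

namespace Vale.Agent.P151

variable {V Γ : Type*} [DecidableEq V] [Group Γ] [MulAction Γ V]

omit [DecidableEq V] in
theorem smul_map_map (γ : Γ) (e : Sym2 V) : (e.map (γ • ·)).map (γ⁻¹ • ·) = e := by
  induction e using Sym2.ind with
  | h a b => simp

omit [DecidableEq V] in
theorem smul_map_map' (γ : Γ) (e : Sym2 V) : (e.map (γ⁻¹ • ·)).map (γ • ·) = e := by
  induction e using Sym2.ind with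
  | h a b => simp

omit [DecidableEq V] in
theorem smul_map_inj (γ : Γ) : Function.Injective (Sym2.map (γ • · : V → V)) :=
  Function.LeftInverse.injective (smul_map_map γ)

theorem conn_smul (γ : Γ) {ω : Finset (Sym2 V)} {a b : V} (h : Conn ω a b) :
    Conn (ω.image (Sym2.map (γ • ·))) (γ • a) (γ • b) := by
  induction h with
  | refl => exact Conn.refl _ _
  | tail _ h2 ih => exact ih.tail (Finset.mem_image.2 ⟨_, h2, rfl⟩)

theorem hit_smul (γ : Γ) (u : V) (T : Set V) (ω : Finset (Sym2 V)) :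
    hit u T ω ≤ hit (γ • u) {v | γ⁻¹ • v ∈ T} (ω.image (Sym2.map (γ • ·))) :=
  ind_mono fun ⟨x, hx, h⟩ => ⟨γ • x, by simpa using hx, conn_smul γ h⟩

theorem Ex_smul (γ : Γ) {w w' : Sym2 V → ℝ} (hw : Wt w) (h : ∀ e, w' (e.map (γ • ·)) = w e)
    (F : Finset (Sym2 V)) (u : V) (T : Set V) :
    Ex w F (hit u T) ≤ Ex w' (F.image (Sym2.map (γ • ·))) (hit (γ • u) {v | γ⁻¹ • v ∈ T}) := by
  rw [Ex_image _ (smul_map_inj γ), funext h]
  exact Ex_mono hw fun ω _ => hit_smul γ u T ω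

namespace Setup

variable (S : Setup V Γ)

theorem mem_nb_smul (γ : Γ) {a b : V} : γ • b ∈ S.nb (γ • a) ↔ b ∈ S.nb a :=
  ⟨fun h => by simpa using S.act γ⁻¹ _ _ h, S.act γ a b⟩

theorem smul_mem_ball (γ : Γ) {n : ℕ} {u v : V} (h : v ∈ ball S.nb n u) :
    γ • v ∈ ball S.nb n (γ • u) := by
  induction n generalizing v with
  | zero => rw [mem_ball_zero.1 h]; exact mem_ball_self
  | succ n ih =>
    rcases mem_ball_succ.1 h with h1 | ⟨a, ha, h1⟩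
    · exact mem_ball_succ.2 (Or.inl (ih h1))
    · exact ball_step (ih ha) (S.act γ a v h1)

theorem mem_ball_smul (γ : Γ) {n : ℕ} {u v : V} :
    γ • v ∈ ball S.nb n (γ • u) ↔ v ∈ ball S.nb n u :=
  ⟨fun h => by simpa using S.smul_mem_ball γ⁻¹ h, S.smul_mem_ball γ⟩

theorem mem_ball_smul' (γ : Γ) {n : ℕ} {u v : V} :
    v ∈ ball S.nb n (γ • u) ↔ γ⁻¹ • v ∈ ball S.nb n u := by
  rw [← S.mem_ball_smul γ (v := γ⁻¹ • v), smul_inv_smul]

theorem ball_smul (γ : Γ) (n : ℕ) (u : V) :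
    ball S.nb n (γ • u) = (ball S.nb n u).image (γ • ·) := by
  ext v
  rw [S.mem_ball_smul', Finset.mem_image]
  exact ⟨fun h => ⟨_, h, smul_inv_smul γ v⟩, fun ⟨x, hx, e⟩ => by rwa [← e, inv_smul_smul]⟩

theorem isE_smul (γ : Γ) {e : Sym2 V} : IsE S.nb (e.map (γ • ·)) ↔ IsE S.nb e := by
  induction e using Sym2.ind with
  | h a b => rw [Sym2.map_mk, isE_mk S.hnb, isE_mk S.hnb, S.mem_nb_smul]

theorem smul_mem_inE (γ : Γ) {r : ℕ} {u : V} {e : Sym2 V} (h : e ∈ inE S.nb (ball S.nb r u)) :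
    e.map (γ • ·) ∈ inE S.nb (ball S.nb r (γ • u)) := by
  obtain ⟨a, ha, b, hb, h1, rfl⟩ := mem_inE.1 h
  exact mem_inE.2 ⟨_, S.smul_mem_ball γ ha, _, S.smul_mem_ball γ hb, S.act γ a b h1, rfl⟩

theorem mem_inE_smul (γ : Γ) {r : ℕ} {u : V} {e : Sym2 V} :
    e.map (γ • ·) ∈ inE S.nb (ball S.nb r (γ • u)) ↔ e ∈ inE S.nb (ball S.nb r u) :=
  ⟨fun h => by simpa only [smul_map_map, inv_smul_smul] using S.smul_mem_inE γ⁻¹ h,
    S.smul_mem_inE γ⟩

theorem opn_smul (γ : Γ) (p : ℝ) (r : ℕ) (u : V) (e : Sym2 V) :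
    opn S.nb (fun _ => p) r (γ • u) (e.map (γ • ·)) = opn S.nb (fun _ => p) r u e := by
  by_cases h : e ∈ inE S.nb (ball S.nb r u)
  · rw [opn_of_mem h, opn_of_mem (S.smul_mem_inE γ h)]
  · rw [opn_of_not_mem h, opn_of_not_mem fun h' => h ((S.mem_inE_smul γ).1 h')]

theorem Lb_smul (γ : Γ) {p : ℝ} (hp0 : 0 ≤ p) (hp1 : p ≤ 1) {r : ℕ} {u : V}
    {ok : Sym2 V → Prop} {T : Set V} {c : ℝ}
    (h : Lb (opn S.nb (fun _ => p) r u) ok (hit u T) c) :
    Lb (opn S.nb (fun _ => p) r (γ • u)) (fun e => ok (e.map (γ⁻¹ • ·)))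
      (hit (γ • u) {v | γ⁻¹ • v ∈ T}) c := by
  obtain ⟨F, h1, h2⟩ := h
  refine ⟨F.image (Sym2.map (γ • ·)), fun e he => ?_, h2.trans
    (Ex_smul γ (Wt.opn (fun _ => ⟨hp0, hp1⟩) _ _ _) (S.opn_smul γ p r u) F u T)⟩
  obtain ⟨e', he', rfl⟩ := Finset.mem_image.1 he
  rw [smul_map_map]
  exact h1 e' he'

end Setup

end Vale.Agent.P151
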